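import Vale.Agent.P146.Rt.RtDefs

/-!
# P146, Rt: the average of the errors over the grid
-/

open MeasureTheory ProbabilityTheory Filter Topology

namespace Vale.Agent.P146.Ub.Ld

set_option linter.unusedSectionVars false

open Vale.Agent.P157 Vale.Agent.P157.Lv Vale.Agent.P157.Lv.Sy Vale.Agent.P157.Lv.Fld
open Vale.Agent.P157.Par (Path Exponents incr spinPart)
open Vale.Agent.P146 (Pair freeEnergy disorder)
open Vale.Agent.P146.Sk (PSK)

section Step

variable {n K N d : ℕ} {m s R : ℕ → ℝ} {β θ : ℝ}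

theorem gavg_ct_lt {j : ℕ} (hj : j < d) (s : ℕ → ℝ) (y : ℝ) :
    ct d (Function.update s j y) = ct d s := by
  funext l
  unfold ct
  split_ifs with h
  · rfl
  · rw [Function.update_of_ne (by omega)]

theorem gavg_ct_ge {j : ℕ} (hj : d ≤ j) (s : ℕ → ℝ) (y : ℝ) :
    ct d (Function.update s j y) = Function.update (ct d s) j y := by
  funext l
  rcases eq_or_ne l j with h | h
  · subst h
    rw [ct_ge hj, Function.update_self, Function.update_self]
  · rw [Function.update_of_ne h]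
    unfold ct
    rw [Function.update_of_ne h]

theorem gavg_ct_nonneg (hs : ∀ l ≤ K, 0 ≤ s l) : ∀ l ≤ K, 0 ≤ ct d s l := by
  intro l hl
  unfold ct
  split_ifs with h
  · exact le_rfl
  · exact hs l hl

/-- The average of the second differences. -/
theorem gavg_dl {M : ℕ} {β : ℝ} (hd : d ≤ K) (hN : N ≤ n) (h0 : 0 < N)
    (hm : Exponents K m) (hM : 0 < M) {σ t : ℝ} (ht : 0 < t) (hσ : t ≤ σ) {j : ℕ} (hdj : d ≤ j)
    (hj : j ≤ K) :
    ∑ k : Fin (K + 1) → Fin M, dl n K d m β N (ct d (gp σ t k)) t j ≤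
      (M : ℝ) ^ K * (t * (N * (σ + M * t))) := by
  have h1 := avg_dl (K := K) (A := fun s => AN n K d m β N (ct d s))
      (C := fun j s => if j < d then 0 else (SN n K d m β N (ct d s)).Ex (gx hN j)) hM ht hσ
      (Nat.cast_nonneg N)
      (fun s j hj x => by
        split_ifs with h
        · rw [mul_zero, add_zero, gavg_ct_lt h]
        · rw [gavg_ct_ge (not_lt.1 h)]
          have h2 := AN_tangent (β := β) (N := N) hd hN hm (ct d s) hj x
          rwa [ct_ge (not_lt.1 h)] at h2)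
      (fun s hs j hj => by
        split_ifs with h
        · exact ⟨le_rfl, mul_nonneg (Nat.cast_nonneg N) (hs j hj)⟩
        · have h2 := AN_slope (β := β) hd hN h0 hm (gavg_ct_nonneg (d := d) hs) hj
          rwa [ct_ge (not_lt.1 h)] at h2) hj
  refine le_trans (le_of_eq (Finset.sum_congr rfl fun k _ => ?_)) h1
  rw [dl, gavg_ct_ge hdj, gavg_ct_ge hdj, ct_ge hdj]

theorem gavg_num {l N B x y c : ℝ} (hl : 1 ≤ l) (hN : 0 < N) (hB : 0 ≤ B) (hc0 : 0 ≤ c)
    (hc : c ≤ l) (hx : x ≤ c * (1 / (2 * l ^ 3) * N / l ^ 3)) (hy : y ≤ 1) :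
    1 / (N * (1 / (2 * l ^ 3))) * (2 * x) + 1 / (N * (1 / (2 * l ^ 3))) * (c * (B + l * y)) ≤
      2 / l ^ 2 + 2 * (B + 1) * l ^ 5 / N := by
  have hl0 : 0 < l := by linarith
  have e1 : 1 / (N * (1 / (2 * l ^ 3))) = 2 * l ^ 3 / N := by
    field_simp
  rw [e1]
  have h1 : 2 * l ^ 3 / N * (2 * x) ≤
      2 * l ^ 3 / N * (2 * (l * (1 / (2 * l ^ 3) * N / l ^ 3))) := by
    refine mul_le_mul_of_nonneg_left ?_ (by positivity)
    have : c * (1 / (2 * l ^ 3) * N / l ^ 3) ≤ l * (1 / (2 * l ^ 3) * N / l ^ 3) :=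
      mul_le_mul_of_nonneg_right hc (by positivity)
    linarith
  have e2 : 2 * l ^ 3 / N * (2 * (l * (1 / (2 * l ^ 3) * N / l ^ 3))) = 2 / l ^ 2 := by
    field_simp
  have h2 : c * (B + l * y) ≤ l * (l * (B + 1)) := by
    have h3 : B + l * y ≤ l * (B + 1) := by
      have h4 : l * y ≤ l * 1 := mul_le_mul_of_nonneg_left hy hl0.le
      have h5 : 1 * B ≤ l * B := mul_le_mul_of_nonneg_right hl hB
      linarith
    calc c * (B + l * y) ≤ c * (l * (B + 1)) := mul_le_mul_of_nonneg_left h3 hc0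
      _ ≤ l * (l * (B + 1)) := mul_le_mul_of_nonneg_right hc (by positivity)
  have h6 : 2 * l ^ 3 / N * (c * (B + l * y)) ≤ 2 * l ^ 3 / N * (l * (l * (B + 1))) :=
    mul_le_mul_of_nonneg_left h2 (by positivity)
  have e3 : 2 * l ^ 3 / N * (l * (l * (B + 1))) = 2 * (B + 1) * l ^ 5 / N := by
    ring
  linarith

theorem gavg {β : ℝ} (hd : d ≤ K) (hN : N ≤ n) (h0 : 0 < N) :
    rAv (fun k : Fin (K + 1) → Fin ((K + 1) ^ 2) => ges n K d (me K) β N
      (ct d (gp (1 / (2 * ((K : ℝ) + 1))) (1 / (2 * ((K : ℝ) + 1) ^ 3)) k))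
      (1 / (2 * ((K : ℝ) + 1) ^ 3))) ≤
      2 / ((K : ℝ) + 1) ^ 2 + 2 * (3 * β ^ 2 + 1) * ((K : ℝ) + 1) ^ 5 / N := by
  obtain ⟨l, hl⟩ : ∃ l : ℝ, l = (K : ℝ) + 1 := ⟨_, rfl⟩
  have hl1 : 1 ≤ l := by rw [hl]; linarith [Nat.cast_nonneg (α := ℝ) K]
  have hl0 : 0 < l := by linarith
  have hM : 0 < (K + 1) ^ 2 := by positivity
  have hMl : (((K + 1) ^ 2 : ℕ) : ℝ) = l ^ 2 := by rw [hl]; push_cast; ring
  have hN0 : (0 : ℝ) < N := by exact_mod_cast h0
  rw [← hl]
  obtain ⟨t, ht⟩ : ∃ t : ℝ, t = 1 / (2 * l ^ 3) := ⟨_, rfl⟩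
  have ht0 : 0 < t := by rw [ht]; positivity
  have htσ : t ≤ 1 / (2 * l) := by
    rw [ht]
    apply one_div_le_one_div_of_le (by positivity)
    have : l ≤ l ^ 3 := le_self_pow₀ hl1 (by norm_num)
    linarith
  have e3 : Real.log 2 / me K 1 = l * Real.log 2 := by
    unfold me
    rw [hl]
    push_cast
    rw [div_div_eq_mul_div, div_one]
    ring
  have hcard : (Fintype.card (Fin (K + 1) → Fin ((K + 1) ^ 2)) : ℝ) = (l ^ 2) ^ (K + 1) := by
    rw [Fintype.card_pi_const, Fintype.card_fin]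
    rw [Nat.cast_pow, hMl]
  -- the errors
  have h2 : ∀ k : Fin (K + 1) → Fin ((K + 1) ^ 2),
      ges n K d (me K) β N (ct d (gp (1 / (2 * l)) t k)) t =
      1 / (N * t) * (2 * ∑ j ∈ Finset.Ico d (K + 1),
        dl n K d (me K) β N (ct d (gp (1 / (2 * l)) t k)) t j) +
      1 / (N * t) * (((K + 1 - d : ℕ) : ℝ) * (3 * β ^ 2 + l * Real.log 2)) := by
    intro k
    rw [ges]
    have h3 : ∀ j ∈ Finset.Ico d (K + 1),
        ger n K d (me K) β N (ct d (gp (1 / (2 * l)) t k)) t j =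
        1 / (N * t) * (2 * dl n K d (me K) β N (ct d (gp (1 / (2 * l)) t k)) t j) +
        1 / (N * t) * (3 * β ^ 2 + l * Real.log 2) := by
      intro j hj
      have hj' := Finset.mem_Ico.1 hj
      rw [ger, if_pos (by omega), e3]
      ring
    rw [Finset.sum_congr rfl h3, Finset.sum_add_distrib, Finset.sum_const, Nat.card_Ico,
      nsmul_eq_mul, ← Finset.mul_sum, ← Finset.mul_sum]
    ring
  have : Nonempty (Fin (K + 1) → Fin ((K + 1) ^ 2)) := ⟨fun _ => ⟨0, hM⟩⟩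
  rw [← ht]
  simp only [h2]
  rw [rAv_add, rAv_mul, rAv_mul, rAv_const]
  have h4 : rAv (fun k : Fin (K + 1) → Fin ((K + 1) ^ 2) => ∑ j ∈ Finset.Ico d (K + 1),
      dl n K d (me K) β N (ct d (gp (1 / (2 * l)) t k)) t j) ≤
      ((K + 1 - d : ℕ) : ℝ) * (t * N / l ^ 3) := by
    unfold rAv
    rw [hcard, Finset.sum_comm]
    have h5 : ∑ j ∈ Finset.Ico d (K + 1), ∑ k : Fin (K + 1) → Fin ((K + 1) ^ 2),
        dl n K d (me K) β N (ct d (gp (1 / (2 * l)) t k)) t j ≤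
        ∑ j ∈ Finset.Ico d (K + 1), ((l ^ 2) ^ K * (t * (N * (1 / l)))) := by
      refine Finset.sum_le_sum fun j hj => ?_
      have hj' := Finset.mem_Ico.1 hj
      have h6 := gavg_dl (n := n) (K := K) (N := N) (β := β) hd hN h0 (me_exp K) hM ht0 htσ hj'.1
        (Nat.le_of_lt_succ hj'.2)
      rw [hMl] at h6
      have e1 : 1 / (2 * l) + l ^ 2 * t = 1 / l := by
        rw [ht]; field_simp; ring
      rwa [e1] at h6
    rw [Finset.sum_const, Nat.card_Ico, nsmul_eq_mul] at h5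
    have h7 := mul_le_mul_of_nonneg_left h5
      (by positivity : (0 : ℝ) ≤ 1 / (l ^ 2) ^ (K + 1))
    refine h7.trans (le_of_eq ?_)
    rw [pow_succ]
    field_simp
  have hc : ((K + 1 - d : ℕ) : ℝ) ≤ l := by
    rw [hl]
    have : ((K + 1 - d : ℕ) : ℝ) ≤ ((K + 1 : ℕ) : ℝ) := by exact_mod_cast Nat.sub_le _ _
    push_cast at this
    exact this
  have hlog : Real.log 2 ≤ 1 := by
    have := Real.log_two_lt_d9
    linarith
  rw [ht] at h4 ⊢
  exact gavg_num hl1 hN0 (by positivity) (Nat.cast_nonneg _) hc h4 hlog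

end Step

end Vale.Agent.P146.Ub.Ld
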