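import Vale.Agent.P146.Rt.RtDefs

/-!
# P146, Rt: the weights `w_l = T_l ε · ε` (helper206)

`T_l` is a projection: `Ex w_l = Ex (T_l ε)²`, hence `0 ≤ Ex w_l ≤ 1`,
`Ex (w_l - w_{l+1})² ≤ Ex w_{l+1} - Ex w_l` and `pairEx_l (ε ε') = Ex w_l`.
-/

open MeasureTheory ProbabilityTheory Filter Topology

namespace Vale.Agent.P146.Ub.Ld

set_option linter.unusedSectionVars false

open Vale.Agent.P157 Vale.Agent.P157.Lv Vale.Agent.P157.Lv.Sy Vale.Agent.P157.Lv.Fld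

section gen

variable {ι X : Type} [Fintype ι] [DecidableEq ι] [Fintype X] [DecidableEq X] [Nonempty X] {N : ℕ}
  {S : Sy ι X} {D : ι → (ι → ℝ) → X → ℝ} {φ : X → Fin N → ℝ} {zc : ℕ → Fin N → ι} {s : ℕ → ℝ}

namespace W206

/-- the conditional average of `ε` -/
noncomputable def tt (S : Sy ι X) (ε : X → ℝ) (l : ℕ) : (ι → ℝ) → ℝ := S.T l (fun _ y => ε y)

lemma eg_tt (hS : S.Reg) (ε : X → ℝ) {l : ℕ} (hl : l ≤ S.K) : EG (tt S ε l) :=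
  hS.eg_T hl (Nh.snd ε)

lemma dep_tt (S : Sy ι X) (ε : X → ℝ) (l : ℕ) : Dep S.lev l (tt S ε l) :=
  S.dep_T l (fun _ x => ε x)

lemma gw_eq (S : Sy ι X) (ε : X → ℝ) (l : ℕ) : gw S ε l = fun z x => tt S ε l z * ε x := rfl

lemma nh_gw (hS : S.Reg) (ε : X → ℝ) {l : ℕ} (hl : l ≤ S.K) : Nh (gw S ε l) := by
  rw [gw_eq]
  exact Nh.mul (Nh.fst (eg_tt hS ε hl)) (Nh.snd ε)

lemma Ex_gw (hS : S.Reg) (ε : X → ℝ) {l : ℕ} (hl : l ≤ S.K) :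
    S.Ex (gw S ε l) = S.Ex (fun z _ => tt S ε l z ^ 2) := by
  have h := hS.Ex_mul_T hl (dep_tt S ε l) (eg_tt hS ε hl) (Nh.snd ε)
  rw [gw_eq, ← h]
  congr 1
  funext z _
  rw [sq]
  rfl

lemma Ex_tt_mul (hS : S.Reg) (ε : X → ℝ) {l k : ℕ} (hlk : l ≤ k) (hk : k ≤ S.K) :
    S.Ex (fun z _ => tt S ε l z * tt S ε k z) = S.Ex (fun z _ => tt S ε l z ^ 2) := by
  have hl := hlk.trans hk
  have h1 := hS.Ex_mul_T hk ((dep_tt S ε l).mono hlk) (eg_tt hS ε hl) (Nh.snd ε)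
  rw [← Ex_gw hS ε hl, gw_eq]
  exact h1

lemma abs_tt_le (hS : S.Reg) {ε : X → ℝ} (hε : ∀ x, |ε x| ≤ 1) {l : ℕ} (hl : l ≤ S.K)
    (z : ι → ℝ) : |tt S ε l z| ≤ 1 := by
  have e : tt S ε l z = ∑ x, S.pr l z x * ε x := hS.T_pr hl ε z
  rw [e]
  refine (Finset.abs_sum_le_sum_abs _ _).trans ?_
  rw [← hS.sum_pr hl z]
  refine Finset.sum_le_sum fun x _ => ?_
  rw [abs_mul, abs_of_nonneg (hS.pr_nonneg hl z x)]
  exact mul_le_of_le_one_right (hS.pr_nonneg hl z x) (hε x)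

end W206

open W206

theorem gw_nonneg (F : Fld S D φ zc s) {ε : X → ℝ} (hε : ∀ x, |ε x| ≤ 1) {l : ℕ}
    (hl : l ≤ S.K) : 0 ≤ S.Ex (gw S ε l) ∧ S.Ex (gw S ε l) ≤ 1 := by
  have hS := F.hreg
  have ht := (eg_tt hS ε hl).pow 2
  rw [Ex_gw hS ε hl]
  constructor
  · rw [← hS.Ex_const 0]
    exact hS.Ex_mono (Nh.fst (EG.const 0)) (Nh.fst ht) fun z _ => sq_nonneg _
  · rw [← hS.Ex_const 1]
    refine hS.Ex_mono (Nh.fst ht) (Nh.fst (EG.const 1)) fun z _ => ?_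
    have h := abs_tt_le hS hε hl z
    nlinarith [abs_le.mp h, sq_abs (tt S ε l z), abs_nonneg (tt S ε l z)]

theorem gw_diff (F : Fld S D φ zc s) {ε : X → ℝ} (hε : ∀ x, |ε x| ≤ 1) {l : ℕ} (hl : l < S.K) :
    S.Ex (fun z x => (gw S ε l z x - gw S ε (l + 1) z x) ^ 2) ≤
      S.Ex (gw S ε (l + 1)) - S.Ex (gw S ε l) := by
  have hS := F.hreg
  have e0 := eg_tt hS ε (l := l) hl.le
  have e1 := eg_tt hS ε (l := l + 1) hl
  have n0 := nh_gw hS ε (l := l) hl.le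
  have n1 := nh_gw hS ε (l := l + 1) hl
  have h1 : S.Ex (fun z x => (gw S ε l z x - gw S ε (l + 1) z x) ^ 2) ≤
      S.Ex (fun z _ => (tt S ε (l + 1) z - tt S ε l z) ^ 2) := by
    refine hS.Ex_mono (Nh.pow (Nh.sub n0 n1) 2) (Nh.fst ((e1.sub e0).pow 2)) fun z x => ?_
    have h2 : (gw S ε l z x - gw S ε (l + 1) z x) ^ 2 =
        (tt S ε (l + 1) z - tt S ε l z) ^ 2 * ε x ^ 2 := by
      rw [gw_eq, gw_eq]; ring
    rw [h2]
    have h3 : ε x ^ 2 ≤ 1 := by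
      nlinarith [hε x, sq_abs (ε x), abs_nonneg (ε x)]
    exact mul_le_of_le_one_right (sq_nonneg _) h3
  refine h1.trans (le_of_eq ?_)
  rw [Ex_gw hS ε hl.le, Ex_gw hS ε (l := l + 1) hl]
  have h4 : (fun (z : ι → ℝ) (_ : X) => (tt S ε (l + 1) z - tt S ε l z) ^ 2) =
      fun z x => ((fun (z : ι → ℝ) (_ : X) => tt S ε (l + 1) z ^ 2) z x -
        (fun (z : ι → ℝ) (_ : X) => 2 * (tt S ε l z * tt S ε (l + 1) z)) z x) +
        (fun (z : ι → ℝ) (_ : X) => tt S ε l z ^ 2) z x := by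
    funext z _
    ring
  rw [h4, hS.Ex_add (Nh.sub (Nh.fst (e1.pow 2))
    (Nh.fst (EG.const_mul 2 (e0.mul e1)))) (Nh.fst (e0.pow 2)),
    hS.Ex_sub (Nh.fst (e1.pow 2)) (Nh.fst (EG.const_mul 2 (e0.mul e1))),
    Sy.Ex_const_mul, Ex_tt_mul hS ε (Nat.le_succ l) hl]
  ring

theorem gw_pair (F : Fld S D φ zc s) (ε : X → ℝ) {l : ℕ} (hl : l ≤ S.K) :
    S.pairEx l (fun x x' => ε x * ε x') = S.Ex (gw S ε l) := by
  have hS := F.hreg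
  rw [Ex_gw hS ε hl, Sy.pairEx]
  congr 1
  funext z _
  have e : tt S ε l z = ∑ x, S.pr l z x * ε x := hS.T_pr hl ε z
  rw [e, sq, Finset.sum_mul_sum]
  refine Finset.sum_congr rfl fun x _ => Finset.sum_congr rfl fun x' _ => ?_
  ring

end gen

end Vale.Agent.P146.Ub.Ld
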