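import Vale.Agent.P146.Rt.RtDefs

/-!
# P146, Rt: the moments of the overlap and of `u_l`; the pair moment weighted by `ε`
-/

open MeasureTheory ProbabilityTheory Filter Topology

namespace Vale.Agent.P146.Ub.Ld

set_option linter.unusedSectionVars false

open Vale.Agent.P157 Vale.Agent.P157.Lv Vale.Agent.P157.Lv.Sy Vale.Agent.P157.Lv.Fld

section gen

variable {ι X : Type} [Fintype ι] [DecidableEq ι] [Fintype X] [DecidableEq X] [Nonempty X] {N : ℕ}
  {S : Sy ι X} {D : ι → (ι → ℝ) → X → ℝ} {φ : X → Fin N → ℝ} {zc : ℕ → Fin N → ι} {s : ℕ → ℝ}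

/-- The average of an observable whose dependence on `z` is of the level `l`. -/
theorem w3_Ex_pr (hS : S.Reg) {l : ℕ} (hl : l ≤ S.K) {g : (ι → ℝ) → X → ℝ}
    (hd : ∀ y, Dep S.lev l (fun z => g z y)) (hn : Nh g) :
    S.Ex g = S.Ex (fun z _ => ∑ y, S.pr l z y * g z y) := by
  have nI : ∀ y : X, Nh (ι := ι) (X := X) (fun _ x => if x = y then (1 : ℝ) else 0) := fun y =>
    Nh.snd fun x => if x = y then (1 : ℝ) else 0
  have e : g = fun (z : ι → ℝ) (x : X) => ∑ y, g z y * (if x = y then (1 : ℝ) else 0) := by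
    funext z x
    simp
  have h1 : S.Ex g =
      ∑ y, S.Ex (fun (z : ι → ℝ) (x : X) => g z y * (if x = y then (1 : ℝ) else 0)) := by
    conv_lhs => rw [e]
    exact hS.Ex_sum Finset.univ fun y _ => Nh.mul (Nh.fst (hn y)) (nI y)
  have h2 : S.Ex (fun z (_ : X) => ∑ y, S.pr l z y * g z y) =
      ∑ y, S.Ex (fun z (_ : X) => S.pr l z y * g z y) :=
    hS.Ex_sum Finset.univ fun y _ => Nh.fst ((hS.eg_pr hl y).mul (hn y))
  rw [h1, h2]
  refine Finset.sum_congr rfl fun y _ => ?_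
  rw [← hS.Ex_mul_T hl (hd y) (hn y) (nI y)]
  congr 1
  funext z _
  rw [mul_comm]
  rfl

theorem w3_dep_uu (S : Sy ι X) (φ : X → Fin N → ℝ) (l : ℕ) (y : X) :
    Dep S.lev l (fun z => uu S φ l z y) := by
  intro z w
  simp only [uu]
  congr 1
  refine Finset.sum_congr rfl fun a _ => ?_
  rw [dep_mg S φ l a z w]

theorem w3_Rov_symm (φ : X → Fin N → ℝ) (x x' : X) : Rov φ x x' = Rov φ x' x := by
  unfold Rov
  congr 1
  exact Finset.sum_congr rfl fun i _ => mul_comm _ _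

/-- The conditional variance of the overlap. -/
noncomputable def w3B (S : Sy ι X) (φ : X → Fin N → ℝ) (l : ℕ) (z : ι → ℝ) : ℝ :=
  ∑ x, ∑ x', S.pr l z x * S.pr l z x' * (Rov φ x x' - uu S φ l z x') ^ 2

theorem w3B_eq (F : Fld S D φ zc s) {l : ℕ} (hl : l ≤ S.K) (z : ι → ℝ) :
    w3B S φ l z = (∑ x, ∑ x', S.pr l z x * S.pr l z x' * Rov φ x x' ^ 2) -
      ∑ x', S.pr l z x' * (uu S φ l z x' * uu S φ l z x') := by
  have hS := F.hreg
  have h1 := hS.sum_pr hl z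
  unfold w3B
  rw [Finset.sum_comm, Finset.sum_comm (f := fun x x' => S.pr l z x * S.pr l z x' * Rov φ x x' ^ 2),
    ← Finset.sum_sub_distrib]
  refine Finset.sum_congr rfl fun x' _ => ?_
  have h2 := F.uu_eq hl z x'
  have e : ∀ x, S.pr l z x * S.pr l z x' * (Rov φ x x' - uu S φ l z x') ^ 2 =
      S.pr l z x * S.pr l z x' * Rov φ x x' ^ 2 -
        (2 * S.pr l z x' * uu S φ l z x') * (S.pr l z x * Rov φ x x') +
        (S.pr l z x' * uu S φ l z x' ^ 2) * S.pr l z x := by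
    intro x; ring
  simp_rw [e]
  rw [Finset.sum_add_distrib, Finset.sum_sub_distrib, ← Finset.mul_sum, ← Finset.mul_sum, h1, ← h2]
  ring

theorem w3_nh_B (F : Fld S D φ zc s) {l : ℕ} (hl : l ≤ S.K) : EG (w3B S φ l) := by
  have hS := F.hreg
  exact EG.sum _ fun x _ => EG.sum _ fun x' _ =>
    ((hS.eg_pr hl x).mul (hS.eg_pr hl x')).mul (((EG.const _).sub (nh_uu hS hl x')).pow 2)

theorem w3B_nonneg (hS : S.Reg) {l : ℕ} (hl : l ≤ S.K) (z : ι → ℝ) : 0 ≤ w3B S φ l z :=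
  Finset.sum_nonneg fun x _ => Finset.sum_nonneg fun x' _ =>
    mul_nonneg (mul_nonneg (hS.pr_nonneg hl z x) (hS.pr_nonneg hl z x')) (sq_nonneg _)

/-- The difference of the two second moments is the mean conditional variance of the overlap. -/
theorem w3_QW (F : Fld S D φ zc s) {l : ℕ} (hl : l ≤ S.K) :
    gQ S φ l - gW S φ l = S.Ex (fun z _ => w3B S φ l z) := by
  have hS := F.hreg
  have nu := nh_uu (φ := φ) hS hl
  have h1 : gW S φ l =
      S.Ex (fun z _ => ∑ x', S.pr l z x' * (uu S φ l z x' * uu S φ l z x')) := by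
    unfold gW
    exact w3_Ex_pr hS hl (g := fun z x => uu S φ l z x * uu S φ l z x)
      (fun y z w => by
        have h := w3_dep_uu S φ l y z w
        simp only at h ⊢
        rw [h]) (Nh.mul nu nu)
  rw [h1, gQ, pairEx, ← hS.Ex_sub (Nh.fst (hS.nh_pair hl _))
    (Nh.fst (EG.sum _ fun x' _ => (hS.eg_pr hl x').mul ((nu x').mul (nu x'))))]
  congr 1
  funext z _
  exact (w3B_eq F hl z).symm

theorem gQW_nonneg (F : Fld S D φ zc s) {l : ℕ} (hl : l ≤ S.K) :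
    0 ≤ gQ S φ l - gW S φ l := by
  have hS := F.hreg
  rw [w3_QW F hl, ← hS.Ex_const 0]
  exact hS.Ex_mono (Nh.fst (EG.const 0)) (Nh.fst (w3_nh_B F hl)) fun z _ => w3B_nonneg hS hl z

/-- The conditional average in `gw_pairR`. -/
noncomputable def w3A (S : Sy ι X) (φ : X → Fin N → ℝ) (ε : X → ℝ) (l : ℕ) (z : ι → ℝ) : ℝ :=
  ∑ x, ∑ x', S.pr l z x * S.pr l z x' * (ε x * ε x' * (Rov φ x x' - uu S φ l z x'))

theorem w3_nh_A (F : Fld S D φ zc s) (ε : X → ℝ) {l : ℕ} (hl : l ≤ S.K) :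
    EG (w3A S φ ε l) := by
  have hS := F.hreg
  exact EG.sum _ fun x _ => EG.sum _ fun x' _ =>
    ((hS.eg_pr hl x).mul (hS.eg_pr hl x')).mul
      ((EG.const _).mul ((EG.const _).sub (nh_uu hS hl x')))

theorem w3A_eq (F : Fld S D φ zc s) (ε : X → ℝ) {l : ℕ} (hl : l ≤ S.K) :
    S.pairEx l (fun x x' => ε x * ε x' * Rov φ x x') -
      S.Ex (fun z x => gw S ε l z x * uu S φ l z x) = S.Ex (fun z _ => w3A S φ ε l z) := by
  have hS := F.hreg
  have nu := nh_uu (φ := φ) hS hl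
  have nw : Nh (gw S ε l) := fun x => (hS.eg_T hl (Nh.snd fun y => ε y)).mul (EG.const _)
  have h1 : S.Ex (fun z x => gw S ε l z x * uu S φ l z x) =
      S.Ex (fun z _ => ∑ x', S.pr l z x' * (gw S ε l z x' * uu S φ l z x')) := by
    exact w3_Ex_pr hS hl (g := fun z x => gw S ε l z x * uu S φ l z x)
      (fun y z w => by
        have h := w3_dep_uu S φ l y z w
        have h' := S.dep_T l (fun _ y => ε y) z w
        simp only [gw] at h ⊢
        rw [h, h']) (Nh.mul nw nu)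
  rw [h1, pairEx, ← hS.Ex_sub (Nh.fst (hS.nh_pair hl _))
    (Nh.fst (EG.sum _ fun x' _ => (hS.eg_pr hl x').mul ((nw x').mul (nu x'))))]
  congr 1
  funext z _
  unfold w3A
  rw [Finset.sum_comm, Finset.sum_comm (s := (Finset.univ : Finset X))
    (f := fun x x' => S.pr l z x * S.pr l z x' * (ε x * ε x' * (Rov φ x x' - uu S φ l z x'))),
    ← Finset.sum_sub_distrib]
  refine Finset.sum_congr rfl fun x' _ => ?_
  have h2 := hS.T_pr hl ε z
  have e : gw S ε l z x' = (∑ x, S.pr l z x * ε x) * ε x' := by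
    rw [← h2]
    rfl
  rw [e, Finset.sum_mul, Finset.sum_mul, Finset.mul_sum, ← Finset.sum_sub_distrib]
  refine Finset.sum_congr rfl fun x _ => ?_
  ring

theorem w3A_sq (hS : S.Reg) {ε : X → ℝ} (hε : ∀ x, |ε x| ≤ 1) {l : ℕ} (hl : l ≤ S.K)
    (z : ι → ℝ) : w3A S φ ε l z ^ 2 ≤ w3B S φ l z := by
  refine (hS.pair_cs hl (fun x x' => ε x * ε x' * (Rov φ x x' - uu S φ l z x')) z).trans ?_
  refine Finset.sum_le_sum fun x _ => Finset.sum_le_sum fun x' _ => ?_
  refine mul_le_mul_of_nonneg_left ?_ (mul_nonneg (hS.pr_nonneg hl z x) (hS.pr_nonneg hl z x'))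
  rw [mul_pow, mul_pow]
  have h1 : ε x ^ 2 ≤ 1 := (sq_le_one_iff_abs_le_one _).2 (hε x)
  have h2 : ε x' ^ 2 ≤ 1 := (sq_le_one_iff_abs_le_one _).2 (hε x')
  exact mul_le_of_le_one_left (sq_nonneg _) (mul_le_one₀ h1 (sq_nonneg _) h2)

theorem gw_pairR (F : Fld S D φ zc s) {ε : X → ℝ} (hε : ∀ x, |ε x| ≤ 1) {l : ℕ}
    (hl : l ≤ S.K) :
    |S.pairEx l (fun x x' => ε x * ε x' * Rov φ x x') -
      S.Ex (fun z x => gw S ε l z x * uu S φ l z x)| ≤ √(gQ S φ l - gW S φ l) := by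
  have hS := F.hreg
  rw [w3A_eq F ε hl, w3_QW F hl]
  refine Real.abs_le_sqrt ?_
  have h1 := hS.Ex_cs (Nh.fst (X := X) (w3_nh_A (φ := φ) F ε hl))
    (Nh.fst (X := X) (EG.const (1 : ℝ)))
  simp only [mul_one, one_pow, hS.Ex_const] at h1
  exact h1.trans (hS.Ex_mono (Nh.fst ((w3_nh_A F ε hl).pow 2)) (Nh.fst (w3_nh_B F hl))
    fun z _ => w3A_sq hS hε hl z)

end gen

end Vale.Agent.P146.Ub.Ld
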