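import Vale.Agent.P146.Rt.RtW1
import Vale.Agent.P146.Rt.RtW2
import Vale.Agent.P146.Rt.RtW3

/-!
# P146, Rt: one level, one test function
-/

open MeasureTheory ProbabilityTheory Filter Topology

namespace Vale.Agent.P146.Ub.Ld

set_option linter.unusedSectionVars false

open Vale.Agent.P157 Vale.Agent.P157.Lv Vale.Agent.P157.Lv.Sy Vale.Agent.P157.Lv.Fld

variable {ι X : Type} [Fintype ι] [DecidableEq ι] [Fintype X] [DecidableEq X] [Nonempty X] {N : ℕ}
  {S : Sy ι X} {D : ι → (ι → ℝ) → X → ℝ} {φ : X → Fin N → ℝ} {zc : ℕ → Fin N → ι} {s : ℕ → ℝ}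

theorem gJ (F : Fld S D φ zc s) {d : ℕ} {σ π : ℝ} (hσ : 0 < σ) (hπ : 0 < π)
    (hs : ∀ l, d ≤ l → l ≤ S.K → σ ≤ s l) (hp : ∀ l ≤ S.K, π ≤ S.p l) {e : ℕ → ℝ}
    (he : ∀ l, 0 ≤ e l)
    (hc : ∀ l, d ≤ l → l ≤ S.K → ∃ c, S.Ex (fun z x => |hz φ zc l z x - c|) ≤ e l)
    {ε : X → ℝ} (hε : ∀ x, |ε x| ≤ 1) {l : ℕ} (hd : d ≤ l) (hl : l < S.K) (q : ℝ) :
    |S.pairEx l (fun x x' => ε x * ε x' * (Rov φ x x' - q))| ≤
      √(gQ S φ l - gW S φ l) + √(S.Ex (gw S ε (l + 1)) - S.Ex (gw S ε l)) * √(gV S φ l) +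
        2 * (e l + e (l + 1)) / (σ * π) + |S.Rl φ l - q| := by
  have hS := F.hreg
  have hlK := hl.le
  have hl1 : l + 1 ≤ S.K := hl
  have nu := nh_uu (φ := φ) hS hlK
  have ng0 : Nh (gw S ε l) := Nh.mul (Nh.fst (hS.eg_T hlK (Nh.snd ε))) (Nh.snd ε)
  have ng1 : Nh (gw S ε (l + 1)) := Nh.mul (Nh.fst (hS.eg_T hl1 (Nh.snd ε))) (Nh.snd ε)
  have nc : ∀ c : ℝ, Nh (ι := ι) (X := X) (fun _ _ => c) := fun c => Nh.fst (EG.const c)
  set R : ℝ := S.Rl φ l with hR
  set A : ℝ := S.Ex (gw S ε l) with hA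
  set B : ℝ := S.Ex (gw S ε (l + 1)) with hB
  set P : ℝ := S.pairEx l (fun x x' => ε x * ε x' * Rov φ x x') with hP
  set U : ℝ := S.Ex (fun z x => gw S ε l z x * uu S φ l z x) with hU
  set U' : ℝ := S.Ex (fun z x => gw S ε (l + 1) z x * uu S φ l z x) with hU'
  -- the pair average
  have e1 : S.pairEx l (fun x x' => ε x * ε x' * (Rov φ x x' - q)) = P - q * A := by
    have e2 : (fun x x' => ε x * ε x' * (Rov φ x x' - q)) =
        fun x x' => ε x * ε x' * Rov φ x x' + (-q) * (ε x * ε x') := by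
      funext x x'
      ring
    rw [e2, hS.pairEx_add hlK, hS.pairEx_const_mul, gw_pair F ε hlK]
    simp only [hP, hA]
    ring
  have h1 : |P - U| ≤ √(gQ S φ l - gW S φ l) := gw_pairR F hε hlK
  -- the covariance with the next level
  have h2 : |U' - B * R| ≤ 2 * (e l + e (l + 1)) / (σ * π) := by
    have h := gw_field F hσ hs he hc hε hd (Nat.lt_succ_self l) hl1
    have h3 : π * |U' - B * R| ≤ 2 * (e l + e (l + 1)) / σ :=
      (mul_le_mul_of_nonneg_right (hp l hlK) (abs_nonneg _)).trans h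
    rw [← div_div, le_div_iff₀ hπ, mul_comm]
    exact h3
  -- Cauchy-Schwarz
  have nd : Nh (fun z x => gw S ε l z x - gw S ε (l + 1) z x) := Nh.sub ng0 ng1
  have nv : Nh (fun z x => uu S φ l z x - R) := Nh.sub nu (nc R)
  have e3 : (U - R * A) - (U' - B * R) =
      S.Ex (fun z x => (gw S ε l z x - gw S ε (l + 1) z x) * (uu S φ l z x - R)) := by
    have e4 : (fun z x => (gw S ε l z x - gw S ε (l + 1) z x) * (uu S φ l z x - R)) =
        fun z x => (gw S ε l z x * uu S φ l z x - gw S ε (l + 1) z x * uu S φ l z x) -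
          (R * gw S ε l z x - R * gw S ε (l + 1) z x) := by
      funext z x
      ring
    rw [e4, hS.Ex_sub (Nh.sub (Nh.mul ng0 nu) (Nh.mul ng1 nu))
      (Nh.sub (Nh.const_mul _ ng0) (Nh.const_mul _ ng1)), hS.Ex_sub (Nh.mul ng0 nu) (Nh.mul ng1 nu),
      hS.Ex_sub (Nh.const_mul _ ng0) (Nh.const_mul _ ng1), Sy.Ex_const_mul, Sy.Ex_const_mul]
    simp only [hU, hU', hA, hB]
    ring
  have h3 : |(U - R * A) - (U' - B * R)| ≤ √(B - A) * √(gV S φ l) := by
    rw [e3]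
    have hV0 : 0 ≤ gV S φ l := by
      rw [gV, ← hS.Ex_const 0]
      exact hS.Ex_mono (nc 0) (Nh.pow nv 2) fun z x => sq_nonneg _
    have h4 := hS.Ex_cs nd nv
    have h5 := gw_diff F hε hl
    rw [← Real.sqrt_mul' _ hV0]
    refine Real.abs_le_sqrt (h4.trans ?_)
    exact mul_le_mul_of_nonneg_right h5 hV0
  -- the deterministic part
  have h6 := gw_nonneg F hε hlK
  have h7 : |(R - q) * A| ≤ |R - q| := by
    rw [abs_mul, abs_of_nonneg h6.1]
    exact mul_le_of_le_one_right (abs_nonneg _) h6.2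
  rw [e1]
  have e5 : P - q * A = (P - U) + ((U - R * A) - (U' - B * R)) + (U' - B * R) + (R - q) * A := by
    ring
  rw [e5]
  refine (abs_add_le _ _).trans (add_le_add ((abs_add_le _ _).trans (add_le_add
    ((abs_add_le _ _).trans (add_le_add h1 h3)) h2)) h7)

end Vale.Agent.P146.Ub.Ld
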