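import Vale.Agent.P146.Rt.RtDefs

/-! P146, Rt: the difference of the overlap paths of two systems. -/

open MeasureTheory ProbabilityTheory Filter Topology

namespace Vale.Agent.P146.Ub.Ld

set_option linter.unusedSectionVars false

open Vale.Agent.P157 Vale.Agent.P157.Lv Vale.Agent.P157.Lv.Sy Vale.Agent.P157.Lv.Fld
open Vale.Agent.P157.Par (Path Exponents incr spinPart)
open Vale.Agent.P146 (Pair freeEnergy disorder)
open Vale.Agent.P146.Sk (PSK)

section gen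

variable {ι X : Type} [Fintype ι] [DecidableEq ι] [Fintype X] [DecidableEq X] [Nonempty X] {N : ℕ}
  {S : Sy ι X} {D : ι → (ι → ℝ) → X → ℝ} {φ : X → Fin N → ℝ} {zc : ℕ → Fin N → ι} {s : ℕ → ℝ}

theorem gpath {S' : Sy ι X} {D' : ι → (ι → ℝ) → X → ℝ} (F : Fld S D φ zc s)
    (F' : Fld S' D' φ zc s) (hK : S'.K = S.K) (hm : S'.m = S.m) {d : ℕ} {σ : ℝ} (hσ : 0 < σ)
    (hs : ∀ l, d ≤ l → l ≤ S.K → σ ≤ s l) {e : ℕ → ℝ} (he : ∀ l, 0 ≤ e l)
    (hc : ∀ l, d ≤ l → l ≤ S.K →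
      S.Ex (fun z x => |hz φ zc l z x - S'.Ex (hz φ zc l)|) ≤ e l)
    {l : ℕ} (hd : d ≤ l) (hl : l ≤ S.K) :
    S.p l * |S.Rl φ l - S'.Rl φ l| ≤ (e l + e (l + 1)) / σ := by
  have hS := F.hreg
  have hp' : ∀ i, S'.p i = S.p i := fun i => by
    show S'.m (i + 1) - S'.m i = S.m (i + 1) - S.m i
    rw [hm]
  -- the difference of the paths
  have hD : ∀ j, d ≤ j → |∑ i ∈ Finset.Ico j (S.K + 1), S.p i *
      (S.Rl φ i - S'.Rl φ i)| ≤ e j / σ := by
    intro j hdj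
    rcases Nat.lt_or_ge j (S.K + 1) with hj' | hj'
    · have hjK : j ≤ S.K := by omega
      have a1 : S.Ex (hz φ zc j) =
          s j * (1 - ∑ i ∈ Finset.Ico j (S.K + 1), S.p i * S.Rl φ i) := F.Ex_hz hjK
      have a2 : S'.Ex (hz φ zc j) =
          s j * (1 - ∑ i ∈ Finset.Ico j (S'.K + 1), S'.p i * S'.Rl φ i) :=
        F'.Ex_hz (l := j) (by omega)
      have a3 : |S.Ex (hz φ zc j) - S'.Ex (hz φ zc j)| ≤ e j := by
        have n1 : Nh (hz φ zc j : (ι → ℝ) → X → ℝ) := F.nh_hz j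
        have a4 := hS.abs_Ex_le (f := fun z x => hz φ zc j z x - S'.Ex (hz φ zc j))
          (Nh.sub n1 (fun _ => EG.const _))
        rw [hS.Ex_sub n1 (fun _ => EG.const _), hS.Ex_const] at a4
        exact a4.trans (hc j hdj hjK)
      rw [a1, a2, hK] at a3
      have a5 : s j * (1 - ∑ i ∈ Finset.Ico j (S.K + 1), S.p i * S.Rl φ i) -
          s j * (1 - ∑ i ∈ Finset.Ico j (S.K + 1), S'.p i * S'.Rl φ i) =
          -(s j * ∑ i ∈ Finset.Ico j (S.K + 1), S.p i * (S.Rl φ i - S'.Rl φ i)) := by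
        have a6 : ∑ i ∈ Finset.Ico j (S.K + 1), S.p i * (S.Rl φ i - S'.Rl φ i) =
            ∑ i ∈ Finset.Ico j (S.K + 1), S.p i * S.Rl φ i -
            ∑ i ∈ Finset.Ico j (S.K + 1), S'.p i * S'.Rl φ i := by
          rw [← Finset.sum_sub_distrib]
          refine Finset.sum_congr rfl fun i _ => ?_
          rw [hp']
          ring
        rw [a6]
        ring
      rw [a5, abs_neg, abs_mul, abs_of_nonneg (hσ.le.trans (hs j hdj hjK))] at a3
      rw [le_div_iff₀ hσ]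
      have a8 := mul_le_mul_of_nonneg_left (hs j hdj hjK) (abs_nonneg
        (∑ i ∈ Finset.Ico j (S.K + 1), S.p i * (S.Rl φ i - S'.Rl φ i)))
      rw [mul_comm _ (s j)] at a8
      exact a8.trans a3
    · rw [Finset.Ico_eq_empty (by omega), Finset.sum_empty, abs_zero]
      exact div_nonneg (he j) hσ.le
  have b1 := hD l hd
  have b2 := hD (l + 1) (by omega)
  rw [Finset.sum_eq_sum_Ico_succ_bot (show l < S.K + 1 by omega)] at b1
  have b3 := abs_le.1 b1
  have b4 := abs_le.1 b2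
  have b5 : S.p l * |S.Rl φ l - S'.Rl φ l| = |S.p l * (S.Rl φ l - S'.Rl φ l)| := by
    rw [abs_mul, abs_of_nonneg (st_p_nonneg hS hl)]
  rw [b5, abs_le, add_div]
  constructor <;> linarith

end gen

end Vale.Agent.P146.Ub.Ld
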