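import Mathlib

/-!
# P146, Rt: the sum over the levels (real numbers only)
-/

namespace Vale.Agent.P146.Ub.Ld

theorem rsum_cs (s : Finset ℕ) {f g : ℕ → ℝ} (hf : ∀ i ∈ s, 0 ≤ f i) (hg : ∀ i ∈ s, 0 ≤ g i) :
    ∑ i ∈ s, √(f i) * √(g i) ≤ √(∑ i ∈ s, f i) * √(∑ i ∈ s, g i) := by
  rw [← Real.sqrt_mul (Finset.sum_nonneg hf)]
  refine Real.le_sqrt_of_sq_le ?_
  have h1 := Finset.sum_mul_sq_le_sq_mul_sq s (fun i => √(f i)) (fun i => √(g i))
  have h2 : ∑ i ∈ s, √(f i) ^ 2 = ∑ i ∈ s, f i :=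
    Finset.sum_congr rfl fun i hi => Real.sq_sqrt (hf i hi)
  have h3 : ∑ i ∈ s, √(g i) ^ 2 = ∑ i ∈ s, g i :=
    Finset.sum_congr rfl fun i hi => Real.sq_sqrt (hg i hi)
  rw [h2, h3] at h1
  exact h1

theorem rsum_tel (f : ℕ → ℝ) {d K : ℕ} (hd : d ≤ K) :
    ∑ l ∈ Finset.Ico d K, (f (l + 1) - f l) = f K - f d := by
  induction K, hd using Nat.le_induction with
  | base => simp
  | succ K hK ih =>
    rw [Finset.sum_Ico_succ_top hK, ih]
    ring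

theorem rsum_e0 {e : ℕ → ℝ} (he : ∀ l, 0 ≤ e l) (d K : ℕ) :
    ∑ l ∈ Finset.Ico d K, e l ≤ ∑ l ∈ Finset.Ico d (K + 1), e l :=
  Finset.sum_le_sum_of_subset_of_nonneg (Finset.Ico_subset_Ico le_rfl (Nat.le_succ K))
    fun i _ _ => he i

theorem rsum_e1 {e : ℕ → ℝ} (he : ∀ l, 0 ≤ e l) (d K : ℕ) :
    ∑ l ∈ Finset.Ico d K, e (l + 1) ≤ ∑ l ∈ Finset.Ico d (K + 1), e l := by
  rw [Finset.sum_Ico_add' e d K 1]
  exact Finset.sum_le_sum_of_subset_of_nonneg (Finset.Ico_subset_Ico (Nat.le_succ d) le_rfl)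
    fun i _ _ => he i

theorem rsum_e2 {e : ℕ → ℝ} (he : ∀ l, 0 ≤ e l) {d K : ℕ} (hd : d ≤ K) (heK : e (K + 1) = 0) :
    ∑ l ∈ Finset.Ico d K, e (l + 2) ≤ ∑ l ∈ Finset.Ico d (K + 1), e l := by
  rw [Finset.sum_Ico_add' e d K 2]
  have h1 : ∑ l ∈ Finset.Ico (d + 2) (K + 2), e l ≤ ∑ l ∈ Finset.Ico d (K + 2), e l :=
    Finset.sum_le_sum_of_subset_of_nonneg (Finset.Ico_subset_Ico (by omega) le_rfl)
      fun i _ _ => he i
  have h2 : ∑ l ∈ Finset.Ico d (K + 2), e l = ∑ l ∈ Finset.Ico d (K + 1), e l := by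
    rw [show K + 2 = K + 1 + 1 by rfl, Finset.sum_Ico_succ_top (by omega), heK, add_zero]
  linarith

theorem rsum_harm (d K : ℕ) :
    ∑ l ∈ Finset.Ico d K, 1 / ((l : ℝ) + 1) ≤ 1 + Real.log ((K : ℝ) + 1) := by
  have h1 : ∑ l ∈ Finset.Ico d K, 1 / ((l : ℝ) + 1) ≤ ∑ l ∈ Finset.range K, 1 / ((l : ℝ) + 1) := by
    refine Finset.sum_le_sum_of_subset_of_nonneg ?_ fun i _ _ => by positivity
    intro i hi
    rw [Finset.mem_Ico] at hi
    exact Finset.mem_range.2 hi.2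
  have h2 : ∑ l ∈ Finset.range K, 1 / ((l : ℝ) + 1) = ((harmonic K : ℚ) : ℝ) := by
    rw [harmonic]
    push_cast
    exact Finset.sum_congr rfl fun i _ => by rw [one_div]
  have h3 : ((harmonic K : ℚ) : ℝ) ≤ 1 + Real.log K := by
    exact_mod_cast harmonic_le_one_add_log K
  have h4 : Real.log K ≤ Real.log ((K : ℝ) + 1) := by
    rcases Nat.eq_zero_or_pos K with h | h
    · subst h
      simp
    · have hK : (0 : ℝ) < K := by exact_mod_cast h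
      exact Real.log_le_log hK (by linarith)
  linarith

theorem rsum_sqrt {y : ℝ} (hy : 0 ≤ y) : √(1 + 2 * y) ≤ 1 + y := by
  rw [Real.sqrt_le_left (by linarith)]
  nlinarith

theorem rsum_D {K l : ℕ} {σ V D a b : ℝ}
    (hD : ((l : ℝ) + 1) / ((K : ℝ) + 1) * D ≤ 1 / ((K : ℝ) + 1) * V + 2 * (a + b) / σ) :
    D ≤ 1 / ((l : ℝ) + 1) * (V + 2 * (((K : ℝ) + 1) / σ) * (a + b)) := by
  have hK : (0 : ℝ) < (K : ℝ) + 1 := by positivity
  have hl : (0 : ℝ) < (l : ℝ) + 1 := by positivity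
  have h1 := mul_le_mul_of_nonneg_left hD hK.le
  have h2 : ((K : ℝ) + 1) * (((l : ℝ) + 1) / ((K : ℝ) + 1) * D) = ((l : ℝ) + 1) * D := by
    field_simp
  have h3 : ((K : ℝ) + 1) * (1 / ((K : ℝ) + 1) * V + 2 * (a + b) / σ) =
      V + 2 * (((K : ℝ) + 1) / σ) * (a + b) := by
    rw [mul_add, ← mul_assoc, mul_one_div_cancel hK.ne', one_mul]
    ring
  rw [h2, h3] at h1
  rw [one_div, ← div_eq_inv_mul, le_div_iff₀ hl]
  linarith

theorem gsum {K d : ℕ} (hd : d ≤ K) {σ : ℝ} (hσ : 0 < σ) {V D ω R e : ℕ → ℝ}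
    (he : ∀ l, 0 ≤ e l) (heK : e (K + 1) = 0)
    (hV0 : ∀ l, d ≤ l → l < K → 0 ≤ V l)
    (hV : ∀ l, d ≤ l → l < K →
      V l ≤ (R (l + 1) - R l) + 4 * (e (l + 1) + e (l + 2)) * ((K : ℝ) + 1) / σ)
    (hD0 : ∀ l, d ≤ l → l < K → 0 ≤ D l)
    (hD : ∀ l, d ≤ l → l < K →
      ((l : ℝ) + 1) / ((K : ℝ) + 1) * D l ≤ 1 / ((K : ℝ) + 1) * V l + 2 * (e l + e (l + 1)) / σ)
    (hR0 : 0 ≤ R d) (hR1 : R K ≤ 1) (hω0 : 0 ≤ ω d) (hω1 : ω K ≤ 1)
    (hω : ∀ l, d ≤ l → l < K → ω l ≤ ω (l + 1)) :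
    ∑ l ∈ Finset.Ico d K, 1 / ((K : ℝ) + 1) * (√(D l) + √(ω (l + 1) - ω l) * √(V l) +
      3 * (e l + e (l + 1)) * ((K : ℝ) + 1) / σ) ≤
      √(1 + Real.log ((K : ℝ) + 1)) *
        (2 + 16 * ((K : ℝ) + 1) * (∑ l ∈ Finset.Ico d (K + 1), e l) / σ) / ((K : ℝ) + 1) := by
  have hK : (0 : ℝ) < (K : ℝ) + 1 := by positivity
  obtain ⟨L, hL⟩ : ∃ L, L = ((K : ℝ) + 1) / σ := ⟨_, rfl⟩
  have hL0 : 0 ≤ L := by rw [hL]; positivity
  obtain ⟨E, hE⟩ : ∃ E, E = ∑ l ∈ Finset.Ico d (K + 1), e l := ⟨_, rfl⟩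
  have hE0 : 0 ≤ E := by rw [hE]; exact Finset.sum_nonneg fun i _ => he i
  have e0 := rsum_e0 he d K
  have e1 := rsum_e1 he d K
  have e2 := rsum_e2 he hd heK
  rw [← hE] at e0 e1 e2
  have hy : 0 ≤ L * E := mul_nonneg hL0 hE0
  -- the sum of the `V l`
  have hVs : ∑ l ∈ Finset.Ico d K, V l ≤ 1 + 8 * (L * E) := by
    have h1 : ∑ l ∈ Finset.Ico d K, V l ≤
        ∑ l ∈ Finset.Ico d K, ((R (l + 1) - R l) + 4 * L * (e (l + 1) + e (l + 2))) := by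
      refine Finset.sum_le_sum fun l hl => ?_
      rw [Finset.mem_Ico] at hl
      refine (hV l hl.1 hl.2).trans (le_of_eq ?_)
      rw [hL]
      ring
    rw [Finset.sum_add_distrib, rsum_tel R hd, ← Finset.mul_sum, Finset.sum_add_distrib] at h1
    have h2 : 4 * L * (∑ l ∈ Finset.Ico d K, e (l + 1) + ∑ l ∈ Finset.Ico d K, e (l + 2)) ≤
        4 * L * (E + E) := mul_le_mul_of_nonneg_left (add_le_add e1 e2) (by positivity)
    linarith
  have hes : ∑ l ∈ Finset.Ico d K, (e l + e (l + 1)) ≤ 2 * E := by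
    rw [Finset.sum_add_distrib]
    linarith
  have hV0' : ∀ l ∈ Finset.Ico d K, 0 ≤ V l := fun l hl => by
    rw [Finset.mem_Ico] at hl
    exact hV0 l hl.1 hl.2
  have hg0 : ∀ l ∈ Finset.Ico d K, 0 ≤ V l + 2 * L * (e l + e (l + 1)) := fun l hl =>
    add_nonneg (hV0' l hl) (mul_nonneg (by positivity) (add_nonneg (he _) (he _)))
  have hgs : ∑ l ∈ Finset.Ico d K, (V l + 2 * L * (e l + e (l + 1))) ≤
      1 + 2 * (6 * (L * E)) := by
    rw [Finset.sum_add_distrib, ← Finset.mul_sum]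
    have h2 : 2 * L * ∑ l ∈ Finset.Ico d K, (e l + e (l + 1)) ≤ 2 * L * (2 * E) :=
      mul_le_mul_of_nonneg_left hes (by positivity)
    linarith
  have hlog : 1 ≤ √(1 + Real.log ((K : ℝ) + 1)) := by
    rw [Real.one_le_sqrt]
    have : 0 ≤ Real.log ((K : ℝ) + 1) := Real.log_nonneg (by
      have : (0 : ℝ) ≤ K := Nat.cast_nonneg K
      linarith)
    linarith
  have hlog0 : 0 ≤ √(1 + Real.log ((K : ℝ) + 1)) := by linarith
  -- the first sum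
  have s1 : ∑ l ∈ Finset.Ico d K, √(D l) ≤
      √(1 + Real.log ((K : ℝ) + 1)) * (1 + 6 * (L * E)) := by
    calc ∑ l ∈ Finset.Ico d K, √(D l)
        ≤ ∑ l ∈ Finset.Ico d K, √(1 / ((l : ℝ) + 1)) * √(V l + 2 * L * (e l + e (l + 1))) := by
          refine Finset.sum_le_sum fun l hl => ?_
          have hl' := Finset.mem_Ico.1 hl
          rw [← Real.sqrt_mul (by positivity)]
          refine Real.sqrt_le_sqrt ?_
          rw [hL]
          exact rsum_D (hD l hl'.1 hl'.2)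
      _ ≤ √(∑ l ∈ Finset.Ico d K, 1 / ((l : ℝ) + 1)) *
          √(∑ l ∈ Finset.Ico d K, (V l + 2 * L * (e l + e (l + 1)))) :=
          rsum_cs _ (fun i _ => by positivity) hg0
      _ ≤ √(1 + Real.log ((K : ℝ) + 1)) * (1 + 6 * (L * E)) := by
          refine mul_le_mul (Real.sqrt_le_sqrt (rsum_harm d K)) ?_ (Real.sqrt_nonneg _) hlog0
          exact (Real.sqrt_le_sqrt hgs).trans (rsum_sqrt (by positivity))
  -- the second sum
  have s2 : ∑ l ∈ Finset.Ico d K, √(ω (l + 1) - ω l) * √(V l) ≤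
      √(1 + Real.log ((K : ℝ) + 1)) * (1 + 4 * (L * E)) := by
    calc ∑ l ∈ Finset.Ico d K, √(ω (l + 1) - ω l) * √(V l)
        ≤ √(∑ l ∈ Finset.Ico d K, (ω (l + 1) - ω l)) * √(∑ l ∈ Finset.Ico d K, V l) :=
          rsum_cs _ (fun l hl => by
            have hl' := Finset.mem_Ico.1 hl
            linarith [hω l hl'.1 hl'.2]) hV0'
      _ ≤ 1 * (1 + 4 * (L * E)) := by
          refine mul_le_mul ?_ ?_ (Real.sqrt_nonneg _) zero_le_one
          · rw [rsum_tel ω hd, Real.sqrt_le_one]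
            linarith
          · refine (Real.sqrt_le_sqrt (hVs.trans (le_of_eq ?_))).trans
              (rsum_sqrt (y := 4 * (L * E)) (by positivity))
            ring
      _ ≤ √(1 + Real.log ((K : ℝ) + 1)) * (1 + 4 * (L * E)) :=
          mul_le_mul_of_nonneg_right hlog (by positivity)
  -- the third sum
  have s3 : ∑ l ∈ Finset.Ico d K, 3 * (e l + e (l + 1)) * ((K : ℝ) + 1) / σ ≤
      √(1 + Real.log ((K : ℝ) + 1)) * (6 * (L * E)) := by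
    have h1 : ∑ l ∈ Finset.Ico d K, 3 * (e l + e (l + 1)) * ((K : ℝ) + 1) / σ =
        3 * L * ∑ l ∈ Finset.Ico d K, (e l + e (l + 1)) := by
      rw [Finset.mul_sum]
      refine Finset.sum_congr rfl fun l _ => ?_
      rw [hL]
      ring
    rw [h1]
    have h2 : 3 * L * ∑ l ∈ Finset.Ico d K, (e l + e (l + 1)) ≤ 3 * L * (2 * E) :=
      mul_le_mul_of_nonneg_left hes (by positivity)
    have h3 : 1 * (6 * (L * E)) ≤ √(1 + Real.log ((K : ℝ) + 1)) * (6 * (L * E)) :=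
      mul_le_mul_of_nonneg_right hlog (by positivity)
    linarith
  rw [← hE, ← Finset.mul_sum, Finset.sum_add_distrib, Finset.sum_add_distrib]
  have h5 : √(1 + Real.log ((K : ℝ) + 1)) * (2 + 16 * ((K : ℝ) + 1) * E / σ) / ((K : ℝ) + 1) =
      1 / ((K : ℝ) + 1) * (√(1 + Real.log ((K : ℝ) + 1)) * (2 + 16 * (L * E))) := by
    rw [hL]
    ring
  rw [h5]
  refine mul_le_mul_of_nonneg_left ?_ (by positivity)
  linarith

end Vale.Agent.P146.Ub.Ld
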