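import Vale.Agent.P146.Rt.RtDefs

/-!
# P146, Rt: the second moment of the overlap, one error per level (the last part of the proof of
`Fld.sync`, P157/LvPair.lean)
-/

open MeasureTheory ProbabilityTheory Filter Topology

namespace Vale.Agent.P146.Ub.Ld

set_option linter.unusedSectionVars false

open Vale.Agent.P157 Vale.Agent.P157.Lv Vale.Agent.P157.Lv.Sy Vale.Agent.P157.Lv.Fld
open Vale.Agent.P157.Par (Path Exponents incr spinPart)
open Vale.Agent.P146 (Pair freeEnergy disorder)

section gen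

variable {ι X : Type} [Fintype ι] [DecidableEq ι] [Fintype X] [DecidableEq X] [Nonempty X] {N : ℕ}
  {S : Sy ι X} {D : ι → (ι → ℝ) → X → ℝ} {φ : X → Fin N → ℝ} {zc : ℕ → Fin N → ι} {s : ℕ → ℝ}

/-- the last part of the proof of `Fld.sync` -/
theorem gsync_Q (F : Fld S D φ zc s) {d : ℕ} {σ : ℝ} (hσ : 0 < σ)
    (hs : ∀ l, d ≤ l → l ≤ S.K → σ ≤ s l) {e : ℕ → ℝ} (he : ∀ l, 0 ≤ e l)
    (hc : ∀ l, d ≤ l → l ≤ S.K → ∃ c, S.Ex (fun z x => |hz φ zc l z x - c|) ≤ e l)
    {l : ℕ} (hd : d ≤ l) (hl : l < S.K) :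
    S.m (l + 1) * (gQ S φ l - gW S φ l) ≤ S.p l * gV S φ l + 2 * (e l + e (l + 1)) / σ := by
  have hS := F.hreg
  have hN := F.N_pos
  have hlK := hl.le
  set R : ℕ → ℝ := fun k => S.Rl φ k with hR
  set W : ℕ → ℝ := fun k => S.Ex (fun z x => uu S φ l z x * uu S φ k z x) with hW
  set G : ℕ → ℝ := fun k => W k - R l * R k with hG
  set A : ℕ → ℝ := fun j => ∑ k ∈ Finset.Ico j (S.K + 1), S.p k * G k with hA
  -- consequences of (A)
  have cA : ∀ j, l < j → j ≤ S.K + 1 → |A j| ≤ 2 * e j / σ := by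
    intro j hlj hj
    rcases Nat.lt_or_ge j (S.K + 1) with hj' | hj'
    · have hjK : j ≤ S.K := by omega
      obtain ⟨c, hc'⟩ := hc j (by omega) hjK
      have h1 := F.dev (j := j) hlK hc'
      have h2 := F.ident_A hlj hjK
      have h3 := F.Ex_hz hjK
      have e1 : S.Ex (fun z x => hz φ zc j z x * uu S φ l z x) - S.Ex (hz φ zc j) * S.Rl φ l =
          - (s j * A j) := by
        have e2 : S.Ex (fun z x => hz φ zc j z x * uu S φ l z x) =
            s j * (R l - ∑ i ∈ Finset.Ico j (S.K + 1), S.p i * W i) := h2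
        rw [e2, h3]
        have e3 : A j = ∑ i ∈ Finset.Ico j (S.K + 1), S.p i * W i -
            R l * ∑ i ∈ Finset.Ico j (S.K + 1), S.p i * R i := by
          simp only [hA, hG]
          rw [Finset.mul_sum, ← Finset.sum_sub_distrib]
          refine Finset.sum_congr rfl fun i _ => ?_
          ring
        rw [e3]
        simp only [hR]
        ring
      rw [e1, abs_neg, abs_mul, abs_of_nonneg (F.pos j hjK)] at h1
      rw [le_div_iff₀ hσ]
      have h4 := mul_le_mul_of_nonneg_left (hs j (by omega) hjK) (abs_nonneg (A j))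
      rw [mul_comm (|A j|) (s j)] at h4
      exact h4.trans h1
    · have : A j = 0 := by
        simp only [hA]
        rw [Finset.Ico_eq_empty (by omega), Finset.sum_empty]
      rw [this, abs_zero]
      have := he j
      positivity
  -- the variance of `u_l`
  have nu := nh_uu (φ := φ) hS hlK
  have nc : ∀ c : ℝ, Nh (ι := ι) (X := X) (fun _ _ => c) := fun c => Nh.fst (EG.const c)
  set V : ℝ := W l - R l * R l with hV
  have hV1 : S.Ex (fun z x => (uu S φ l z x - R l) ^ 2) = V := by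
    have e1 : (fun z x => (uu S φ l z x - R l) ^ 2) =
        fun z x => (uu S φ l z x * uu S φ l z x - 2 * R l * uu S φ l z x) + R l ^ 2 := by
      funext z x
      ring
    rw [e1, hS.Ex_add (Nh.sub (Nh.mul nu nu) (Nh.const_mul _ nu)) (nc _),
      hS.Ex_sub (Nh.mul nu nu) (Nh.const_mul _ nu), Sy.Ex_const_mul, hS.Ex_const, F.Ex_uu hlK]
    simp only [hV, hR, hW]
    ring
  -- (B)
  set Q : ℝ := S.pairEx l (fun x x' => Rov φ x x' ^ 2) with hQ
  set a : ℕ → ℝ := fun i => 1 / (N : ℝ) ^ 2 * S.Ex (fun z _ => ∑ a, ∑ b,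
          S.T l (fun _ x => φ x a * φ x b) z * S.T l (fun z _ => S.mg φ i a z * S.mg φ i b z) z)
    with ha
  have hp0 : ∀ i ≤ S.K, 0 ≤ S.p i := fun i hi => by
    rw [Sy.p]
    linarith [hS.mono i hi]
  have hsum : ∑ i ∈ Finset.Ico (l + 1) (S.K + 1), S.p i = 1 - S.m (l + 1) := by
    have h1 : ∀ n, l + 1 ≤ n → ∑ i ∈ Finset.Ico (l + 1) n, S.p i = S.m n - S.m (l + 1) := by
      intro n hn
      induction n, hn using Nat.le_induction with
      | base => simp
      | succ n hn ih =>
        rw [Finset.sum_Ico_succ_top hn, ih, Sy.p]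
        ring
    rw [h1 _ (by omega), hS.mK]
  have ha1 : ∑ i ∈ Finset.Ico (l + 1) (S.K + 1), S.p i * a i ≤ Q * (1 - S.m (l + 1)) := by
    rw [← hsum, Finset.mul_sum]
    refine Finset.sum_le_sum fun i hi => ?_
    rw [Finset.mem_Ico] at hi
    rw [mul_comm Q]
    exact mul_le_mul_of_nonneg_left (F.three_le_two (by omega) (by omega)) (hp0 i (by omega))
  have hB : Q - ∑ i ∈ Finset.Ico (l + 1) (S.K + 1), S.p i * a i - S.m (l + 1) * W l - A l ≤
      2 * e l / σ := by
    obtain ⟨c, hc'⟩ := hc l hd hlK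
    have h1 := F.dev (j := l) hlK hc'
    have h2 := F.ident_B hlK
    have h3 := F.Ex_hz hlK
    have e1 : S.Ex (fun z x => hz φ zc l z x * uu S φ l z x) - S.Ex (hz φ zc l) * S.Rl φ l =
        s l * (Q - ∑ i ∈ Finset.Ico (l + 1) (S.K + 1), S.p i * a i - S.m (l + 1) * W l - A l) := by
      have e0 : W l = S.Ex (fun z x => (1 / N * ∑ a, S.mg φ l a z * φ x a) ^ 2) := by
        simp only [hW]
        congr 1
        funext z x
        rw [sq]
        rfl
      have e2 : S.Ex (fun z x => hz φ zc l z x * uu S φ l z x) =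
          s l * (Q - ∑ i ∈ Finset.Ico (l + 1) (S.K + 1), S.p i * a i - S.m (l + 1) * W l + R l -
            ∑ i ∈ Finset.Ico l (S.K + 1), S.p i * W i) := by
        rw [e0]
        exact h2
      rw [e2, h3]
      have e3 : A l = ∑ i ∈ Finset.Ico l (S.K + 1), S.p i * W i -
          R l * ∑ i ∈ Finset.Ico l (S.K + 1), S.p i * R i := by
        simp only [hA, hG]
        rw [Finset.mul_sum, ← Finset.sum_sub_distrib]
        refine Finset.sum_congr rfl fun i _ => ?_
        ring
      rw [e3]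
      simp only [hR]
      ring
    rw [e1] at h1
    have h5 := (abs_le.mp h1).2
    have he0 := he l
    rw [le_div_iff₀ hσ]
    clear_value A W a Q
    by_cases hx : Q - ∑ i ∈ Finset.Ico (l + 1) (S.K + 1), S.p i * a i - S.m (l + 1) * W l - A l ≤ 0
    · exact (mul_nonpos_of_nonpos_of_nonneg hx hσ.le).trans (by linarith only [he0])
    · push Not at hx
      have h4 := mul_le_mul_of_nonneg_left (hs l hd hlK) hx.le
      rw [mul_comm _ (s l)] at h4
      exact h4.trans h5
  have hAl : A l = S.p l * V + A (l + 1) := by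
    simp only [hA, hV]
    rw [Finset.sum_eq_sum_Ico_succ_bot (by omega : l < S.K + 1)]
  have hA1 := (abs_le.mp (cA (l + 1) (by omega) (by omega))).2
  have e5 : gV S φ l = V := hV1
  have e6 : gQ S φ l = Q := rfl
  have e7 : gW S φ l = W l := rfl
  have e8 : 2 * (e l + e (l + 1)) / σ = 2 * e l / σ + 2 * e (l + 1) / σ := by ring
  rw [e5, e6, e7, e8]
  rw [hAl] at hB
  have e9 : Q * (1 - S.m (l + 1)) = Q - S.m (l + 1) * Q := by ring
  have e10 : S.m (l + 1) * (Q - W l) = S.m (l + 1) * Q - S.m (l + 1) * W l := by ring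
  rw [e9] at ha1
  rw [e10]
  clear_value A W a Q V
  linarith only [ha1, hB, hA1]

end gen

end Vale.Agent.P146.Ub.Ld
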