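import Vale.Agent.P146.Rt.RtSync
import Vale.Agent.P146.Rt.RtSyncQ
import Vale.Agent.P146.Rt.RtPath
import Vale.Agent.P146.Rt.RtJ150
import Vale.Agent.P146.Rt.RtSum

/-!
# P146, Rt: the overlaps at all the levels, one test function
-/

open MeasureTheory ProbabilityTheory Filter Topology

namespace Vale.Agent.P146.Ub.Ld

set_option linter.unusedSectionVars false

open Vale.Agent.P157 Vale.Agent.P157.Lv Vale.Agent.P157.Lv.Sy Vale.Agent.P157.Lv.Fld
open Vale.Agent.P157.Par (Path Exponents incr spinPart)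
open Vale.Agent.P146 (Pair freeEnergy disorder)

variable {n K N d : ℕ} {m s R : ℕ → ℝ} {β θ : ℝ}

theorem gdev (hd1 : 1 ≤ d) (hd : d ≤ K) (hN : N ≤ n) (h0 : 0 < N) {c : ℝ}
    {a : (Fin n → Bool) → RI n K → ℝ} {D : RI n K → (RI n K → ℝ) → (Fin n → Bool) → ℝ}
    (F : Fld (ls (rlv d) K (me K) c a) D (ph hN) (zc hN) s) {σ : ℝ} (hσ : 0 < σ)
    (hs : ∀ l, d ≤ l → l ≤ K → σ ≤ s l) {e : ℕ → ℝ} (he : ∀ l, 0 ≤ e l) (heK : e (K + 1) = 0)
    (hc : ∀ j, d ≤ j → j ≤ K → (ls (rlv d) K (me K) c a).Ex (fun z x =>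
      |hz (ph hN) (zc hN) j z x - (SN n K d (me K) β N s).Ex (hz (ph hN) (zc hN) j)|) ≤ e j)
    {ε : (Fin n → Bool) → ℝ} (hε : ∀ x, |ε x| ≤ 1) :
    ∑ l ∈ Finset.Ico d (K + 1), (me K (l + 1) - me K l) *
      |(ls (rlv d) K (me K) c a).pairEx l (fun x x' => ε x * ε x' *
        (Rov (ph hN) x x' - stR (SN n K d (me K) β N s) (ph hN) l))| ≤
      (√(1 + Real.log ((K : ℝ) + 1)) *
        (2 + 16 * ((K : ℝ) + 1) * (∑ l ∈ Finset.Ico d (K + 1), e l) / σ) + 2) / ((K : ℝ) + 1) := by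
  set S := ls (rlv d) K (me K) c a with hSdef
  have hm := me_exp K
  have hS := F.hreg
  have hSK : S.K = K := rfl
  have hs0 : ∀ l ≤ K, 0 ≤ s l := fun l hl => F.pos l hl
  have F0 := SN_fld (β := β) hd hN h0 hm hs0
  have hL0 : (0 : ℝ) < (K : ℝ) + 1 := by positivity
  set π : ℝ := 1 / ((K : ℝ) + 1) with hπ
  have hπ0 : 0 < π := by positivity
  have hmp : ∀ l, me K (l + 1) - me K l = π := fun l => by
    rw [rs_me_p, hπ]; push_cast; rfl
  have hp : ∀ l, S.p l = π := fun l => hmp l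
  have hc' : ∀ l, d ≤ l → l ≤ S.K → ∃ c', S.Ex (fun z x => |hz (ph hN) (zc hN) l z x - c'|) ≤ e l :=
    fun l h1 h2 => ⟨_, hc l h1 h2⟩
  -- the levels below `K`
  have hlev : ∀ l, d ≤ l → l < K → (me K (l + 1) - me K l) *
      |S.pairEx l (fun x x' => ε x * ε x' *
        (Rov (ph hN) x x' - stR (SN n K d (me K) β N s) (ph hN) l))| ≤
      1 / ((K : ℝ) + 1) * (√(gQ S (ph hN) l - gW S (ph hN) l) +
        √(S.Ex (gw S ε (l + 1)) - S.Ex (gw S ε l)) * √(gV S (ph hN) l) +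
        3 * (e l + e (l + 1)) * ((K : ℝ) + 1) / σ) := by
    intro l h1 h2
    rw [hmp]
    have c4 : stR (SN n K d (me K) β N s) (ph hN) l =
        (SN n K d (me K) β N s).Rl (ph hN) l := by
      unfold stR
      rw [if_pos]
      exact h2
    rw [c4]
    have a1 := gJ F hσ hπ0 hs (fun l _ => (hp l).ge) he hc' hε h1 h2
      ((SN n K d (me K) β N s).Rl (ph hN) l)
    have a2 := gpath F F0 rfl rfl hσ hs he hc h1 h2.le
    rw [hp] at a2
    have a3 : π * (2 * (e l + e (l + 1)) / (σ * π)) = 2 * (e l + e (l + 1)) / σ := by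
      field_simp
    have a4 : 1 / ((K : ℝ) + 1) * (3 * (e l + e (l + 1)) * ((K : ℝ) + 1) / σ) =
        3 * ((e l + e (l + 1)) / σ) := by
      field_simp
    have a5 := mul_le_mul_of_nonneg_left a1 hπ0.le
    refine a5.trans ?_
    have a6 : 2 * (e l + e (l + 1)) / σ = 2 * ((e l + e (l + 1)) / σ) := by ring
    rw [a6] at a3
    rw [mul_add, mul_add, a3, mul_add (1 / ((K : ℝ) + 1)) _ (3 * (e l + e (l + 1)) * ((K : ℝ) + 1) / σ),
      a4, ← hπ]
    linarith
  -- the level `K`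
  have hK : (me K (K + 1) - me K K) *
      |S.pairEx K (fun x x' => ε x * ε x' *
        (Rov (ph hN) x x' - stR (SN n K d (me K) β N s) (ph hN) K))| ≤ 2 / ((K : ℝ) + 1) := by
    rw [hmp]
    have b1 : |S.pairEx K (fun x x' => ε x * ε x' *
        (Rov (ph hN) x x' - stR (SN n K d (me K) β N s) (ph hN) K))| ≤ 2 := by
      have b2 : ∀ x x', |ε x * ε x' *
          (Rov (ph hN) x x' - stR (SN n K d (me K) β N s) (ph hN) K)| ≤ 2 := by
        intro x x'
        have c5 : stR (SN n K d (me K) β N s) (ph hN) K = 1 := stR_last _ _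
        rw [c5, abs_mul, abs_mul]
        have b3 : |ε x| * |ε x'| ≤ 1 := mul_le_one₀ (hε x) (abs_nonneg _) (hε x')
        have b4 : |Rov (ph hN) x x' - 1| ≤ 2 := by
          have b5 := abs_le.1 (F.abs_Rov_le x x')
          rw [abs_le]
          constructor <;> linarith
        have b6 : 0 ≤ |ε x| * |ε x'| := by positivity
        nlinarith [abs_nonneg (Rov (ph hN) x x' - 1)]
      have b8 := hS.pairEx_const (l := K) (show K ≤ S.K from le_rfl) 2
      have b9 := hS.pairEx_const (l := K) (show K ≤ S.K from le_rfl) (-2)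
      rw [abs_le]
      constructor
      · rw [← b9]
        exact hS.pairEx_mono (show K ≤ S.K from le_rfl) fun x x' => (abs_le.1 (b2 x x')).1
      · rw [← b8]
        exact hS.pairEx_mono (show K ≤ S.K from le_rfl) fun x x' => (abs_le.1 (b2 x x')).2
    have b7 := mul_le_mul_of_nonneg_left b1 hπ0.le
    refine b7.trans (le_of_eq ?_)
    rw [hπ]; ring
  rw [Finset.sum_Ico_succ_top hd]
  have hsum := gsum hd hσ (V := gV S (ph hN)) (D := fun l => gQ S (ph hN) l - gW S (ph hN) l)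
    (ω := fun l => S.Ex (gw S ε l)) (R := S.Rl (ph hN)) he heK
    (fun l _ h2 => gV_nonneg F h2.le)
    (fun l h1 h2 => by
      have h3 := gsync_V F hσ hπ0 hs (fun l _ => (hp l).ge) he hc' h1 h2
      have h4 : 4 * (e (l + 1) + e (l + 2)) / (σ * π) =
          4 * (e (l + 1) + e (l + 2)) * ((K : ℝ) + 1) / σ := by
        rw [hπ]; field_simp
      rwa [h4] at h3)
    (fun l _ h2 => gQW_nonneg F h2.le)
    (fun l h1 h2 => by
      have h3 := gsync_Q F hσ hs he hc' h1 h2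
      have h4 : S.m (l + 1) = ((l : ℝ) + 1) / ((K : ℝ) + 1) := by
        show me K (l + 1) = _
        unfold me
        push_cast
        rfl
      rw [h4, hp] at h3
      exact h3)
    (F.Rl_nonneg hd) (F.Rl_le_one le_rfl) (gw_nonneg F hε hd).1 (gw_nonneg F hε le_rfl).2
    (fun l _ h2 => by
      have h3 := gw_diff F hε h2
      have n1 : ∀ k, k ≤ S.K → Nh (gw S ε k) := fun k hk =>
        Nh.mul (Nh.fst (hS.eg_T hk (Nh.snd ε))) (Nh.snd ε)
      have h4 : 0 ≤ S.Ex (fun z x => (gw S ε l z x - gw S ε (l + 1) z x) ^ 2) := by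
        have h5 := hS.Ex_mono (f := fun _ _ => (0 : ℝ))
          (g := fun z x => (gw S ε l z x - gw S ε (l + 1) z x) ^ 2)
          (fun _ => EG.const 0) (Nh.pow (Nh.sub (n1 l h2.le) (n1 (l + 1) h2)) 2)
          (fun z x => sq_nonneg _)
        rwa [hS.Ex_const] at h5
      show S.Ex (gw S ε l) ≤ S.Ex (gw S ε (l + 1))
      linarith)
  have hfin : ∑ l ∈ Finset.Ico d K, (me K (l + 1) - me K l) *
      |S.pairEx l (fun x x' => ε x * ε x' *
        (Rov (ph hN) x x' - stR (SN n K d (me K) β N s) (ph hN) l))| ≤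
      √(1 + Real.log ((K : ℝ) + 1)) *
        (2 + 16 * ((K : ℝ) + 1) * (∑ l ∈ Finset.Ico d (K + 1), e l) / σ) / ((K : ℝ) + 1) := by
    refine le_trans (Finset.sum_le_sum fun l hl => ?_) hsum
    rw [Finset.mem_Ico] at hl
    exact hlev l hl.1 hl.2
  rw [add_div]
  exact add_le_add hfin hK

end Vale.Agent.P146.Ub.Ld
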