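import Vale.Agent.P146.Rt.RtConc
import Vale.Agent.P146.Rt.RtDev

/-!
# P146, Rt: the step, with the linear error of the overlaps
-/

open MeasureTheory ProbabilityTheory Filter Topology

namespace Vale.Agent.P146.Ub.Ld

set_option linter.unusedSectionVars false

open Vale.Agent.P157 Vale.Agent.P157.Lv Vale.Agent.P157.Lv.Sy
open Vale.Agent.P157.Par (Path Exponents incr spinPart)
open Vale.Agent.P146 (Pair)
open Vale.Agent.P146.Sk (PSK)

variable {n K N d : ℕ} {m s R : ℕ → ℝ} {β θ : ℝ}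

/-- Jensen for the overlap of two replicas -/
theorem gs_jensen (hd : d ≤ K) (hN : N ≤ n) (h0 : 0 < N) (hm : Exponents K m)
    (hs : ∀ l ≤ K, 0 ≤ s l) {l : ℕ} (hl : l ≤ K) :
    (SN n K d m β N s).Rl (ph hN) l ^ 2 ≤
      (SN n K d m β N s).pairEx l (fun x x' => Rov (ph hN) x x' ^ 2) := by
  have F := SN_fld (β := β) hd hN h0 hm hs
  have hReg : (SN n K d m β N s).Reg := rs_reg hd hm _ _
  have hl' : l ≤ (SN n K d m β N s).K := hl
  obtain ⟨c, hc⟩ : ∃ c, c = (SN n K d m β N s).Rl (ph hN) l := ⟨_, rfl⟩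
  rw [← hc]
  have h1 : 0 ≤ (SN n K d m β N s).pairEx l (fun x x' => (Rov (ph hN) x x' - c) ^ 2) :=
    hReg.pairEx_nonneg hl' fun x x' => sq_nonneg _
  have e1 : (fun x x' => (Rov (ph hN) x x' - c) ^ 2) =
      fun x x' => Rov (ph hN) x x' ^ 2 + ((-(2 * c)) * Rov (ph hN) x x' + c * c) := by
    funext x x'
    ring
  rw [e1, hReg.pairEx_add hl' (fun x x' => Rov (ph hN) x x' ^ 2)
    (fun x x' => (-(2 * c)) * Rov (ph hN) x x' + c * c),
    hReg.pairEx_add hl' (fun x x' => (-(2 * c)) * Rov (ph hN) x x') (fun _ _ => c * c),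
    hReg.pairEx_const_mul, hReg.pairEx_const hl'] at h1
  have e2 : (SN n K d m β N s).pairEx l (fun x x' => Rov (ph hN) x x') = c := by
    rw [hc]
    exact (F.Rl_eq_pairEx hl').symm
  rw [e2] at h1
  linarith [sq c]

/-- (H) **The step.** -/
theorem gstep (hd1 : 1 ≤ d) (hd : d ≤ K) (hN : N + 1 ≤ n) (h0 : 0 < N) (hβ : 0 ≤ β)
    {σ : ℝ} (hσ : 0 < σ) (hs : ∀ l, d ≤ l → l ≤ K → σ ≤ s l) (hs0 : ∀ l, l < d → s l = 0)
    {t : ℝ} (ht : 0 < t) :
    PSK β K (me K) (ct d (stR (SN n K d (me K) β N s) (ph (Nat.le_of_succ_le hN)))) ≤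
      AN n K d (me K) β (N + 1) s - AN n K d (me K) β N s + β ^ 2 / (N + 1 : ℕ) +
        β ^ 2 * gT K σ (ges n K d (me K) β N s t) := by
  have hsp : ∀ l ≤ K, 0 ≤ s l := fun l hl => by
    rcases lt_or_ge l d with h | h
    · rw [hs0 l h]
    · exact hσ.le.trans (hs l h hl)
  have hN' : N ≤ n := Nat.le_of_succ_le hN
  have hNn : N < n := hN
  have hm := me_exp K
  have hb2 : 0 ≤ β ^ 2 := sq_nonneg β
  have hN1 : (0 : ℝ) < ((N + 1 : ℕ) : ℝ) := by positivity
  have hK1 : (0 : ℝ) < (K : ℝ) + 1 := by positivity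
  have F0 := SN_fld (β := β) hd hN' h0 hm hsp
  obtain ⟨R₀, hRdef⟩ : ∃ R, R = stR (SN n K d (me K) β N s) (ph hN') := ⟨_, rfl⟩
  obtain ⟨R, hRc⟩ : ∃ R, R = ct d R₀ := ⟨_, rfl⟩
  obtain ⟨W, hW⟩ : ∃ W, W = (√(1 + Real.log ((K : ℝ) + 1)) *
        (2 + 16 * ((K : ℝ) + 1) * (ges n K d (me K) β N s t) / σ) + 2) / ((K : ℝ) + 1) :=
    ⟨_, rfl⟩
  have hR₀ : Path K R₀ := by rw [hRdef]; exact st_path F0
  have hRK₀ : R₀ K = 1 := by rw [hRdef]; exact stR_last (SN n K d (me K) β N s) (ph hN')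
  have hR : Path K R := by rw [hRc]; exact ct_path hR₀
  have hRK : R K = 1 := by rw [hRc, ct_ge hd, hRK₀]
  have hRlt : ∀ l, l < d → R l = 0 := fun l hl => by rw [hRc, ct_lt hl]
  have hRge : ∀ l, d ≤ l → R l = R₀ l := fun l hl => by rw [hRc, ct_ge hl]
  have hR1 : R K ≤ 1 := hRK.le
  have hRm : ∀ l ≤ K, 0 ≤ R l ∧ R l ≤ 1 := by
    have mono : ∀ i j, i ≤ j → j ≤ K → R i ≤ R j := by
      intro i j hij
      induction j, hij using Nat.le_induction with
      | base => intro _; exact le_rfl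
      | succ j _ ih => intro hj; exact (ih (by omega)).trans (hR.2 j (by omega))
    intro l hl
    exact ⟨hR.1.trans (mono 0 l (Nat.zero_le _) hl), (mono l K hl le_rfl).trans hR1⟩
  have hspN : ∀ x : Fin n → Bool, |sp N x| ≤ 1 := by
    intro x
    have h1 := sp_sq hNn x
    rw [← sq_abs] at h1
    exact ((pow_eq_one_iff_of_nonneg (abs_nonneg _) two_ne_zero).1 h1).le
  have hdev : ∀ θ, ∑ l ∈ Finset.Ico d (K + 1), (me K (l + 1) - me K l) *
      |(ST n K d (me K) β N s R θ).pairEx l (fun x x' => sp N x * sp N x' *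
        (Rov (ph hN') x x' - R₀ l))| ≤ W := by
    intro θ
    have h1 := gdev (β := β) (s := s) hd1 hd hN' h0
      (ST_fld (β := β) (R := R) (θ := θ) hd hN' h0 hm hsp) hσ hs
      (e := ger n K d (me K) β N s t)
      (fun l => ger_nonneg hd hN' hm s ht l)
      (by unfold ger; rw [if_neg (by omega)])
      (fun j hj1 hj2 => ST_conc0 hd1 hd hN h0 hm hR hR1 (hRlt 0 (by omega)) hsp
        (hs0 0 (by omega)) ht θ (by omega) hj2) (ε := sp N) hspN
    rw [hW, hRdef]
    exact h1
  rw [← hRdef, ← hRc]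
  obtain ⟨γ, hγ⟩ : ∃ γ, γ = β / √((N + 1 : ℕ) : ℝ) := ⟨_, rfl⟩
  have hγ2 : γ ^ 2 = β ^ 2 / ((N + 1 : ℕ) : ℝ) := by
    rw [hγ, div_pow, Real.sq_sqrt hN1.le]
  have hγN : β ^ 2 - γ ^ 2 * N = β ^ 2 / ((N + 1 : ℕ) : ℝ) := by
    rw [hγ2]
    field_simp
    push_cast
    ring
  have hsum := rs_sum_p hm
  -- (1)
  have h1 := AN_succ_ge hd hN hm β s
  -- (2)
  have h2 := ls_interp (X := Fin n → Bool) (a := sc (n := n) (K := K) β N s) (α := tre N β R)
    (β := cav N γ) hm (rlv_le hd) (lc n) (B := 2 * (β ^ 2 / ((N + 1 : ℕ) : ℝ)) + β ^ 2 * W)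
    (dj_tre_cav β γ) (dj_tre_sc β) (dj_cav_sc γ) (by
      intro θ _ _
      have eS : ls (rlv d) K (me K) (lc n) (ith (sc (n := n) (K := K) β N s) (tre N β R) (cav N γ) θ) =
          ST n K d (me K) β N s R θ := by
        rw [hγ]; rfl
      rw [eS]
      have hReg : (ST n K d (me K) β N s R θ).Reg := rs_reg hd hm _ _
      have e1 : (fun (_ : RI n K → ℝ) (x : Fin n → Bool) =>
          ∑ e, (tre (K := K) N β R x e ^ 2 - cav (K := K) N γ x e ^ 2)) =
          fun _ _ => β ^ 2 / ((N + 1 : ℕ) : ℝ) := by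
        funext _ x
        rw [Finset.sum_sub_distrib, sum_tre hNn β hR, sum_cav hNn, hRK, mul_one, hγN]
      rw [e1, hReg.Ex_const]
      have e2 : ∀ l ∈ Finset.range (K + 1),
          -(β ^ 2 * (if d ≤ l then (me K (l + 1) - me K l) *
            |(ST n K d (me K) β N s R θ).pairEx l (fun x x' => sp N x * sp N x' *
              (Rov (ph hN') x x' - R₀ l))| else 0) +
            β ^ 2 / ((N + 1 : ℕ) : ℝ) * (me K (l + 1) - me K l)) ≤ (me K (l + 1) - me K l) *
          (ST n K d (me K) β N s R θ).pairEx l (fun x x' =>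
            cv (rlv d) l (tre (K := K) N β R) (tre N β R) x x' -
              cv (rlv d) l (cav (K := K) N γ) (cav N γ) x x') := by
        intro l hl
        have hl' : l ≤ K := by have := Finset.mem_range.1 hl; omega
        have hl'' : l ≤ (ST n K d (me K) β N s R θ).K := hl'
        have hp := rs_p_nonneg hm hl
        have e6 : 0 ≤ β ^ 2 / ((N + 1 : ℕ) : ℝ) := div_nonneg hb2 hN1.le
        rcases lt_or_ge l d with hld | hld
        · have e3 : (fun x x' => cv (rlv d) l (tre (n := n) (K := K) N β R) (tre N β R) x x' -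
              cv (rlv d) l (cav (n := n) (K := K) N γ) (cav N γ) x x') = fun _ _ => 0 := by
            funext x x'
            rw [cv_tre' hNn hl' β hR, cv_cav_lt hld, hRlt l hld, mul_zero, sub_zero]
          rw [e3, hReg.pairEx_const hl'', if_neg (not_le.2 hld)]
          have e7 := mul_nonneg e6 hp
          linarith
        rw [if_pos hld, ← hRge l hld]
        obtain ⟨J, hJ⟩ : ∃ J, J = (ST n K d (me K) β N s R θ).pairEx l
          (fun x x' => sp N x * sp N x' * (Rov (ph hN') x x' - R l)) := ⟨_, rfl⟩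
        obtain ⟨J', hJ'⟩ : ∃ J', J' = (ST n K d (me K) β N s R θ).pairEx l
          (fun x x' => sp N x * sp N x' * Rov (ph hN') x x') := ⟨_, rfl⟩
        have e3 : (ST n K d (me K) β N s R θ).pairEx l (fun x x' =>
            cv (rlv d) l (tre (K := K) N β R) (tre N β R) x x' -
              cv (rlv d) l (cav (K := K) N γ) (cav N γ) x x') =
            (-β ^ 2) * J + β ^ 2 / ((N + 1 : ℕ) : ℝ) * J' := by
          have e4 : (fun x x' => cv (rlv d) l (tre (n := n) (K := K) N β R) (tre N β R) x x' -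
              cv (rlv d) l (cav (n := n) (K := K) N γ) (cav N γ) x x') =
              fun x x' => (-β ^ 2) * (sp N x * sp N x' * (Rov (ph hN') x x' - R l)) +
                β ^ 2 / ((N + 1 : ℕ) : ℝ) * (sp N x * sp N x' * Rov (ph hN') x x') := by
            funext x x'
            rw [cv_tre' hNn hl' β hR, cv_cav_ge hNn hld, ← hγN]
            ring
          rw [e4, hReg.pairEx_add hl''
            (fun x x' => (-β ^ 2) * (sp N x * sp N x' * (Rov (ph hN') x x' - R l)))
            (fun x x' => β ^ 2 / ((N + 1 : ℕ) : ℝ) * (sp N x * sp N x' * Rov (ph hN') x x')),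
            hReg.pairEx_const_mul, hReg.pairEx_const_mul, hJ, hJ']
        have hJ1 : -1 ≤ J' := by
          rw [hJ', ← hReg.pairEx_const hl'' (-1)]
          refine hReg.pairEx_mono hl'' fun x x' => ?_
          have a1 := hspN x
          have a2 := hspN x'
          have a3 := rs_abs_Rov hN' h0 x x'
          have a4 : |sp N x * sp N x' * Rov (ph hN') x x'| ≤ 1 := by
            rw [abs_mul, abs_mul]
            exact mul_le_one₀ (mul_le_one₀ a1 (abs_nonneg _) a2) (abs_nonneg _) a3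
          exact (abs_le.1 a4).1
        rw [e3, ← hJ]
        have e8 : -|J| ≤ -J := neg_le_neg (le_abs_self J)
        have e9 : β ^ 2 * (-|J|) + β ^ 2 / ((N + 1 : ℕ) : ℝ) * (-1) ≤
            (-β ^ 2) * J + β ^ 2 / ((N + 1 : ℕ) : ℝ) * J' := by
          have f1 := mul_le_mul_of_nonneg_left e8 hb2
          have f2 := mul_le_mul_of_nonneg_left hJ1 e6
          linarith
        have e10 := mul_le_mul_of_nonneg_left e9 hp
        linarith
      have e7 := Finset.sum_le_sum e2
      have e8 : ∑ l ∈ Finset.range (K + 1),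
          -(β ^ 2 * (if d ≤ l then (me K (l + 1) - me K l) *
            |(ST n K d (me K) β N s R θ).pairEx l (fun x x' => sp N x * sp N x' *
              (Rov (ph hN') x x' - R₀ l))| else 0) +
            β ^ 2 / ((N + 1 : ℕ) : ℝ) * (me K (l + 1) - me K l)) =
          -(β ^ 2 * ∑ l ∈ Finset.Ico d (K + 1), (me K (l + 1) - me K l) *
            |(ST n K d (me K) β N s R θ).pairEx l (fun x x' => sp N x * sp N x' *
              (Rov (ph hN') x x' - R₀ l))| +
            β ^ 2 / ((N + 1 : ℕ) : ℝ) * ∑ l ∈ Finset.range (K + 1), (me K (l + 1) - me K l)) := by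
        have f1 : (Finset.range (K + 1)).filter (fun l => d ≤ l) = Finset.Ico d (K + 1) := by
          ext l
          simp only [Finset.mem_filter, Finset.mem_range, Finset.mem_Ico]
          omega
        rw [Finset.sum_neg_distrib, Finset.sum_add_distrib, ← Finset.mul_sum, ← Finset.mul_sum,
          ← f1, Finset.sum_filter]
      rw [e8, hsum, mul_one] at e7
      have e9 := mul_le_mul_of_nonneg_left (hdev θ) hb2
      linarith)
  -- (3)
  have h3 := fe_tre (R := R) hd hNn hm hβ hR s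
  -- (4)
  have h4 := SC_ge (β := β) hd hN' h0 hm s
  have h5 : ∑ l ∈ Finset.range (K + 1), (me K (l + 1) - me K l) * R l ^ 2 - 1 / ((K : ℝ) + 1) ≤
      ∑ l ∈ Finset.range (K + 1), (me K (l + 1) - me K l) *
        (if d ≤ l then (SN n K d (me K) β N s).pairEx l (fun x x' => Rov (ph hN') x x' ^ 2)
          else 0) := by
    have hReg : (SN n K d (me K) β N s).Reg := rs_reg hd hm _ _
    have a1 : ∀ l ∈ Finset.range (K + 1), (me K (l + 1) - me K l) * R l ^ 2 -
        (if l = K then 1 / ((K : ℝ) + 1) else 0) ≤ (me K (l + 1) - me K l) *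
        (if d ≤ l then (SN n K d (me K) β N s).pairEx l (fun x x' => Rov (ph hN') x x' ^ 2)
          else 0) := by
      intro l hl
      have hl' : l ≤ K := by have := Finset.mem_range.1 hl; omega
      have hl'' : l ≤ (SN n K d (me K) β N s).K := hl'
      have hp := rs_p_nonneg hm hl
      have hnn : 0 ≤ (if l = K then 1 / ((K : ℝ) + 1) else 0) := by
        split_ifs
        · positivity
        · exact le_rfl
      rcases lt_or_ge l d with hld | hld
      · rw [if_neg (not_le.2 hld), hRlt l hld]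
        linarith
      rw [if_pos hld]
      rcases Nat.lt_or_eq_of_le hl' with hlK | hlK
      · have a2 : R l = (SN n K d (me K) β N s).Rl (ph hN') l := by
          rw [hRge l hld, hRdef]
          unfold stR
          rw [if_pos]
          exact hlK
        have a3 := gs_jensen (β := β) hd hN' h0 hm hsp hl'
        rw [← a2] at a3
        have a4 := mul_le_mul_of_nonneg_left a3 hp
        linarith
      · have a2 : 0 ≤ (SN n K d (me K) β N s).pairEx l (fun x x' => Rov (ph hN') x x' ^ 2) :=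
          hReg.pairEx_nonneg hl'' fun x x' => sq_nonneg _
        have a3 := mul_nonneg hp a2
        rw [if_pos hlK, hlK, hRK, rs_me_p]
        rw [hlK] at a3
        push_cast at a3 ⊢
        rw [rs_me_p] at a3
        push_cast at a3
        linarith
    refine le_trans (le_of_eq ?_) (Finset.sum_le_sum a1)
    rw [Finset.sum_sub_distrib, Finset.sum_ite_eq' (Finset.range (K + 1)) K,
      if_pos (Finset.mem_range.2 (Nat.lt_succ_self K))]
  have h6 := mul_le_mul_of_nonneg_left h5 (show 0 ≤ β ^ 2 / 4 by positivity)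
  rw [← hγ] at h1
  rw [h3, hRK] at h2
  unfold PSK
  have h7 : β ^ 2 / 4 * (1 - ∑ l ∈ Finset.range (K + 1), (me K (l + 1) - me K l) *
        (if d ≤ l then (SN n K d (me K) β N s).pairEx l (fun x x' => Rov (ph hN') x x' ^ 2)
          else 0)) =
      β ^ 2 / 4 - β ^ 2 / 4 * ∑ l ∈ Finset.range (K + 1), (me K (l + 1) - me K l) *
        (if d ≤ l then (SN n K d (me K) β N s).pairEx l (fun x x' => Rov (ph hN') x x' ^ 2)
          else 0) := by ring
  rw [h7] at h4
  have h8 : β ^ 2 / 4 * (∑ l ∈ Finset.range (K + 1), (me K (l + 1) - me K l) * R l ^ 2 -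
      1 / ((K : ℝ) + 1)) =
      β ^ 2 / 4 * ∑ l ∈ Finset.range (K + 1), (me K (l + 1) - me K l) * R l ^ 2 -
        β ^ 2 / 4 * (1 / ((K : ℝ) + 1)) := by ring
  rw [h8] at h6
  have h9 : β ^ 2 / 4 * (1 + ∑ i ∈ Finset.range (K + 1), (me K (i + 1) - me K i) * R i ^ 2) =
      β ^ 2 / 4 + β ^ 2 / 4 * ∑ i ∈ Finset.range (K + 1), (me K (i + 1) - me K i) * R i ^ 2 := by
    ring
  rw [h9]
  -- the total error
  have hges : 0 ≤ ges n K d (me K) β N s t :=
    Finset.sum_nonneg fun l _ => ger_nonneg hd hN' hm s ht l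
  have h10 : W / 2 + 1 / 4 * (1 / ((K : ℝ) + 1)) ≤ gT K σ (ges n K d (me K) β N s t) := by
    obtain ⟨X, hX⟩ : ∃ X, X = √(1 + Real.log ((K : ℝ) + 1)) *
        (2 + 16 * ((K : ℝ) + 1) * (ges n K d (me K) β N s t) / σ) := ⟨_, rfl⟩
    have hX0 : 0 ≤ X := by
      rw [hX]
      positivity
    rw [hW]
    unfold gT
    rw [← hX]
    have e : (X + 2) / ((K : ℝ) + 1) / 2 + 1 / 4 * (1 / ((K : ℝ) + 1)) =
        (X / 2 + 5 / 4) / ((K : ℝ) + 1) := by
      ring
    rw [e]
    exact div_le_div_of_nonneg_right (by linarith) hK1.le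
  have h11 := mul_le_mul_of_nonneg_left h10 hb2
  linarith

end Vale.Agent.P146.Ub.Ld
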