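import Vale.Agent.P146.Rt.RtRate0
import Vale.Agent.P146.Rt.RtStep

/-!
# P146, Rt: the lower bound for the exponential moments with the better rate
-/

open MeasureTheory ProbabilityTheory Filter Topology

namespace Vale.Agent.P146.Ub.Ld

open Vale.Agent.P157 Vale.Agent.P157.Lv Vale.Agent.P157.Lv.Sy Vale.Agent.P157.Lv.Fld
open Vale.Agent.P157.Par (Path Exponents incr spinPart)
open Vale.Agent.P146 (Pair freeEnergy disorder)
open Vale.Agent.P146.Sk (PSK)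

theorem grate {β : ℝ} (hβ : 0 < β) : ∃ C : ℝ, 0 ≤ C ∧ ∀ (K d : ℕ) (Lb : ℝ),
    1 ≤ d → d ≤ K →
    (∀ q : ℕ → ℝ, Path K q → q K ≤ 1 → (∀ l < d, q l = 0) → Lb ≤ PSK β K (me K) q) →
    ∀ n : ℕ, 1 ≤ n →
      n * (Real.log 2 + Lb) ≤
        1 / me K d * Real.log (∫ g, Real.exp (me K d * freeEnergy n β g) ∂(disorder n)) +
          C * (1 + Real.log ((K : ℝ) + 1)) *
            (n / ((K : ℝ) + 1) + ((K : ℝ) + 1) ^ 6 * (1 + Real.log n)) :=
  grate_of fun _ _ hd1 hd _ _ _ hN h0 _ hσ hs hs0 _ ht =>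
    gstep hd1 hd hN h0 hβ.le hσ hs hs0 ht

end Vale.Agent.P146.Ub.Ld
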