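import Vale.Agent.P146.Rt.RtLow0
import Vale.Agent.P146.Rt.RtRate

/-!
# P146, Rt: the rate of the mean
-/

open MeasureTheory ProbabilityTheory Filter Topology

namespace Vale.Agent.P146.Sx

open Vale.Agent.P157.Par (Path Exponents)
open Vale.Agent.P146.Sk (PSK)
open Vale.Agent.P146.Ub

theorem rt_low {β : ℝ} (hβ : 1 ≤ β) : ∃ C : ℝ, 1 ≤ C ∧ ∀ n : ℕ, 1 ≤ n →
    n * pv β ≤ ∫ g, freeEnergy n β g ∂(disorder n) +
      C * (n : ℝ) ^ (6 / 7 : ℝ) * (1 + Real.log n) ^ 2 :=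
  rt_low_of hβ (Ub.Ld.grate (by linarith))

end Vale.Agent.P146.Sx
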