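import Vale.Agent.P146.Rt.RtMom0
import Vale.Agent.P146.Rt.RtLow

/-!
# P146, Rt: exponential moments and variance
-/

open MeasureTheory ProbabilityTheory Filter Topology

namespace Vale.Agent.P146.Sx

open Vale.Agent.P157.Par (Path Exponents)
open Vale.Agent.P146.Sk (PSK)
open Vale.Agent.P146.Ub

theorem rt_moment {β : ℝ} (hβ : 1 ≤ β) : ∃ C : ℝ, 1 ≤ C ∧
    (∀ n : ℕ, 1 ≤ n → ∀ x : ℝ, 0 < x → x ≤ 1 →
      Real.log (∫ g, Real.exp (x * freeEnergy n β g) ∂(disorder n)) ≤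
        x * (n * pv β) + C * n * x ^ 6) ∧
    (∀ n : ℕ, 1 ≤ n → ∫ g, freeEnergy n β g ∂(disorder n) ≤ n * pv β) ∧
    (∀ n : ℕ, 1 ≤ n → n * pv β ≤ ∫ g, freeEnergy n β g ∂(disorder n) +
      C * (n : ℝ) ^ (7 / 8 : ℝ)) :=
  rt_moment_of hβ (rt_low hβ)

theorem rt_var {β : ℝ} (hβ : 1 ≤ β) : ∃ C : ℝ, 1 ≤ C ∧ ∀ n : ℕ, 1 ≤ n →
    Var[freeEnergy n β; disorder n] ≤ C * (n : ℝ) ^ (8 / 9 : ℝ) :=
  rt_var_of hβ (rt_low hβ)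

end Vale.Agent.P146.Sx
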