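import Vale.Agent.P146.Rt.RtCe0
import Vale.Agent.P146.Rt.RtLow
import Vale.Agent.P146.Rt.RtMom

/-!
# P146, Rt: exponential concentration at the scale `n^(9/20)`
-/

open MeasureTheory ProbabilityTheory

namespace Vale.Agent.P146.Sx

theorem rt_conc {β : ℝ} (hβ : 1 ≤ β) : ∃ C a : ℝ, 1 ≤ C ∧ 0 < a ∧ ∀ n : ℕ, 1 ≤ n → ∀ t : ℝ,
    0 ≤ t → (disorder n).real {g | t * (n : ℝ) ^ (9 / 20 : ℝ) ≤
      |freeEnergy n β g - ∫ g, freeEnergy n β g ∂(disorder n)|} ≤ C * Real.exp (-(a * t)) := by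
  obtain ⟨C, hC, h, -, -⟩ := rt_moment hβ
  exact rt_conc_of hβ (rt_low hβ) ⟨C, hC, h⟩ (rt_var hβ)

end Vale.Agent.P146.Sx
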