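import Vale.Agent.P146.Ce.CeSK

/-!
# P146, Rt: exponential concentration at the scale `n^(9/20)`, over the rate and the variance
-/

open MeasureTheory ProbabilityTheory

namespace Vale.Agent.P146.Sx

open Vale.Agent.P146.Ub.Cv
open Vale.Agent.P146.Ce

/-- the powers of `v = n^(1/420)` -/
theorem rtce_pow {n : ℕ} (hn : 1 ≤ n) {v : ℝ} (hv : v = (n : ℝ) ^ (1 / 420 : ℝ)) :
    1 ≤ v ∧ v ^ 420 = n ∧ (n : ℝ) ^ (6 / 7 : ℝ) = v ^ 360 ∧
      (n : ℝ) ^ (9 / 20 : ℝ) = v ^ 189 ∧ (n : ℝ) ^ (8 / 9 : ℝ) ≤ v ^ 378 ∧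
      1 + Real.log n ≤ 421 * v := by
  have hn1 : (1 : ℝ) ≤ n := by exact_mod_cast hn
  have hn0 : (0 : ℝ) < n := by linarith
  have hp : ∀ k : ℕ, v ^ k = (n : ℝ) ^ ((k : ℝ) / 420) := by
    intro k
    rw [hv, ← Real.rpow_natCast, ← Real.rpow_mul hn0.le]
    congr 1
    ring
  have hv1 : 1 ≤ v := by rw [hv]; exact Real.one_le_rpow hn1 (by norm_num)
  refine ⟨hv1, ?_, ?_, ?_, ?_, ?_⟩
  · rw [hp]; norm_num
  · rw [hp]; norm_num
  · rw [hp]; norm_num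
  · rw [hp]
    exact Real.rpow_le_rpow_of_exponent_le hn1 (by norm_num)
  · have h1 := Real.log_le_rpow_div hn0.le (show (0 : ℝ) < 1 / 420 by norm_num)
    have h3 : (n : ℝ) ^ (1 / 420 : ℝ) / (1 / 420) = 420 * (n : ℝ) ^ (1 / 420 : ℝ) := by ring
    rw [h3, ← hv] at h1
    linarith

/-- the upper tail -/
theorem rtce_up {β : ℝ} (hβ : 1 ≤ β)
    (hlo : ∃ C : ℝ, 1 ≤ C ∧ ∀ n : ℕ, 1 ≤ n → n * pv β ≤ ∫ g, freeEnergy n β g ∂(disorder n) +
      C * (n : ℝ) ^ (6 / 7 : ℝ) * (1 + Real.log n) ^ 2)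
    (hmo : ∃ C : ℝ, 1 ≤ C ∧ ∀ n : ℕ, 1 ≤ n → ∀ x : ℝ, 0 < x → x ≤ 1 →
      Real.log (∫ g, Real.exp (x * freeEnergy n β g) ∂(disorder n)) ≤
        x * (n * pv β) + C * n * x ^ 6) : ∃ D : ℝ, 0 < D ∧ ∀ n : ℕ, 1 ≤ n → ∀ s : ℝ, 0 ≤ s →
    (disorder n).real {g | ∫ g, freeEnergy n β g ∂(disorder n) + s * (n : ℝ) ^ (9 / 20 : ℝ) ≤
      freeEnergy n β g} ≤ Real.exp (1 - s / D) := by
  classical
  obtain ⟨C₁, hC₁, hlow⟩ := hlo
  obtain ⟨C₂, hC₂, hmom⟩ := hmo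
  obtain ⟨C, hC⟩ : ∃ C : ℝ, C = C₁ * 421 ^ 2 + C₂ := ⟨_, rfl⟩
  have hC1 : 1 ≤ C := by rw [hC]; linarith
  set K : ℝ := β ^ 2 / 2 + 7578 * C with hK
  have hKC : 7578 * C ≤ K := by rw [hK]; nlinarith [sq_nonneg β]
  have hK0 : 0 < K := by linarith
  refine ⟨√K, Real.sqrt_pos.2 hK0, fun n hn s hs => ?_⟩
  have hn1 : (1 : ℝ) ≤ n := by exact_mod_cast hn
  have hn0 : (0 : ℝ) < n := by linarith
  obtain ⟨v, hv⟩ : ∃ v : ℝ, v = (n : ℝ) ^ (1 / 420 : ℝ) := ⟨_, rfl⟩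
  obtain ⟨hv1, hvn, e35, e49, -, hlog⟩ := rtce_pow hn hv
  have hv0 : 0 < v := by linarith
  have hlog0 : 0 ≤ Real.log n := Real.log_nonneg hn1
  set E : ℝ := ∫ g, freeEnergy n β g ∂(disorder n) with hE
  have hlow' : n * pv β ≤ E + C₁ * 421 ^ 2 * v ^ 362 := by
    have h1 := hlow n hn
    rw [← hE, e35] at h1
    refine h1.trans ?_
    have h2 : (1 + Real.log n) ^ 2 ≤ (421 * v) ^ 2 := pow_le_pow_left₀ (by linarith) hlog 2
    have h3 : C₁ * v ^ 360 * (1 + Real.log n) ^ 2 ≤ C₁ * v ^ 360 * (421 * v) ^ 2 :=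
      mul_le_mul_of_nonneg_left h2 (by positivity)
    have e : C₁ * v ^ 360 * (421 * v) ^ 2 = C₁ * 421 ^ 2 * v ^ 362 := by ring
    linarith
  set x : ℝ := 1 / (3 * v ^ 12) with hx
  have hx0 : 0 < x := by positivity
  have hL : ∀ a, 0 ≤ a → 2 * a ≤ x → ∫ g, Real.exp (2 * (a + x) * freeEnergy n β g) ∂(gpi (Pair n)) ≤
      Real.exp (2 * (a + x) * (∫ g, freeEnergy n β g ∂(gpi (Pair n))) + 2 * C * v ^ 350) := by
    intro a ha hax
    obtain ⟨y, hy⟩ : ∃ y : ℝ, y = 2 * (a + x) := ⟨_, rfl⟩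
    have hy0 : 0 < y := by rw [hy]; positivity
    have hyx : y ≤ 1 / v ^ 12 := by
      have h3 : 3 * x = 1 / v ^ 12 := by rw [hx]; field_simp
      rw [hy, ← h3]
      linarith
    have hy1 : y ≤ 1 := by
      refine hyx.trans ?_
      rw [div_le_one (by positivity)]
      exact one_le_pow₀ hv1
    have h1 := hmom n hn y hy0 hy1
    have hpos : 0 < ∫ g, Real.exp (y * freeEnergy n β g) ∂(disorder n) :=
      mgf_pos (μ := disorder n) (X := freeEnergy n β) (Sx.integrable_exp n β y)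
    rw [Real.log_le_iff_le_exp hpos] at h1
    rw [← hy]
    change ∫ g, Real.exp (y * freeEnergy n β g) ∂(disorder n) ≤ Real.exp (y * E + 2 * C * v ^ 350)
    refine h1.trans (Real.exp_le_exp.2 ?_)
    have h2 : y * (n * pv β) ≤ y * (E + C₁ * 421 ^ 2 * v ^ 362) :=
      mul_le_mul_of_nonneg_left hlow' hy0.le
    have h3 : y * v ^ 362 ≤ v ^ 350 := by
      have h4 : y * v ^ 362 ≤ 1 / v ^ 12 * v ^ 362 :=
        mul_le_mul_of_nonneg_right hyx (by positivity)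
      refine h4.trans (le_of_eq ?_)
      field_simp
    have h5 : (n : ℝ) * y ^ 6 ≤ v ^ 350 := by
      have h6 : y ^ 6 ≤ (1 / v ^ 12) ^ 6 := pow_le_pow_left₀ hy0.le hyx 6
      have h7 : (n : ℝ) * y ^ 6 ≤ n * (1 / v ^ 12) ^ 6 := mul_le_mul_of_nonneg_left h6 hn0.le
      have h8 : n * (1 / v ^ 12) ^ 6 = v ^ 348 := by
        rw [← hvn]
        field_simp
      have h9 : v ^ 348 ≤ v ^ 350 := pow_le_pow_right₀ hv1 (by norm_num)
      linarith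
    have h8 := mul_le_mul_of_nonneg_left h3 (by positivity : (0 : ℝ) ≤ C₁ * 421 ^ 2)
    have h9 := mul_le_mul_of_nonneg_left h5 (by linarith : (0 : ℝ) ≤ C₂)
    have e1 : y * (E + C₁ * 421 ^ 2 * v ^ 362) = y * E + C₁ * 421 ^ 2 * (y * v ^ 362) := by ring
    have e2 : C₂ * n * y ^ 6 = C₂ * (n * y ^ 6) := by ring
    rw [e1] at h2
    rw [e2]
    have h10 : 0 ≤ v ^ 350 := by positivity
    have e3 : 2 * C * v ^ 350 = 2 * (C₁ * 421 ^ 2 * v ^ 350) + 2 * (C₂ * v ^ 350) := by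
      rw [hC]; ring
    have h11 : 0 ≤ C₁ * 421 ^ 2 * v ^ 350 := by positivity
    have h12 : 0 ≤ C₂ * v ^ 350 := by positivity
    rw [e3]
    linarith
  have hV : β ^ 2 * n / 2 * (1 / n) + 2 * C * v ^ 350 / x ^ 2 * (-Real.log (1 / n)) ≤
      K * v ^ 378 := by
    have e1 : β ^ 2 * n / 2 * (1 / n) = β ^ 2 / 2 := by field_simp
    have e2 : 2 * C * v ^ 350 / x ^ 2 = 18 * C * v ^ 374 := by
      rw [hx]; field_simp; ring
    have e3 : -Real.log (1 / n) = Real.log n := by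
      rw [one_div, Real.log_inv, neg_neg]
    rw [e1, e2, e3]
    have h1 : 18 * C * v ^ 374 * Real.log n ≤ 18 * C * v ^ 374 * (421 * v) :=
      mul_le_mul_of_nonneg_left (by linarith) (by positivity)
    have h2 : β ^ 2 / 2 ≤ β ^ 2 / 2 * v ^ 378 :=
      le_mul_of_one_le_right (by positivity) (one_le_pow₀ hv1)
    have h3 : 18 * C * v ^ 374 * (421 * v) ≤ 7578 * C * v ^ 378 := by
      have h4 : v ^ 375 ≤ v ^ 378 := pow_le_pow_right₀ hv1 (by norm_num)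
      have h5 := mul_le_mul_of_nonneg_left h4 (by positivity : 0 ≤ 7578 * C)
      have e : 18 * C * v ^ 374 * (421 * v) = 7578 * C * v ^ 375 := by ring
      linarith
    have e4 : K * v ^ 378 = β ^ 2 / 2 * v ^ 378 + 7578 * C * v ^ 378 := by
      rw [hK]; ring
    rw [e4]
    linarith
  have hVx : 1 ≤ K * v ^ 378 * x ^ 2 := by
    have e1 : K * v ^ 378 * x ^ 2 = K / 9 * v ^ 354 := by
      rw [hx]; field_simp; ring
    rw [e1]
    have h1 : (1 : ℝ) ≤ v ^ 354 := one_le_pow₀ hv1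
    have h2 : 1 ≤ K / 9 := by linarith
    nlinarith
  have h := up_exp (reg_freeEnergy n β) (lin_freeEnergy n β) (Lt.lt_lin_grad n β)
    (tangent_freeEnergy n β) (sum_gradF_sq n β) hx0 (by positivity) hL
    (u := 1 / n) (by positivity) (by rw [div_le_one hn0]; exact hn1) hV (by positivity) hVx
    (t := s / √K) (by positivity)
  have e : s / √K * √(K * v ^ 378) = s * (n : ℝ) ^ (9 / 20 : ℝ) := by
    have hsK : 0 < √K := Real.sqrt_pos.2 hK0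
    have e1 : √(K * v ^ 378) = √K * v ^ 189 := by
      rw [Real.sqrt_mul hK0.le]
      congr 1
      rw [show v ^ 378 = (v ^ 189) ^ 2 by ring]
      exact Real.sqrt_sq (by positivity)
    rw [e1, e49]
    field_simp
  rw [e] at h
  exact h

/-- the lower tail -/
theorem rtce_dn {β : ℝ} (hva : ∃ C : ℝ, 1 ≤ C ∧ ∀ n : ℕ, 1 ≤ n →
    Var[freeEnergy n β; disorder n] ≤ C * (n : ℝ) ^ (8 / 9 : ℝ)) :
    ∃ D : ℝ, 0 < D ∧ ∀ n : ℕ, 1 ≤ n → ∀ s : ℝ, 0 ≤ s →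
    (disorder n).real {g | freeEnergy n β g ≤
      ∫ g, freeEnergy n β g ∂(disorder n) - s * (n : ℝ) ^ (9 / 20 : ℝ)} ≤
        2 * Real.exp (-(s / D)) := by
  classical
  obtain ⟨K, hK1, hC⟩ := hva
  have hK0 : 0 < K := by positivity
  refine ⟨4 * √K, by positivity, fun n hn s hs => ?_⟩
  have hn1 : (1 : ℝ) ≤ n := by exact_mod_cast hn
  have hn0 : (0 : ℝ) < n := by linarith
  obtain ⟨v, hv⟩ : ∃ v : ℝ, v = (n : ℝ) ^ (1 / 420 : ℝ) := ⟨_, rfl⟩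
  obtain ⟨hv1, hvn, -, e49, e44, hlog⟩ := rtce_pow hn hv
  have hv0 : 0 < v := by linarith
  have lF := lin_freeEnergy n β
  have hmem : MemLp (freeEnergy n β) 2 (disorder n) := by
    rw [memLp_two_iff_integrable_sq lF.cont.aestronglyMeasurable]
    exact (lF.dom.pow 2).integrable
  have hprob : IsProbabilityMeasure (disorder n) := by unfold disorder; infer_instance
  have hvar : Var[freeEnergy n β; disorder n] =
      ∫ g, freeEnergy n β g ^ 2 ∂(disorder n) - (∫ g, freeEnergy n β g ∂(disorder n)) ^ 2 := by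
    rw [variance_eq_sub hmem]
    rfl
  have hV := hC n hn
  rw [hvar] at hV
  have hV2 : ∫ g, freeEnergy n β g ^ 2 ∂(disorder n) - (∫ g, freeEnergy n β g ∂(disorder n)) ^ 2 ≤
      (√K * v ^ 189) ^ 2 := by
    refine hV.trans ?_
    rw [mul_pow, Real.sq_sqrt hK0.le]
    have h1 : K * (n : ℝ) ^ (8 / 9 : ℝ) ≤ K * v ^ 378 := mul_le_mul_of_nonneg_left e44 hK0.le
    refine h1.trans (le_of_eq ?_)
    ring
  have h := low_exp (G := gradF n β) lF (tangent_freeEnergy n β)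
    (σ := √K * v ^ 189) (by positivity) hV2 (t := s / √K) (by positivity)
  have hsK : 0 < √K := Real.sqrt_pos.2 hK0
  have e : s / √K * (√K * v ^ 189) = s * (n : ℝ) ^ (9 / 20 : ℝ) := by
    rw [e49]
    field_simp
  have e2 : s / √K / 4 = s / (4 * √K) := by field_simp
  rw [e, e2] at h
  exact h

/-- two-sided exponential concentration at the scale `n^(9/20)` -/
theorem rt_conc_of {β : ℝ} (hβ : 1 ≤ β)
    (hlo : ∃ C : ℝ, 1 ≤ C ∧ ∀ n : ℕ, 1 ≤ n → n * pv β ≤ ∫ g, freeEnergy n β g ∂(disorder n) +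
      C * (n : ℝ) ^ (6 / 7 : ℝ) * (1 + Real.log n) ^ 2)
    (hmo : ∃ C : ℝ, 1 ≤ C ∧ ∀ n : ℕ, 1 ≤ n → ∀ x : ℝ, 0 < x → x ≤ 1 →
      Real.log (∫ g, Real.exp (x * freeEnergy n β g) ∂(disorder n)) ≤
        x * (n * pv β) + C * n * x ^ 6)
    (hva : ∃ C : ℝ, 1 ≤ C ∧ ∀ n : ℕ, 1 ≤ n →
      Var[freeEnergy n β; disorder n] ≤ C * (n : ℝ) ^ (8 / 9 : ℝ)) :
    ∃ C a : ℝ, 1 ≤ C ∧ 0 < a ∧ ∀ n : ℕ, 1 ≤ n → ∀ t : ℝ,
    0 ≤ t → (disorder n).real {g | t * (n : ℝ) ^ (9 / 20 : ℝ) ≤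
      |freeEnergy n β g - ∫ g, freeEnergy n β g ∂(disorder n)|} ≤ C * Real.exp (-(a * t)) := by
  obtain ⟨D₁, hD₁, h1⟩ := rtce_up hβ hlo hmo
  obtain ⟨D₂, hD₂, h2⟩ := rtce_dn hva
  have he : 0 < Real.exp 1 := Real.exp_pos 1
  refine ⟨Real.exp 1 + 2, min (1 / D₁) (1 / D₂), by linarith, by positivity,
    fun n hn t ht => ?_⟩
  have hprob : IsProbabilityMeasure (disorder n) := by unfold disorder; infer_instance
  set E : ℝ := ∫ g, freeEnergy n β g ∂(disorder n) with hE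
  have hsub : {g | t * (n : ℝ) ^ (9 / 20 : ℝ) ≤ |freeEnergy n β g - E|} ⊆
      {g | E + t * (n : ℝ) ^ (9 / 20 : ℝ) ≤ freeEnergy n β g} ∪
        {g | freeEnergy n β g ≤ E - t * (n : ℝ) ^ (9 / 20 : ℝ)} := by
    intro g hg
    have hg' : t * (n : ℝ) ^ (9 / 20 : ℝ) ≤ |freeEnergy n β g - E| := hg
    rcases le_abs.1 hg' with h | h
    · left
      show E + t * (n : ℝ) ^ (9 / 20 : ℝ) ≤ freeEnergy n β g
      linarith
    · right
      show freeEnergy n β g ≤ E - t * (n : ℝ) ^ (9 / 20 : ℝ)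
      linarith
  refine (measureReal_mono hsub).trans ((measureReal_union_le _ _).trans ?_)
  have h3 := h1 n hn t ht
  have h4 := h2 n hn t ht
  rw [← hE] at h3 h4
  have h5 : Real.exp (1 - t / D₁) ≤ Real.exp 1 * Real.exp (-(min (1 / D₁) (1 / D₂) * t)) := by
    rw [← Real.exp_add]
    refine Real.exp_le_exp.2 ?_
    have := mul_le_mul_of_nonneg_right (min_le_left (1 / D₁) (1 / D₂)) ht
    have e : 1 / D₁ * t = t / D₁ := by ring
    linarith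
  have h6 : 2 * Real.exp (-(t / D₂)) ≤ 2 * Real.exp (-(min (1 / D₁) (1 / D₂) * t)) := by
    refine mul_le_mul_of_nonneg_left (Real.exp_le_exp.2 ?_) (by norm_num)
    have := mul_le_mul_of_nonneg_right (min_le_right (1 / D₁) (1 / D₂)) ht
    have e : 1 / D₂ * t = t / D₂ := by ring
    linarith
  calc _ ≤ Real.exp (1 - t / D₁) + 2 * Real.exp (-(t / D₂)) := add_le_add h3 h4
    _ ≤ Real.exp 1 * Real.exp (-(min (1 / D₁) (1 / D₂) * t)) +
        2 * Real.exp (-(min (1 / D₁) (1 / D₂) * t)) := add_le_add h5 h6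
    _ = _ := by ring

end Vale.Agent.P146.Sx
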