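import Vale.Agent.P146.Rt.RtDefs

/-!
# P146, Rt: the concentration of the fields of the levels `j ≥ 1`, without the strength of the level `0`

All coefficients of the level `0` vanish (`1 ≤ d`, `s 0 = 0`, `R 0 = 0`), hence the values at the
level `0` are deterministic (`ls_var` with `V := 0`).
-/

open MeasureTheory ProbabilityTheory Filter Topology

namespace Vale.Agent.P146.Ub.Ld

set_option linter.unusedSectionVars false

open Vale.Agent.P157 Vale.Agent.P157.Lv Vale.Agent.P157.Lv.Sy Vale.Agent.P157.Lv.Fld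
open Vale.Agent.P157.Par (Path Exponents incr spinPart)
open Vale.Agent.P146 (Pair)
open Vale.Agent.P146.Sk (PSK)

section Conc

variable {n K N d : ℕ} {m s R : ℕ → ℝ} {β θ : ℝ}

theorem rtc_st_zero (hd1 : 1 ≤ d) (hs0 : s 0 = 0) (x : Fin n → Bool) (e : RI n K)
    (he : rlv d e = 0) (γ : ℝ) :
    (dsk N γ + fd N s : (Fin n → Bool) → RI n K → ℝ) x e = 0 := by
  rcases e with p | p | l
  · exact absurd he (by show d ≠ 0; omega)
  · have hp : (p.1 : ℕ) = 0 := he
    show dsk N γ x (Sum.inr (Sum.inl p)) + fd N s x (Sum.inr (Sum.inl p)) = 0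
    rw [dsk_b, fd_b, hp, hs0]
    simp
  · show dsk N γ x (Sum.inr (Sum.inr l)) + fd N s x (Sum.inr (Sum.inr l)) = 0
    rw [dsk_b, fd_c, add_zero]

theorem rtc_tc_zero (hd1 : 1 ≤ d) (hs0 : s 0 = 0) (hR0 : R 0 = 0) (x : Fin n → Bool)
    (e : RI n K) (he : rlv d e = 0) :
    (tc β N s R θ : (Fin n → Bool) → RI n K → ℝ) x e = 0 := by
  have h1 := rtc_st_zero (N := N) hd1 hs0 x e he (β / √((N + 1 : ℕ) : ℝ))
  have h2 : tre N β R x e = 0 := by
    rcases e with p | p | l
    · rfl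
    · rfl
    · have hp : (l : ℕ) = 0 := he
      rw [tre_c, hp]
      show β * √(R 0) * sp N x = 0
      rw [hR0, Real.sqrt_zero, mul_zero, zero_mul]
  have h3 : cav N (β / √((N + 1 : ℕ) : ℝ)) x e = 0 := by
    rcases e with p | p | l
    · exact absurd he (by show d ≠ 0; omega)
    · rfl
    · rfl
  show (dsk N (β / √((N + 1 : ℕ) : ℝ)) + fd N s : (Fin n → Bool) → RI n K → ℝ) x e +
    (Real.sin θ * tre N β R x e + Real.cos θ * cav N (β / √((N + 1 : ℕ) : ℝ)) x e) = 0
  rw [h1, h2, h3]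
  simp

theorem rtc_SN_var (hd1 : 1 ≤ d) (hd : d ≤ K) (hm : Exponents K m) (hs0 : s 0 = 0) :
    ∫ z, ((SN n K d m β N s).lg 0 z - (SN n K d m β N s).fe) ^ 2 ∂(gI (RI n K)) ≤ 0 := by
  have h := ls_var (a := (st β N s : (Fin n → Bool) → RI n K → ℝ)) hm (rlv_le hd) (lc n)
    (V := 0) (fun x => by
      refine le_of_eq (Finset.sum_eq_zero fun e _ => ?_)
      split_ifs with he
      · have h1 : (st β N s : (Fin n → Bool) → RI n K → ℝ) x e = 0 :=
          rtc_st_zero (N := N) hd1 hs0 x e he (β / √N)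
        rw [h1]
        ring
      · rfl)
  rw [mul_zero] at h
  exact h

theorem rtc_ST_var (hd1 : 1 ≤ d) (hd : d ≤ K) (hm : Exponents K m) (hs0 : s 0 = 0)
    (hR0 : R 0 = 0) :
    ∫ z, ((ST n K d m β N s R θ).lg 0 z - (ST n K d m β N s R θ).fe) ^ 2 ∂(gI (RI n K)) ≤ 0 := by
  have h := ls_var (a := (tc β N s R θ : (Fin n → Bool) → RI n K → ℝ)) hm (rlv_le hd) (lc n)
    (V := 0) (fun x => by
      refine le_of_eq (Finset.sum_eq_zero fun e _ => ?_)
      split_ifs with he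
      · rw [rtc_tc_zero hd1 hs0 hR0 x e he]
        ring
      · rfl)
  rw [mul_zero] at h
  exact h

theorem rtc_update {j : ℕ} (hj1 : 1 ≤ j) (hs0 : s 0 = 0) (x : ℝ) :
    Function.update s j x 0 = 0 := by
  rw [Function.update_of_ne (by omega), hs0]

theorem ST_conc0 (hd1 : 1 ≤ d) (hd : d ≤ K) (hN : N + 1 ≤ n) (h0 : 0 < N) (hm : Exponents K m)
    (hR : Path K R) (hR1 : R K ≤ 1) (hR0 : R 0 = 0) (hs : ∀ l ≤ K, 0 ≤ s l) (hs0 : s 0 = 0)
    {t : ℝ} (ht : 0 < t) (θ : ℝ) {j : ℕ} (hj1 : 1 ≤ j) (hj : j ≤ K) :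
    (ST n K d m β N s R θ).Ex (fun z x => |hz (ph (Nat.le_of_succ_le hN))
        (zc (Nat.le_of_succ_le hN)) j z x - (SN n K d m β N s).Ex (hz (ph (Nat.le_of_succ_le hN))
        (zc (Nat.le_of_succ_le hN)) j)|) ≤ ger n K d m β N s t j := by
  have hN' : N ≤ n := Nat.le_of_succ_le hN
  have hN0 : (0 : ℝ) < N := by exact_mod_cast h0
  have hReg : (ST n K d m β N s R θ).Reg := rs_reg hd hm _ _
  have hRegt : ∀ t', ((ST n K d m β N s R θ).pt (gx hN' j) t').Reg := by
    intro t'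
    rw [ST_pt hN' hj]
    exact rs_reg hd hm _ _
  have h1 := conc_abs hReg (nh_gx hN' j) hRegt (t := t) (F0 := AN n K d m β N s)
    (Fp := AN n K d m β N (Function.update s j (s j + t)))
    (Fm := AN n K d m β N (Function.update s j (s j - t)))
    (c₀ := (SN n K d m β N s).Ex (gx hN' j)) (B := β ^ 2 / 2)
    (V := 0) ht
    (ST_cmp hd hN h0 hm hR hR1 s θ)
    (by rw [ST_pt hN' hj]; exact ST_cmp hd hN h0 hm hR hR1 _ θ)
    (by
      rw [ST_pt hN' hj, ← sub_eq_add_neg]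
      exact ST_cmp hd hN h0 hm hR hR1 _ θ)
    (AN_tangent hd hN' hm s hj t)
    (by
      have := AN_tangent (β := β) hd hN' hm s hj (-t)
      rw [← sub_eq_add_neg, neg_mul, ← sub_eq_add_neg] at this
      exact this)
    (by
      intro t' ht'
      rw [ST_pt hN' hj]
      exact rtc_ST_var hd1 hd hm (rtc_update hj1 hs0 _) hR0)
  have e1 : (ST n K d m β N s R θ).Ex (fun z x => |hz (ph hN') (zc hN') j z x -
      (SN n K d m β N s).Ex (hz (ph hN') (zc hN') j)|) =
      1 / N * (ST n K d m β N s R θ).Ex (fun z x => |gx hN' j z x -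
        (SN n K d m β N s).Ex (gx hN' j)|) := by
    rw [← Sy.Ex_const_mul]
    congr 1
    funext z x
    rw [rs_Ex_gx hN' h0, hz_eq_gx]
    have e2 : 1 / (N : ℝ) * gx hN' j z x - (SN n K d m β N s).Ex (hz (ph hN') (zc hN') j) =
        1 / N * (gx hN' j z x - N * (SN n K d m β N s).Ex (hz (ph hN') (zc hN') j)) := by
      field_simp
    rw [e2, abs_mul, abs_of_pos (by positivity)]
  rw [e1]
  refine (mul_le_mul_of_nonneg_left h1 (by positivity)).trans (le_of_eq ?_)
  unfold ger dl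
  rw [if_pos hj, Real.sqrt_zero, mul_zero, add_zero]
  have e3 : (ST n K d m β N s R θ).m 1 = m 1 := rfl
  rw [e3]
  field_simp
  ring

theorem SN_conc0 (hd1 : 1 ≤ d) (hd : d ≤ K) (hN : N ≤ n) (h0 : 0 < N) (hm : Exponents K m)
    (hs : ∀ l ≤ K, 0 ≤ s l) (hs0 : s 0 = 0) {t : ℝ} (ht : 0 < t) {j : ℕ} (hj1 : 1 ≤ j)
    (hj : j ≤ K) :
    (SN n K d m β N s).Ex (fun z x => |hz (ph hN) (zc hN) j z x -
      (SN n K d m β N s).Ex (hz (ph hN) (zc hN) j)|) ≤ ger n K d m β N s t j := by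
  have hN0 : (0 : ℝ) < N := by exact_mod_cast h0
  have hReg : (SN n K d m β N s).Reg := rs_reg hd hm _ _
  have hRegt : ∀ t', ((SN n K d m β N s).pt (gx hN j) t').Reg := by
    intro t'
    rw [SN_pt hN hj]
    exact rs_reg hd hm _ _
  have hB : 0 ≤ β ^ 2 / 2 := by positivity
  have h1 := conc_abs hReg (nh_gx hN j) hRegt (t := t) (F0 := AN n K d m β N s)
    (Fp := AN n K d m β N (Function.update s j (s j + t)))
    (Fm := AN n K d m β N (Function.update s j (s j - t)))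
    (c₀ := (SN n K d m β N s).Ex (gx hN j)) (B := β ^ 2 / 2)
    (V := 0) ht
    (by unfold AN; rw [sub_self, abs_zero]; exact hB)
    (by rw [SN_pt hN hj]; unfold AN; rw [sub_self, abs_zero]; exact hB)
    (by
      rw [SN_pt hN hj, ← sub_eq_add_neg]
      unfold AN
      rw [sub_self, abs_zero]; exact hB)
    (AN_tangent hd hN hm s hj t)
    (by
      have := AN_tangent (β := β) hd hN hm s hj (-t)
      rw [← sub_eq_add_neg, neg_mul, ← sub_eq_add_neg] at this
      exact this)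
    (by
      intro t' ht'
      rw [SN_pt hN hj]
      exact rtc_SN_var hd1 hd hm (rtc_update hj1 hs0 _))
  have e1 : (SN n K d m β N s).Ex (fun z x => |hz (ph hN) (zc hN) j z x -
      (SN n K d m β N s).Ex (hz (ph hN) (zc hN) j)|) =
      1 / N * (SN n K d m β N s).Ex (fun z x => |gx hN j z x -
        (SN n K d m β N s).Ex (gx hN j)|) := by
    rw [← Sy.Ex_const_mul]
    congr 1
    funext z x
    rw [rs_Ex_gx hN h0, hz_eq_gx]
    have e2 : 1 / (N : ℝ) * gx hN j z x - (SN n K d m β N s).Ex (hz (ph hN) (zc hN) j) =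
        1 / N * (gx hN j z x - N * (SN n K d m β N s).Ex (hz (ph hN) (zc hN) j)) := by
      field_simp
    rw [e2, abs_mul, abs_of_pos (by positivity)]
  rw [e1]
  refine (mul_le_mul_of_nonneg_left h1 (by positivity)).trans (le_of_eq ?_)
  unfold ger dl
  rw [if_pos hj, Real.sqrt_zero, mul_zero, add_zero]
  have e3 : (SN n K d m β N s).m 1 = m 1 := rfl
  rw [e3]
  field_simp
  ring

theorem ger_nonneg (hd : d ≤ K) (hN : N ≤ n) (hm : Exponents K m) (s : ℕ → ℝ) {t : ℝ}
    (ht : 0 < t) (j : ℕ) : 0 ≤ ger n K d m β N s t j := by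
  unfold ger
  split_ifs with hj
  · have h1 := rr_dl_nonneg (β := β) hd hN hm s t hj
    have h2 : 0 < m 1 := by
      have := hm.2.2 0 (Nat.zero_le _)
      rwa [hm.1] at this
    have h3 : 0 ≤ Real.log 2 := Real.log_nonneg (by norm_num)
    positivity
  · exact le_rfl

end Conc

end Vale.Agent.P146.Ub.Ld
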