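import Vale.Agent.P146.Ld.LdRate

/-!
# P146, Rt: a better rate of the lower bound: definitions

The strengths below the level `d` are zero, hence the values at the level `0` are deterministic.
-/

open MeasureTheory ProbabilityTheory Filter Topology

namespace Vale.Agent.P146.Ub.Ld

open Vale.Agent.P157 Vale.Agent.P157.Lv Vale.Agent.P157.Lv.Sy
open Vale.Agent.P157.Par (Path Exponents incr spinPart)
open Vale.Agent.P146 (Pair)

/-- The error of the concentration of the field `j`. -/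
noncomputable def ger (n K d : ℕ) (m : ℕ → ℝ) (β : ℝ) (N : ℕ) (s : ℕ → ℝ) (t : ℝ) (j : ℕ) : ℝ :=
  if j ≤ K then 1 / (N * t) * (2 * dl n K d m β N s t j + 3 * β ^ 2 + Real.log 2 / m 1) else 0

/-- The sum of the errors. -/
noncomputable def ges (n K d : ℕ) (m : ℕ → ℝ) (β : ℝ) (N : ℕ) (s : ℕ → ℝ) (t : ℝ) : ℝ :=
  ∑ j ∈ Finset.Ico d (K + 1), ger n K d m β N s t j

/-- The total error of the overlaps. -/
noncomputable def gT (K : ℕ) (σ E : ℝ) : ℝ :=
  (√(1 + Real.log ((K : ℝ) + 1)) * (2 + 16 * ((K : ℝ) + 1) * E / σ) + 4) / ((K : ℝ) + 1)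

section gen

variable {ι X : Type} [Fintype ι] [DecidableEq ι] [Fintype X] [DecidableEq X] [Nonempty X] {N : ℕ}

/-- `w_k(z, x) = T_k(ε)(z) ε(x)` -/
noncomputable def gw (S : Sy ι X) (ε : X → ℝ) (k : ℕ) : (ι → ℝ) → X → ℝ :=
  fun z x => S.T k (fun _ y => ε y) z * ε x

/-- the variance of `u_l` -/
noncomputable def gV (S : Sy ι X) (φ : X → Fin N → ℝ) (l : ℕ) : ℝ :=
  S.Ex (fun z x => (Fld.uu S φ l z x - S.Rl φ l) ^ 2)

/-- the second moment of `u_l` -/
noncomputable def gW (S : Sy ι X) (φ : X → Fin N → ℝ) (l : ℕ) : ℝ :=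
  S.Ex (fun z x => Fld.uu S φ l z x * Fld.uu S φ l z x)

/-- the second moment of the overlap -/
noncomputable def gQ (S : Sy ι X) (φ : X → Fin N → ℝ) (l : ℕ) : ℝ :=
  S.pairEx l (fun x x' => Rov φ x x' ^ 2)

end gen

end Vale.Agent.P146.Ub.Ld
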