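import Vale.Agent.P146.Rt.RtSkel
import Vale.Agent.P146.Pw2.Power
import Vale.Agent.P146.Sh.ShTc
import Vale.Agent.P146.Lb.LOne
import Vale.Agent.P146.Ld.Cor3

/-!
# P146: sharp upper tail, concentration and spreading of the Sherrington-Kirkpatrick free energy
at every `β > 1`, with better exponents
-/

open MeasureTheory ProbabilityTheory Filter Topology

-- NEVER import this file
namespace Vale.Agent.Results.P146.SharpRate

open Vale.Agent.P146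

theorem result : ∃ (c₀ : ℝ) (Λ : ℝ → ℝ), 0 < c₀ ∧ Tendsto Λ (𝓝[>] 1) (𝓝 (9 / 5120)) ∧
    ∀ β : ℝ, 1 < β → 0 < Λ β ∧ ∃ p C a b : ℝ, 0 < a ∧ 0 < b ∧
    Tendsto (fun n : ℕ => (∫ g, freeEnergy n β g ∂(disorder n)) / n) atTop (𝓝 p) ∧
    (∀ ε : ℝ, 0 < ε → ∃ δ : ℝ, 0 < δ ∧ ∀ᶠ n : ℕ in atTop,
      (∀ x : ℝ, (n : ℝ) ^ (-(1 / 36) : ℝ) ≤ x → x ≤ δ →
        |Real.log (∫ g, Real.exp (x * (freeEnergy n β g - n * p)) ∂(disorder n)) -
          Λ β * n * x ^ 6| ≤ ε * n * x ^ 6) ∧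
      (∀ s : ℝ, (n : ℝ) ^ (-(1 / 8) : ℝ) ≤ s → s ≤ δ →
        |Real.log ((disorder n).real {g | n * (p + s) ≤ freeEnergy n β g}) +
          5 / 6 * (6 * Λ β) ^ (-(1 / 5) : ℝ) * n * s ^ (6 / 5 : ℝ)| ≤
            ε * n * s ^ (6 / 5 : ℝ))) ∧
    (∀ n : ℕ, 1 ≤ n →
      (∀ x : ℝ, 0 < x → x ≤ 1 →
        ∫ g, Real.exp (x * (freeEnergy n β g - n * p)) ∂(disorder n) ≤ Real.exp (C * n * x ^ 6)) ∧
      (∀ t : ℝ, 0 ≤ t →
        (disorder n).real {g | n * p + t * (n : ℝ) ^ (1 / 6 : ℝ) ≤ freeEnergy n β g} ≤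
          C * Real.exp (-t)) ∧
      (∀ s : ℝ, 0 ≤ s → s ≤ 1 →
        (disorder n).real {g | n * (p + s) ≤ freeEnergy n β g} ≤
          Real.exp (-(a * n * s ^ (6 / 5 : ℝ)))) ∧
      (∀ t : ℝ, 0 ≤ t →
        (disorder n).real {g | freeEnergy n β g ≤ ∫ g, freeEnergy n β g ∂(disorder n) - t} ≤
          Real.exp (-(b * t ^ 2 / (n : ℝ) ^ (19 / 20 : ℝ)))) ∧
      (∀ t : ℝ, 0 ≤ t →
        (disorder n).real {g | t * (n : ℝ) ^ (9 / 20 : ℝ) ≤
          |freeEnergy n β g - ∫ g, freeEnergy n β g ∂(disorder n)|} ≤ C * Real.exp (-(b * t))) ∧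
      n * p - C * (n : ℝ) ^ (7 / 8 : ℝ) ≤ ∫ g, freeEnergy n β g ∂(disorder n) ∧
      ∫ g, freeEnergy n β g ∂(disorder n) ≤ n * p ∧
      Var[freeEnergy n β; disorder n] ≤ C * (n : ℝ) ^ (8 / 9 : ℝ)) ∧
    ∀ᶠ n : ℕ in atTop,
      (⨆ y : ℝ, (disorder n).real {g | |freeEnergy n β g - y| ≤ (n : ℝ) ^ c₀}) ≤
        (n : ℝ) ^ (-c₀) ∧
      (n : ℝ) ^ c₀ ≤ Var[freeEnergy n β; disorder n] := by
  obtain ⟨c₀, hc₀, h⟩ := Pw2.power
  obtain ⟨Λ, hΛ, hΛβ⟩ := Sh.lim_Lam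
  refine ⟨c₀, Λ, hc₀, hΛ, fun β hβ => ?_⟩
  obtain ⟨hΛ0, hlimΛ⟩ := hΛβ β hβ
  obtain ⟨C, a, A, c, x₀, ha, hA, hc, hx₀, hx₀1, hlim, hall, -⟩ :=
    Ld.two_sided hβ (Lb.l1 hβ)
  obtain ⟨b, hb, hb1⟩ := Sx.rt_low_dev hβ.le
  obtain ⟨D, d, hD, hd, hconc⟩ := Sx.rt_conc hβ.le
  obtain ⟨C₁, hC₁, -, hup, hlow⟩ := Sx.rt_moment hβ.le
  obtain ⟨C₂, hC₂, hvar⟩ := Sx.rt_var hβ.le
  have hmom := fun (ε : ℝ) (hε : 0 < ε) => Sh.rt_sharp_moment hβ hΛ0 hlimΛ hε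
  have hldp := Sh.rt_sharp_ldp hΛ0 hmom
  obtain ⟨M, hM⟩ : ∃ M, M = max (max C D) (max C₁ C₂) := ⟨_, rfl⟩
  have hM1 : C ≤ M := by rw [hM]; exact (le_max_left _ _).trans (le_max_left _ _)
  have hM2 : D ≤ M := by rw [hM]; exact (le_max_right _ _).trans (le_max_left _ _)
  have hM3 : C₁ ≤ M := by rw [hM]; exact (le_max_left _ _).trans (le_max_right _ _)
  have hM4 : C₂ ≤ M := by rw [hM]; exact (le_max_right _ _).trans (le_max_right _ _)
  refine ⟨hΛ0, Sx.pv β, M, a, min b d, ha, lt_min hb hd, hlim, fun ε hε => ?_,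
    fun n hn => ?_, h β hβ⟩
  · obtain ⟨x₁, hx₁, N₁, h1⟩ := hmom ε hε
    obtain ⟨s₁, hs₁, N₂, h2⟩ := hldp ε hε
    refine ⟨min x₁ s₁, lt_min hx₁ hs₁, ?_⟩
    filter_upwards [eventually_ge_atTop (max N₁ N₂)] with n hn
    refine ⟨fun x hx hxx => ?_, fun s hs hss => h2 n ((le_max_right _ _).trans hn) s hs
      (hss.trans (min_le_right _ _))⟩
    have h3 := h1 n ((le_max_left _ _).trans hn) x hx (hxx.trans (min_le_left _ _))
    have hint := Sx.integrable_exp n β x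
    have hpos : 0 < ∫ g, Real.exp (x * freeEnergy n β g) ∂(disorder n) :=
      mgf_pos (μ := disorder n) (X := freeEnergy n β) hint
    have hcen : ∫ g, Real.exp (x * (freeEnergy n β g - n * Sx.pv β)) ∂(disorder n) =
        Real.exp (-(x * (n * Sx.pv β))) * ∫ g, Real.exp (x * freeEnergy n β g) ∂(disorder n) := by
      rw [← integral_const_mul]
      congr 1
      funext g
      rw [← Real.exp_add]
      congr 1
      ring
    rw [hcen, Real.log_mul (Real.exp_pos _).ne' hpos.ne', Real.log_exp]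
    have e : -(x * (n * Sx.pv β)) + Real.log (∫ g, Real.exp (x * freeEnergy n β g) ∂(disorder n)) =
        Real.log (∫ g, Real.exp (x * freeEnergy n β g) ∂(disorder n)) - x * (n * Sx.pv β) := by
      ring
    rw [e]
    exact h3
  · obtain ⟨h1, h2, h3, -, -, -⟩ := hall n hn
    have hn1 : (1 : ℝ) ≤ n := by exact_mod_cast hn
    have hn0 : (0 : ℝ) < n := by linarith
    refine ⟨fun x hx hx1 => (h1 x hx hx1).trans (Real.exp_le_exp.2 ?_),
      fun t ht => (h2 t ht).trans ?_, h3, fun t ht => (hb1 n hn t ht).trans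
        (Real.exp_le_exp.2 (neg_le_neg ?_)), fun t ht => (hconc n hn t ht).trans ?_, ?_, hup n hn,
      (hvar n hn).trans ?_⟩
    · gcongr
    · exact mul_le_mul_of_nonneg_right hM1 (Real.exp_pos _).le
    · gcongr
      exact min_le_left _ _
    · refine mul_le_mul hM2 (Real.exp_le_exp.2 (neg_le_neg ?_))
        (Real.exp_pos _).le (le_trans (by linarith) hM2)
      exact mul_le_mul_of_nonneg_right (min_le_right _ _) ht
    · have h4 := hlow n hn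
      have := mul_le_mul_of_nonneg_right hM3
        (by positivity : (0 : ℝ) ≤ (n : ℝ) ^ (7 / 8 : ℝ))
      linarith
    · gcongr

end Vale.Agent.Results.P146.SharpRate
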