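import Vale.Agent.P146.Lt.LtSK

/-!
# P146, Rt: Gaussian concentration: an exponential moment of the free energy by its mean
-/

open MeasureTheory ProbabilityTheory
open scoped ENNReal

namespace Vale.Agent.P146.Sx

open Vale.Agent.P146.Ub.Cv

/-- the exponential moment in `ℝ≥0∞` -/
theorem rg_lint (n : ℕ) (β : ℝ) {x : ℝ} (hx : 0 ≤ x) :
    ∫⁻ g, ENNReal.ofReal (Real.exp (x * freeEnergy n β g)) ∂(disorder n) ≤
      ENNReal.ofReal (Real.exp (x * (∫ g, freeEnergy n β g ∂(disorder n)) +
        x ^ 2 * (β ^ 2 * n / 2))) := by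
  have lF := lin_freeEnergy n β
  have hprob : IsProbabilityMeasure (gpi (Pair n)) := by unfold gpi; infer_instance
  have h := Lt.conv_exp (ι := Pair n) (f := freeEnergy n β) (Q := fun _ => β ^ 2 * n / 2)
    lF.cont.measurable measurable_const lF.dom.integrable (integrable_const _) (a := -x) ?_
  · have e1 : ∀ g, -(-x * freeEnergy n β g) = x * freeEnergy n β g := fun g => by ring
    simp only [e1] at h
    rw [integral_const, probReal_univ, one_smul] at h
    refine h.trans_eq ?_
    congr 2
    have e2 : (∫ g, freeEnergy n β g ∂(gpi (Pair n))) = ∫ g, freeEnergy n β g ∂(disorder n) := rfl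
    rw [e2]
    ring
  · intro u v
    have ht := tangent_freeEnergy n β u (fun i => v i - u i)
    have e : (fun p => u p + (v p - u p)) = v := by funext p; ring
    rw [e] at ht
    have hM := sum_gradF_sq n β u
    have h1 : ∑ p, x * (gradF n β p u * (u p - v p)) ≤
        ∑ p, (x ^ 2 * gradF n β p u ^ 2 + (u p - v p) ^ 2 / 4) := by
      refine Finset.sum_le_sum fun p _ => ?_
      nlinarith [sq_nonneg (x * gradF n β p u - (u p - v p) / 2)]
    rw [Finset.sum_add_distrib, ← Finset.mul_sum, ← Finset.mul_sum, ← Finset.sum_div] at h1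
    have h2 : ∑ p, gradF n β p u * (v p - u p) = -∑ p, gradF n β p u * (u p - v p) := by
      rw [← Finset.sum_neg_distrib]
      exact Finset.sum_congr rfl fun p _ => by ring
    rw [h2] at ht
    have h3 := mul_le_mul_of_nonneg_left hM (sq_nonneg x)
    have h4 : x * (freeEnergy n β u - freeEnergy n β v) ≤
        x * ∑ p, gradF n β p u * (u p - v p) :=
      mul_le_mul_of_nonneg_left (by linarith) hx
    rw [neg_sq]
    linarith

theorem rt_gauss (n : ℕ) (β : ℝ) {x : ℝ} (hx : 0 ≤ x) :
    Real.log (∫ g, Real.exp (x * freeEnergy n β g) ∂(disorder n)) ≤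
      x * (∫ g, freeEnergy n β g ∂(disorder n)) + 2 * β ^ 2 * n * x ^ 2 := by
  have lF := lin_freeEnergy n β
  have hprob : IsProbabilityMeasure (disorder n) := by unfold disorder; infer_instance
  have h := rg_lint n β hx
  have hm : Measurable fun g => Real.exp (x * freeEnergy n β g) :=
    Real.measurable_exp.comp (lF.cont.measurable.const_mul x)
  have hi : Integrable (fun g => Real.exp (x * freeEnergy n β g)) (disorder n) := by
    refine ⟨hm.aestronglyMeasurable, ?_⟩
    rw [hasFiniteIntegral_iff_ofReal (Filter.Eventually.of_forall fun g => (Real.exp_pos _).le)]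
    exact h.trans_lt ENNReal.ofReal_lt_top
  have hpos := integral_exp_pos hi
  have hle : ∫ g, Real.exp (x * freeEnergy n β g) ∂(disorder n) ≤
      Real.exp (x * (∫ g, freeEnergy n β g ∂(disorder n)) + x ^ 2 * (β ^ 2 * n / 2)) := by
    rw [integral_eq_lintegral_of_nonneg_ae (Filter.Eventually.of_forall fun g =>
      (Real.exp_pos _).le) hm.aestronglyMeasurable]
    exact ENNReal.toReal_le_of_le_ofReal (Real.exp_pos _).le h
  have h2 := Real.log_le_log hpos hle
  rw [Real.log_exp] at h2
  have h3 : x ^ 2 * (β ^ 2 * n / 2) ≤ 2 * β ^ 2 * n * x ^ 2 := by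
    have : 0 ≤ x ^ 2 * (β ^ 2 * (n : ℝ)) := by positivity
    linarith
  linarith

end Vale.Agent.P146.Sx
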