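import Vale.Agent.P146.Rt.RtW1
import Vale.Agent.P146.Rt.RtW2
import Vale.Agent.P146.Rt.RtW3

/-!
# P146, Rt: `gJ`: the overlap of two replicas which split at the level `l`, against a bounded
observable of both replicas
-/

open MeasureTheory ProbabilityTheory Filter Topology

namespace Vale.Agent.P146.Ub.Ld

set_option linter.unusedSectionVars false

open Vale.Agent.P157 Vale.Agent.P157.Lv Vale.Agent.P157.Lv.Sy Vale.Agent.P157.Lv.Fld
open Vale.Agent.P157.Par (Path Exponents incr spinPart)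
open Vale.Agent.P146 (Pair)

section gen

variable {ι X : Type} [Fintype ι] [DecidableEq ι] [Fintype X] [DecidableEq X] [Nonempty X] {N : ℕ}
  {S : Sy ι X} {D : ι → (ι → ℝ) → X → ℝ} {φ : X → Fin N → ℝ} {zc : ℕ → Fin N → ι} {s : ℕ → ℝ}

private lemma rtj_nh_gw (hS : S.Reg) (ε : X → ℝ) {l : ℕ} (hl : l ≤ S.K) : Nh (gw S ε l) :=
  Nh.mul (Nh.fst (hS.eg_T hl (Nh.snd fun y => ε y))) (Nh.snd fun x => ε x)

theorem gJ (F : Fld S D φ zc s) {d : ℕ} {σ π : ℝ} (hσ : 0 < σ) (hπ : 0 < π)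
    (hs : ∀ l, d ≤ l → l ≤ S.K → σ ≤ s l) (hp : ∀ l ≤ S.K, π ≤ S.p l) {e : ℕ → ℝ}
    (he : ∀ l, 0 ≤ e l)
    (hc : ∀ l, d ≤ l → l ≤ S.K → ∃ c, S.Ex (fun z x => |hz φ zc l z x - c|) ≤ e l)
    {ε : X → ℝ} (hε : ∀ x, |ε x| ≤ 1) {l : ℕ} (hd : d ≤ l) (hl : l < S.K) (q : ℝ) :
    |S.pairEx l (fun x x' => ε x * ε x' * (Rov φ x x' - q))| ≤
      √(gQ S φ l - gW S φ l) + √(S.Ex (gw S ε (l + 1)) - S.Ex (gw S ε l)) * √(gV S φ l) +
        2 * (e l + e (l + 1)) / (σ * π) + |S.Rl φ l - q| := by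
  have hS := F.hreg
  have hl' := hl.le
  have nw0 := rtj_nh_gw (S := S) hS ε hl'
  have nw1 : Nh (gw S ε (l + 1)) := rtj_nh_gw (S := S) hS ε hl
  have nu := nh_uu (φ := φ) hS hl'
  have nc : ∀ c : ℝ, Nh (ι := ι) (X := X) (fun _ _ => c) := fun c => Nh.fst (EG.const c)
  -- the splitting of the pair expectation
  have e1 : S.pairEx l (fun x x' => ε x * ε x' * (Rov φ x x' - q)) =
      S.pairEx l (fun x x' => ε x * ε x' * Rov φ x x') - q * S.Ex (gw S ε l) := by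
    have h1 : (fun x x' => ε x * ε x' * (Rov φ x x' - q)) =
        fun x x' => ε x * ε x' * Rov φ x x' + (-q) * (ε x * ε x') := by
      funext x x'
      ring
    rw [h1, hS.pairEx_add hl' (fun x x' => ε x * ε x' * Rov φ x x')
      (fun x x' => (-q) * (ε x * ε x')), hS.pairEx_const_mul l (-q) (fun x x' => ε x * ε x'),
      gw_pair F ε hl']
    ring
  -- Cauchy-Schwarz
  have e2 : S.Ex (fun z x => gw S ε l z x * uu S φ l z x) - S.Ex (gw S ε l) * S.Rl φ l =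
      S.Ex (fun z x => (gw S ε l z x - gw S ε (l + 1) z x) * (uu S φ l z x - S.Rl φ l)) +
        (S.Ex (fun z x => gw S ε (l + 1) z x * uu S φ l z x) -
          S.Ex (gw S ε (l + 1)) * S.Rl φ l) := by
    have h1 : (fun z x => (gw S ε l z x - gw S ε (l + 1) z x) * (uu S φ l z x - S.Rl φ l)) =
        fun z x => (gw S ε l z x * uu S φ l z x - gw S ε (l + 1) z x * uu S φ l z x) -
          S.Rl φ l * (gw S ε l z x - gw S ε (l + 1) z x) := by
      funext z x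
      ring
    rw [h1, hS.Ex_sub (Nh.sub (Nh.mul nw0 nu) (Nh.mul nw1 nu)) (Nh.const_mul _ (Nh.sub nw0 nw1)),
      hS.Ex_sub (Nh.mul nw0 nu) (Nh.mul nw1 nu), Sy.Ex_const_mul, hS.Ex_sub nw0 nw1]
    ring
  have h3 : |S.Ex (fun z x => (gw S ε l z x - gw S ε (l + 1) z x) *
      (uu S φ l z x - S.Rl φ l))| ≤
      √(S.Ex (gw S ε (l + 1)) - S.Ex (gw S ε l)) * √(gV S φ l) := by
    have h := hS.Ex_cs (Nh.sub nw0 nw1) (Nh.sub nu (nc (S.Rl φ l)))
    have h0 := gw_diff F hε hl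
    have hV0 : 0 ≤ gV S φ l := by
      have h2 := hS.Ex_mono (f := fun _ _ => (0 : ℝ))
        (g := fun z x => (uu S φ l z x - S.Rl φ l) ^ 2) (nc 0)
        (Nh.pow (Nh.sub nu (nc (S.Rl φ l))) 2) (fun z x => sq_nonneg _)
      rw [hS.Ex_const] at h2
      exact h2
    have hd0 : 0 ≤ S.Ex (gw S ε (l + 1)) - S.Ex (gw S ε l) := by
      refine le_trans ?_ h0
      have h2 := hS.Ex_mono (f := fun _ _ => (0 : ℝ))
        (g := fun z x => (gw S ε l z x - gw S ε (l + 1) z x) ^ 2) (nc 0)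
        (Nh.pow (Nh.sub nw0 nw1) 2) (fun z x => sq_nonneg _)
      rw [hS.Ex_const] at h2
      exact h2
    rw [← Real.sqrt_mul hd0]
    refine Real.abs_le_sqrt (h.trans ?_)
    exact mul_le_mul_of_nonneg_right h0 hV0
  have h4 : |S.Ex (fun z x => gw S ε (l + 1) z x * uu S φ l z x) -
      S.Ex (gw S ε (l + 1)) * S.Rl φ l| ≤ 2 * (e l + e (l + 1)) / (σ * π) := by
    have h := gw_field F hσ hs he hc hε hd (Nat.lt_succ_self l) hl
    have hpl := hp l hl'
    rw [← div_div, le_div_iff₀ hπ]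
    refine le_trans ?_ h
    rw [mul_comm]
    exact mul_le_mul_of_nonneg_right hpl (abs_nonneg _)
  have h5 := gw_pairR F hε (l := l) hl'
  have h6 := gw_nonneg F hε (l := l) hl'
  have h7 : |S.Ex (gw S ε l) * (S.Rl φ l - q)| ≤ |S.Rl φ l - q| := by
    rw [abs_mul, abs_of_nonneg h6.1]
    exact mul_le_of_le_one_left (abs_nonneg _) h6.2
  have e3 : S.pairEx l (fun x x' => ε x * ε x' * (Rov φ x x' - q)) =
      (S.pairEx l (fun x x' => ε x * ε x' * Rov φ x x') -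
        S.Ex (fun z x => gw S ε l z x * uu S φ l z x)) +
      S.Ex (fun z x => (gw S ε l z x - gw S ε (l + 1) z x) * (uu S φ l z x - S.Rl φ l)) +
      (S.Ex (fun z x => gw S ε (l + 1) z x * uu S φ l z x) -
          S.Ex (gw S ε (l + 1)) * S.Rl φ l) +
      S.Ex (gw S ε l) * (S.Rl φ l - q) := by
    rw [e1]
    linear_combination e2
  rw [e3]
  refine (abs_add_le _ _).trans (add_le_add ((abs_add_le _ _).trans (add_le_add
    ((abs_add_le _ _).trans (add_le_add h5 h3)) h4)) h7)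

end gen

end Vale.Agent.P146.Ub.Ld
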