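import Vale.Agent.P146.Rt.RtDefs
import Vale.Agent.P146.Rt.RtGap
import Vale.Agent.P146.Ld.Cor1

/-!
# P146, Rt: the rate of the mean
-/

open MeasureTheory ProbabilityTheory Filter Topology

namespace Vale.Agent.P146.Sx

open Vale.Agent.P157.Par (Path Exponents)
open Vale.Agent.P146.Sk (PSK)
open Vale.Agent.P146.Ub

/-- `rt_low` from `grate` -/
theorem rt_low_of {β : ℝ} (hβ : 1 ≤ β) (hg : ∃ C : ℝ, 0 ≤ C ∧ ∀ (K d : ℕ) (Lb : ℝ),
    1 ≤ d → d ≤ K →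
    (∀ q : ℕ → ℝ, Path K q → q K ≤ 1 → (∀ l < d, q l = 0) → Lb ≤ PSK β K (me K) q) →
    ∀ n : ℕ, 1 ≤ n →
      n * (Real.log 2 + Lb) ≤
        1 / me K d * Real.log (∫ g, Real.exp (me K d * freeEnergy n β g) ∂(disorder n)) +
          C * (1 + Real.log ((K : ℝ) + 1)) *
            (n / ((K : ℝ) + 1) + ((K : ℝ) + 1) ^ 6 * (1 + Real.log n))) :
    ∃ C : ℝ, 1 ≤ C ∧ ∀ n : ℕ, 1 ≤ n →
    n * pv β ≤ ∫ g, freeEnergy n β g ∂(disorder n) +
      C * (n : ℝ) ^ (6 / 7 : ℝ) * (1 + Real.log n) ^ 2 := by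
  obtain ⟨C, hC0, hC⟩ := hg
  obtain ⟨C', hC'⟩ : ∃ C' : ℝ, C' = ∑ n ∈ Finset.range 128,
    |n * pv β - ∫ g, freeEnergy n β g ∂(disorder n)| := ⟨_, rfl⟩
  have hC'0 : 0 ≤ C' := by rw [hC']; exact Finset.sum_nonneg fun i _ => abs_nonneg _
  refine ⟨1 + (4 * β ^ 2 + 3 * C) + C', by nlinarith [sq_nonneg β], ?_⟩
  intro n hn
  have hn1 : (1 : ℝ) ≤ n := by exact_mod_cast hn
  have hn0 : (0 : ℝ) ≤ n := by linarith
  have hlog : 0 ≤ Real.log n := Real.log_nonneg hn1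
  obtain ⟨y, hy⟩ : ∃ y : ℝ, y = (n : ℝ) ^ (1 / 7 : ℝ) := ⟨_, rfl⟩
  have hy1 : 1 ≤ y := by rw [hy]; exact Real.one_le_rpow hn1 (by norm_num)
  have hy0 : 0 < y := by linarith
  have hy7 : y ^ 7 = n := by
    rw [hy, ← Real.rpow_natCast, ← Real.rpow_mul hn0]
    norm_num
  have hy6 : (n : ℝ) ^ (6 / 7 : ℝ) = y ^ 6 := by
    rw [hy, ← Real.rpow_natCast, ← Real.rpow_mul hn0]
    norm_num
  rw [hy6]
  have hy61 : 1 ≤ y ^ 6 := one_le_pow₀ hy1
  have hl2 : 1 ≤ (1 + Real.log n) ^ 2 := one_le_pow₀ (by linarith)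
  have hprod : 1 ≤ y ^ 6 * (1 + Real.log n) ^ 2 := by
    calc (1 : ℝ) = 1 * 1 := by norm_num
      _ ≤ _ := mul_le_mul hy61 hl2 zero_le_one (by linarith)
  rcases lt_or_ge y 2 with h2 | h2
  · -- small `n`
    have hlt : n < 128 := by
      have h : (n : ℝ) < 128 := by
        rw [← hy7]
        calc y ^ 7 < 2 ^ 7 := pow_lt_pow_left₀ h2 hy0.le (by norm_num)
          _ = 128 := by norm_num
      exact_mod_cast h
    have h1 : |n * pv β - ∫ g, freeEnergy n β g ∂(disorder n)| ≤ C' := by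
      rw [hC']
      exact Finset.single_le_sum
        (f := fun n : ℕ => |n * pv β - ∫ g, freeEnergy n β g ∂(disorder n)|)
        (fun i _ => abs_nonneg _) (Finset.mem_range.2 hlt)
    have h3 := (le_abs_self _).trans h1
    have h4 : C' * 1 ≤ C' * (y ^ 6 * (1 + Real.log n) ^ 2) :=
      mul_le_mul_of_nonneg_left hprod hC'0
    have h5 : 0 ≤ (1 + (4 * β ^ 2 + 3 * C)) * (y ^ 6 * (1 + Real.log n) ^ 2) := by positivity
    have e : (1 + (4 * β ^ 2 + 3 * C) + C') * y ^ 6 * (1 + Real.log n) ^ 2 =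
      (1 + (4 * β ^ 2 + 3 * C)) * (y ^ 6 * (1 + Real.log n) ^ 2) +
        C' * (y ^ 6 * (1 + Real.log n) ^ 2) := by ring
    rw [e]
    linarith
  · -- the main case
    obtain ⟨L, hL⟩ : ∃ L : ℕ, L = ⌊y⌋₊ := ⟨_, rfl⟩
    have hL2 : 2 ≤ L := by rw [hL]; exact Nat.le_floor (by exact_mod_cast h2)
    have hLy : (L : ℝ) ≤ y := by rw [hL]; exact Nat.floor_le hy0.le
    have hyL : y < L + 1 := by rw [hL]; exact Nat.lt_floor_add_one y
    obtain ⟨K, rfl⟩ : ∃ K : ℕ, L = K + 1 := ⟨L - 1, by omega⟩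
    have hK1 : 1 ≤ K := by omega
    have hcast : ((K + 1 : ℕ) : ℝ) = (K : ℝ) + 1 := by push_cast; ring
    rw [hcast] at hLy hyL
    have hKr : (1 : ℝ) ≤ K := by exact_mod_cast hK1
    have hKp : (0 : ℝ) < (K : ℝ) + 1 := by linarith
    have hme : me K 1 = 1 / ((K : ℝ) + 1) := by
      unfold me
      push_cast
      ring
    have h := hC K 1 (sInf (vals β)) le_rfl hK1 (fun q hq hq1 _ =>
      csInf_le (Ld.cor_bdd hβ) ⟨K, me K, q, by rw [Ld.cor_me]; exact Pw2.gm_exponents K, hq, hq1,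
        rfl⟩) n hn
    rw [hme] at h
    have hx0 : (0 : ℝ) ≤ 1 / ((K : ℝ) + 1) := by positivity
    have hg2 := rt_gauss n β hx0
    have hg3 : 1 / (1 / ((K : ℝ) + 1)) *
        Real.log (∫ g, Real.exp (1 / ((K : ℝ) + 1) * freeEnergy n β g) ∂(disorder n)) ≤
        ∫ g, freeEnergy n β g ∂(disorder n) + 2 * β ^ 2 * (n / ((K : ℝ) + 1)) := by
      have h1 := mul_le_mul_of_nonneg_left hg2 (by positivity : 0 ≤ 1 / (1 / ((K : ℝ) + 1)))
      refine h1.trans_eq ?_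
      field_simp
    have hnL : (n : ℝ) / ((K : ℝ) + 1) ≤ 2 * y ^ 6 := by
      rw [div_le_iff₀ hKp, ← hy7]
      have h1 : y ≤ 2 * ((K : ℝ) + 1) := by linarith
      calc y ^ 7 = y ^ 6 * y := by ring
        _ ≤ y ^ 6 * (2 * ((K : ℝ) + 1)) := mul_le_mul_of_nonneg_left h1 (by positivity)
        _ = _ := by ring
    have hL6 : ((K : ℝ) + 1) ^ 6 ≤ y ^ 6 := pow_le_pow_left₀ hKp.le hLy 6
    have hlogK : Real.log ((K : ℝ) + 1) ≤ Real.log n := by
      refine Real.log_le_log hKp (hLy.trans ?_)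
      rw [← hy7]
      exact le_self_pow₀ hy1 (by norm_num)
    have hlogK0 : 0 ≤ Real.log ((K : ℝ) + 1) := Real.log_nonneg (by linarith)
    have h6 : (n : ℝ) / ((K : ℝ) + 1) + ((K : ℝ) + 1) ^ 6 * (1 + Real.log n) ≤
        3 * y ^ 6 * (1 + Real.log n) := by
      have h1 : ((K : ℝ) + 1) ^ 6 * (1 + Real.log n) ≤ y ^ 6 * (1 + Real.log n) :=
        mul_le_mul_of_nonneg_right hL6 (by linarith)
      have h3 : 0 ≤ y ^ 6 * Real.log n := by positivity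
      nlinarith
    have h7 : C * (1 + Real.log ((K : ℝ) + 1)) *
        (n / ((K : ℝ) + 1) + ((K : ℝ) + 1) ^ 6 * (1 + Real.log n)) ≤
        C * (1 + Real.log n) * (3 * y ^ 6 * (1 + Real.log n)) := by
      refine mul_le_mul ?_ h6 (by positivity) (by positivity)
      exact mul_le_mul_of_nonneg_left (by linarith) hC0
    have h8 : 2 * β ^ 2 * (n / ((K : ℝ) + 1)) ≤ 4 * β ^ 2 * (y ^ 6 * (1 + Real.log n) ^ 2) := by
      have h1 : 2 * β ^ 2 * (n / ((K : ℝ) + 1)) ≤ 2 * β ^ 2 * (2 * y ^ 6) :=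
        mul_le_mul_of_nonneg_left hnL (by positivity)
      have h3 : 4 * β ^ 2 * (y ^ 6 * 1) ≤ 4 * β ^ 2 * (y ^ 6 * (1 + Real.log n) ^ 2) :=
        mul_le_mul_of_nonneg_left (mul_le_mul_of_nonneg_left hl2 (by positivity)) (by positivity)
      linarith
    have h9 : 0 ≤ (1 + C') * (y ^ 6 * (1 + Real.log n) ^ 2) := by positivity
    have e : (1 + (4 * β ^ 2 + 3 * C) + C') * y ^ 6 * (1 + Real.log n) ^ 2 =
      4 * β ^ 2 * (y ^ 6 * (1 + Real.log n) ^ 2) +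
        C * (1 + Real.log n) * (3 * y ^ 6 * (1 + Real.log n)) +
        (1 + C') * (y ^ 6 * (1 + Real.log n) ^ 2) := by ring
    rw [e]
    have e2 : (n : ℝ) * pv β = n * (Real.log 2 + sInf (vals β)) := rfl
    rw [e2]
    linarith

end Vale.Agent.P146.Sx
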