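import Vale.Agent.P146.Rt.RtLtA
import Vale.Agent.P146.Rt.RtMom

/-!
# P146, Rt: the lower tail of the free energy
-/

open MeasureTheory ProbabilityTheory Filter Topology

namespace Vale.Agent.P146.Sx

/-- `P(F_n ≤ E F_n - t) ≤ exp (-a t² / n^(19/20))` -/
theorem rt_low_dev {β : ℝ} (hβ : 1 ≤ β) : ∃ a : ℝ, 0 < a ∧ ∀ n : ℕ, 1 ≤ n → ∀ t : ℝ, 0 ≤ t →
    (disorder n).real {g | freeEnergy n β g ≤ ∫ g, freeEnergy n β g ∂(disorder n) - t} ≤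
      Real.exp (-(a * t ^ 2 / (n : ℝ) ^ (19 / 20 : ℝ))) :=
  rt_low_dev_of hβ (rt_var hβ)

end Vale.Agent.P146.Sx
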