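import Vale.Agent.P146.Lt.LtSK

/-!
# P146, Rt: the lower tail of the free energy from a bound of the variance
-/

open MeasureTheory ProbabilityTheory Filter Topology

namespace Vale.Agent.P146.Sx

/-- `Var F_n ≤ C n^(8/9)` gives `P(F_n ≤ E F_n - t) ≤ exp (-a t² / n^(19/20))` -/
theorem rt_low_dev_of {β : ℝ} (hβ : 1 ≤ β)
    (hvar : ∃ C : ℝ, 1 ≤ C ∧ ∀ n : ℕ, 1 ≤ n →
      Var[freeEnergy n β; disorder n] ≤ C * (n : ℝ) ^ (8 / 9 : ℝ)) :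
    ∃ a : ℝ, 0 < a ∧ ∀ n : ℕ, 1 ≤ n → ∀ t : ℝ, 0 ≤ t →
    (disorder n).real {g | freeEnergy n β g ≤ ∫ g, freeEnergy n β g ∂(disorder n) - t} ≤
      Real.exp (-(a * t ^ 2 / (n : ℝ) ^ (19 / 20 : ℝ))) := by
  obtain ⟨C, hC1, hC⟩ := hvar
  have hβ0 : 0 < β := by linarith
  have hC0 : 0 < C := by linarith
  set D : ℝ := √(C * β ^ 2 / 2) with hD
  have hDpos : 0 < D := Real.sqrt_pos.2 (by positivity)
  refine ⟨1 / (8 * D), by positivity, fun n hn t ht => ?_⟩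
  have hn1 : (1 : ℝ) ≤ n := by exact_mod_cast hn
  have hn0 : (0 : ℝ) < n := by linarith
  have hVpos : 0 < C * (n : ℝ) ^ (8 / 9 : ℝ) := by positivity
  have h := Vale.Agent.P146.Lt.sk_low hβ0 hn hVpos (hC n hn) ht
  refine h.trans (Real.exp_le_exp.2 (neg_le_neg ?_))
  have hsq : √(C * (n : ℝ) ^ (8 / 9 : ℝ) * (β ^ 2 * n / 2)) ≤ D * (n : ℝ) ^ (19 / 20 : ℝ) := by
    have e1 : (n : ℝ) ^ (8 / 9 : ℝ) * n ≤ ((n : ℝ) ^ (19 / 20 : ℝ)) ^ 2 := by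
      rw [← Real.rpow_natCast, ← Real.rpow_mul hn0.le, ← Real.rpow_add_one hn0.ne']
      exact Real.rpow_le_rpow_of_exponent_le hn1 (by norm_num)
    have e2 : C * (n : ℝ) ^ (8 / 9 : ℝ) * (β ^ 2 * n / 2) ≤ (D * (n : ℝ) ^ (19 / 20 : ℝ)) ^ 2 := by
      have e3 : D ^ 2 = C * β ^ 2 / 2 := Real.sq_sqrt (by positivity)
      rw [mul_pow, e3]
      calc _ = C * β ^ 2 / 2 * ((n : ℝ) ^ (8 / 9 : ℝ) * n) := by ring
        _ ≤ _ := by gcongr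
    calc _ ≤ √((D * (n : ℝ) ^ (19 / 20 : ℝ)) ^ 2) := Real.sqrt_le_sqrt e2
      _ = _ := Real.sqrt_sq (by positivity)
  have hspos : 0 < √(C * (n : ℝ) ^ (8 / 9 : ℝ) * (β ^ 2 * n / 2)) :=
    Real.sqrt_pos.2 (by positivity)
  calc 1 / (8 * D) * t ^ 2 / (n : ℝ) ^ (19 / 20 : ℝ)
      = t ^ 2 / (8 * (D * (n : ℝ) ^ (19 / 20 : ℝ))) := by field_simp
    _ ≤ _ := by gcongr

end Vale.Agent.P146.Sx
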