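import Vale.Agent.P146.Sx.Fin5

/-!
# P146, Rt: exponential moments and variance from the rate of the lower bound
-/

open MeasureTheory ProbabilityTheory Filter Topology

namespace Vale.Agent.P146.Sx

open Vale.Agent.P157.Par (Path Exponents)
open Vale.Agent.P146.Sk (PSK)
open Vale.Agent.P146.Ub

theorem one_add_log_le {n : ℕ} (hn : 1 ≤ n) {e : ℝ} (he : 0 < e) :
    1 + Real.log n ≤ (1 + 1 / e) * (n : ℝ) ^ e := by
  have hn1 : (1 : ℝ) ≤ n := by exact_mod_cast hn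
  have h1 := Real.log_le_rpow_div (by linarith : (0 : ℝ) ≤ n) he
  have h2 : 1 ≤ (n : ℝ) ^ e := Real.one_le_rpow hn1 he.le
  have e1 : (1 + 1 / e) * (n : ℝ) ^ e = (n : ℝ) ^ e + (n : ℝ) ^ e / e := by ring
  rw [e1]
  linarith

theorem rt_moment_of {β : ℝ} (hβ : 1 ≤ β) (hlow : ∃ C : ℝ, 1 ≤ C ∧ ∀ n : ℕ, 1 ≤ n →
    n * pv β ≤ ∫ g, freeEnergy n β g ∂(disorder n) +
      C * (n : ℝ) ^ (6 / 7 : ℝ) * (1 + Real.log n) ^ 2) : ∃ C : ℝ, 1 ≤ C ∧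
    (∀ n : ℕ, 1 ≤ n → ∀ x : ℝ, 0 < x → x ≤ 1 →
      Real.log (∫ g, Real.exp (x * freeEnergy n β g) ∂(disorder n)) ≤
        x * (n * pv β) + C * n * x ^ 6) ∧
    (∀ n : ℕ, 1 ≤ n → ∫ g, freeEnergy n β g ∂(disorder n) ≤ n * pv β) ∧
    (∀ n : ℕ, 1 ≤ n → n * pv β ≤ ∫ g, freeEnergy n β g ∂(disorder n) +
      C * (n : ℝ) ^ (7 / 8 : ℝ)) := by
  obtain ⟨C₁, hC₁, h1, h2, -⟩ := moment hβ
  obtain ⟨C₂, hC₂, h3⟩ := hlow
  refine ⟨max C₁ (C₂ * 113 ^ 2), hC₁.trans (le_max_left _ _), fun n hn x hx hx1 => ?_, h2,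
    fun n hn => ?_⟩
  · refine (h1 n hn x hx hx1).trans ?_
    have hn0 : (0 : ℝ) ≤ n := Nat.cast_nonneg n
    have : C₁ * n * x ^ 6 ≤ max C₁ (C₂ * 113 ^ 2) * n * x ^ 6 := by
      gcongr
      exact le_max_left _ _
    linarith
  · have hn1 : (1 : ℝ) ≤ n := by exact_mod_cast hn
    have hn0 : (0 : ℝ) < n := by linarith
    refine (h3 n hn).trans ?_
    have hl0 : 0 ≤ Real.log n := Real.log_nonneg hn1
    have h4 : 1 + Real.log n ≤ 113 * (n : ℝ) ^ (1 / 112 : ℝ) := by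
      have := one_add_log_le hn (e := 1 / 112) (by norm_num)
      refine this.trans (le_of_eq ?_)
      norm_num
    have h5 : (1 + Real.log n) ^ 2 ≤ 113 ^ 2 * (n : ℝ) ^ (1 / 56 : ℝ) := by
      refine (pow_le_pow_left₀ (by linarith) h4 2).trans (le_of_eq ?_)
      rw [mul_pow, ← Real.rpow_natCast ((n : ℝ) ^ (1 / 112 : ℝ)), ← Real.rpow_mul hn0.le]
      norm_num
    have h6 : (n : ℝ) ^ (6 / 7 : ℝ) * (n : ℝ) ^ (1 / 56 : ℝ) = (n : ℝ) ^ (7 / 8 : ℝ) := by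
      rw [← Real.rpow_add hn0]
      norm_num
    have h7 : C₂ * (n : ℝ) ^ (6 / 7 : ℝ) * (1 + Real.log n) ^ 2 ≤
        C₂ * 113 ^ 2 * (n : ℝ) ^ (7 / 8 : ℝ) := by
      have h8 : 0 ≤ C₂ * (n : ℝ) ^ (6 / 7 : ℝ) := by positivity
      refine (mul_le_mul_of_nonneg_left h5 h8).trans (le_of_eq ?_)
      rw [← h6]
      ring
    have h9 : C₂ * 113 ^ 2 * (n : ℝ) ^ (7 / 8 : ℝ) ≤
        max C₁ (C₂ * 113 ^ 2) * (n : ℝ) ^ (7 / 8 : ℝ) :=
      mul_le_mul_of_nonneg_right (le_max_right _ _) (by positivity)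
    linarith

theorem rt_var_of {β : ℝ} (hβ : 1 ≤ β) (hlow : ∃ C : ℝ, 1 ≤ C ∧ ∀ n : ℕ, 1 ≤ n →
    n * pv β ≤ ∫ g, freeEnergy n β g ∂(disorder n) +
      C * (n : ℝ) ^ (6 / 7 : ℝ) * (1 + Real.log n) ^ 2) : ∃ C : ℝ, 1 ≤ C ∧ ∀ n : ℕ, 1 ≤ n →
    Var[freeEnergy n β; disorder n] ≤ C * (n : ℝ) ^ (8 / 9 : ℝ) := by
  obtain ⟨C₁, hC₁, hmom, -, -⟩ := moment hβ
  obtain ⟨C₂, hC₂, hlo⟩ := hlow
  set C : ℝ := max C₁ C₂ with hC
  have hC0 : 1 ≤ C := hC₁.trans (le_max_left _ _)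
  refine ⟨(4 * C + β ^ 2) * 946 ^ 3, ?_, fun n hn => ?_⟩
  · have : 0 ≤ β ^ 2 := sq_nonneg β
    nlinarith
  have hn1 : (1 : ℝ) ≤ n := by exact_mod_cast hn
  have hn0 : (0 : ℝ) < n := by linarith
  have hl0 : 0 ≤ Real.log n := Real.log_nonneg hn1
  set L : ℝ := 1 + Real.log n with hL
  have hL1 : 1 ≤ L := by linarith
  have hLsq : 1 ≤ L ^ 2 := one_le_pow₀ hL1
  set y : ℝ := (n : ℝ) ^ (1 / 35 : ℝ) with hy
  have hy1 : 1 ≤ y := Real.one_le_rpow hn1 (by norm_num)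
  have hy0 : 0 < y := by linarith
  set Y : ℝ := (n : ℝ) ^ (31 / 35 : ℝ) with hY
  have hY1 : 1 ≤ Y := Real.one_le_rpow hn1 (by norm_num)
  have hYy : Y * y ^ 4 = n := by
    rw [hY, hy, ← Real.rpow_natCast, ← Real.rpow_mul hn0.le, ← Real.rpow_add hn0]
    norm_num
  have hy2 : (n : ℝ) ^ (6 / 7 : ℝ) = Y / y := by
    rw [hY, hy, ← Real.rpow_sub hn0]
    norm_num
  set x : ℝ := 1 / y with hx
  have hx0 : 0 < x := by positivity
  have hx1 : x ≤ 1 := by rw [hx, div_le_one hy0]; exact hy1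
  have hexp : ∫ g, Real.exp (x * freeEnergy n β g) ∂(disorder n) ≤
      Real.exp (x * (∫ g, freeEnergy n β g ∂(disorder n)) + x ^ 2 * (4 * C * Y * L ^ 2) / 2) := by
    rcases le_or_gt (∫ g, Real.exp (x * freeEnergy n β g) ∂(disorder n)) 0 with h0 | h0
    · exact h0.trans (Real.exp_pos _).le
    rw [← Real.log_le_iff_le_exp h0]
    refine (hmom n hn x hx0 hx1).trans ?_
    have h1 := mul_le_mul_of_nonneg_left (hlo n hn) hx0.le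
    have h2 : x * (C₂ * (n : ℝ) ^ (6 / 7 : ℝ) * L ^ 2) = x ^ 2 * (C₂ * Y * L ^ 2) := by
      rw [hy2, hx]; field_simp
    have h3 : C₁ * n * x ^ 6 = x ^ 2 * (C₁ * Y) := by
      rw [← hYy, hx]; field_simp
    rw [mul_add, h2] at h1
    rw [h3]
    have h4 : x ^ 2 * (C₂ * Y * L ^ 2) ≤ x ^ 2 * (C * Y * L ^ 2) := by
      gcongr
      exact le_max_right _ _
    have h5 : x ^ 2 * (C₁ * Y) ≤ x ^ 2 * (C * Y * L ^ 2) := by
      have h6 : C₁ * Y ≤ C * Y := mul_le_mul_of_nonneg_right (le_max_left _ _) (by linarith)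
      have h7 : C * Y * 1 ≤ C * Y * L ^ 2 := mul_le_mul_of_nonneg_left hLsq (by positivity)
      exact mul_le_mul_of_nonneg_left (by linarith) (by positivity)
    linarith
  have hV := (Cv.var_freeEnergy_le n β hx0 hexp (u := 1 / n) (by positivity)
    (by rw [div_le_one hn0]; exact hn1)).2
  refine hV.trans ?_
  have h1 : β ^ 2 * n / 2 * (1 / n) = β ^ 2 / 2 := by field_simp
  have h2 : -Real.log (1 / (n : ℝ)) = Real.log n := by rw [one_div, Real.log_inv, neg_neg]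
  rw [h1, h2]
  have hb : 0 ≤ β ^ 2 := sq_nonneg β
  have hL3 : L ^ 3 ≤ 946 ^ 3 * (n : ℝ) ^ (1 / 315 : ℝ) := by
    have h4 : L ≤ 946 * (n : ℝ) ^ (1 / 945 : ℝ) := by
      have := one_add_log_le hn (e := 1 / 945) (by norm_num)
      refine this.trans (le_of_eq ?_)
      norm_num
    refine (pow_le_pow_left₀ (by linarith) h4 3).trans (le_of_eq ?_)
    rw [mul_pow, ← Real.rpow_natCast ((n : ℝ) ^ (1 / 945 : ℝ)), ← Real.rpow_mul hn0.le]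
    norm_num
  have hYL : Y * L ^ 3 ≤ 946 ^ 3 * (n : ℝ) ^ (8 / 9 : ℝ) := by
    have h6 : Y * (n : ℝ) ^ (1 / 315 : ℝ) = (n : ℝ) ^ (8 / 9 : ℝ) := by
      rw [hY, ← Real.rpow_add hn0]
      norm_num
    rw [← h6]
    refine (mul_le_mul_of_nonneg_left hL3 (by linarith : (0 : ℝ) ≤ Y)).trans (le_of_eq ?_)
    ring
  have hYL1 : 1 ≤ Y * L ^ 3 := by
    have := one_le_pow₀ hL1 (n := 3)
    nlinarith
  have h3 : 4 * C * Y * L ^ 2 * Real.log n ≤ 4 * C * (Y * L ^ 3) := by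
    have h4 : Real.log n ≤ L := by linarith
    have h5 : 4 * C * Y * L ^ 2 * Real.log n ≤ 4 * C * Y * L ^ 2 * L :=
      mul_le_mul_of_nonneg_left h4 (by positivity)
    refine h5.trans (le_of_eq ?_)
    ring
  have h4 : β ^ 2 / 2 ≤ β ^ 2 * (Y * L ^ 3) := by nlinarith
  have h5 : (4 * C + β ^ 2) * (Y * L ^ 3) ≤ (4 * C + β ^ 2) * (946 ^ 3 * (n : ℝ) ^ (8 / 9 : ℝ)) :=
    mul_le_mul_of_nonneg_left hYL (by positivity)
  calc β ^ 2 / 2 + 4 * C * Y * L ^ 2 * Real.log n ≤ (4 * C + β ^ 2) * (Y * L ^ 3) := by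
        linarith
    _ ≤ (4 * C + β ^ 2) * (946 ^ 3 * (n : ℝ) ^ (8 / 9 : ℝ)) := h5
    _ = (4 * C + β ^ 2) * 946 ^ 3 * (n : ℝ) ^ (8 / 9 : ℝ) := by ring

end Vale.Agent.P146.Sx
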