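import Vale.Agent.P146.Rt.RtAvg

/-!
# P146, Rt: the rate of the lower bound, from the step
-/

open MeasureTheory ProbabilityTheory Filter Topology

namespace Vale.Agent.P146.Ub.Ld

set_option linter.unusedSectionVars false

open Vale.Agent.P157 Vale.Agent.P157.Lv Vale.Agent.P157.Lv.Sy Vale.Agent.P157.Lv.Fld
open Vale.Agent.P157.Par (Path Exponents incr spinPart)
open Vale.Agent.P146 (Pair freeEnergy disorder)
open Vale.Agent.P146.Sk (PSK)

/-- The statement of `gstep`. -/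
def GStep (K d : ℕ) (β : ℝ) : Prop :=
  ∀ (n N : ℕ) (s : ℕ → ℝ) (hN : N + 1 ≤ n), 0 < N → ∀ σ : ℝ, 0 < σ →
    (∀ l, d ≤ l → l ≤ K → σ ≤ s l) → (∀ l, l < d → s l = 0) → ∀ t : ℝ, 0 < t →
    PSK β K (me K) (ct d (stR (SN n K d (me K) β N s) (ph (Nat.le_of_succ_le hN)))) ≤
      AN n K d (me K) β (N + 1) s - AN n K d (me K) β N s + β ^ 2 / (N + 1 : ℕ) +
        β ^ 2 * gT K σ (ges n K d (me K) β N s t)

/-- The strengths of the grid are in `[1 / (2 (K+1)), 1 / (K+1)]`. -/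
theorem grate_gp_le {K : ℕ} (k : Fin (K + 1) → Fin ((K + 1) ^ 2)) {j : ℕ} (hj : j ≤ K) :
    1 / (2 * ((K : ℝ) + 1)) ≤ gp (1 / (2 * ((K : ℝ) + 1))) (1 / (2 * ((K : ℝ) + 1) ^ 3)) k j ∧
    gp (1 / (2 * ((K : ℝ) + 1))) (1 / (2 * ((K : ℝ) + 1) ^ 3)) k j ≤ 1 / ((K : ℝ) + 1) := by
  have h := gp_mem (σ := 1 / (2 * ((K : ℝ) + 1))) (t := 1 / (2 * ((K : ℝ) + 1) ^ 3))
    (by positivity) k hj
  refine ⟨h.1, h.2.trans (le_of_eq ?_)⟩
  push_cast
  field_simp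
  ring

/-- The averaged step. -/
theorem grate_step {n K N d : ℕ} {β Lb : ℝ} (hG : GStep K d β) (hd : d ≤ K)
    (hLb : ∀ q : ℕ → ℝ, Path K q → q K ≤ 1 → (∀ l < d, q l = 0) → Lb ≤ PSK β K (me K) q)
    (hN : N + 1 ≤ n) (h0 : 0 < N) :
    Lb ≤ rAv (fun k : Fin (K + 1) → Fin ((K + 1) ^ 2) =>
      AN n K d (me K) β (N + 1)
          (ct d (gp (1 / (2 * ((K : ℝ) + 1))) (1 / (2 * ((K : ℝ) + 1) ^ 3)) k)) -
        AN n K d (me K) β N
          (ct d (gp (1 / (2 * ((K : ℝ) + 1))) (1 / (2 * ((K : ℝ) + 1) ^ 3)) k))) +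
      β ^ 2 * (1 / N) + β ^ 2 * ((1 + Real.log ((K : ℝ) + 1)) *
        (70 / ((K : ℝ) + 1) + 64 * (3 * β ^ 2 + 1) * ((K : ℝ) + 1) ^ 6 * (1 / N))) := by
  have hav := gavg (n := n) (K := K) (N := N) (d := d) (β := β) hd (Nat.le_of_succ_le hN) h0
  have hgp := fun (k : Fin (K + 1) → Fin ((K + 1) ^ 2)) => fun {j : ℕ} (hj : j ≤ K) =>
    grate_gp_le k hj
  obtain ⟨l, hl⟩ : ∃ l : ℝ, l = (K : ℝ) + 1 := ⟨_, rfl⟩
  have hl1 : 1 ≤ l := by rw [hl]; linarith [Nat.cast_nonneg (α := ℝ) K]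
  have hl0 : 0 < l := by linarith
  rw [← hl] at hav hgp ⊢
  have hN0 : (0 : ℝ) < N := by exact_mod_cast h0
  obtain ⟨t, ht⟩ : ∃ t : ℝ, t = 1 / (2 * l ^ 3) := ⟨_, rfl⟩
  have ht0 : 0 < t := by rw [ht]; positivity
  rw [← ht] at hav hgp ⊢
  obtain ⟨σ, hσ⟩ : ∃ σ : ℝ, σ = 1 / (2 * l) := ⟨_, rfl⟩
  have hσ0 : 0 < σ := by rw [hσ]; positivity
  rw [← hσ] at hav hgp ⊢
  have hne : Nonempty (Fin (K + 1) → Fin ((K + 1) ^ 2)) :=
    ⟨fun _ => ⟨0, by positivity⟩⟩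
  obtain ⟨X, hX⟩ : ∃ X : (Fin (K + 1) → Fin ((K + 1) ^ 2)) → ℝ,
      X = fun k => ges n K d (me K) β N (ct d (gp σ t k)) t := ⟨_, rfl⟩
  obtain ⟨D, hD⟩ : ∃ D : (Fin (K + 1) → Fin ((K + 1) ^ 2)) → ℝ,
      D = fun k => AN n K d (me K) β (N + 1) (ct d (gp σ t k)) -
        AN n K d (me K) β N (ct d (gp σ t k)) := ⟨_, rfl⟩
  rw [← hX] at hav
  rw [← hD]
  have hlog0 : 0 ≤ Real.log l := Real.log_nonneg hl1
  obtain ⟨w, hw⟩ : ∃ w : ℝ, w = √(1 + Real.log l) := ⟨_, rfl⟩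
  have hw1 : w ≤ 1 + Real.log l := by
    rw [hw]
    refine Real.sqrt_le_iff.2 ⟨by linarith, ?_⟩
    nlinarith
  have hw0 : 0 ≤ w := by rw [hw]; exact Real.sqrt_nonneg _
  -- the step at each point of the grid
  have hstep : ∀ k, Lb ≤ D k + (β ^ 2 * (1 / N) + β ^ 2 * ((2 * w + 4) / l)) +
      (β ^ 2 * (32 * l * w)) * X k := by
    intro k
    have hs0 : ∀ j ≤ K, 0 ≤ ct d (gp σ t k) j := by
      intro j hj
      unfold ct
      split_ifs
      · exact le_rfl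
      · exact hσ0.le.trans (hgp k hj).1
    have h1 := hG n N (ct d (gp σ t k)) hN h0 σ hσ0
      (fun j hdj hj => by rw [ct_ge hdj]; exact (hgp k hj).1)
      (fun j hj => ct_lt hj _) t ht0
    have hF := SN_fld (n := n) (K := K) (m := me K) (N := N) (β := β) (s := ct d (gp σ t k)) hd
      (Nat.le_of_succ_le hN) h0 (me_exp K) hs0
    have hlast : stR (SN n K d (me K) β N (ct d (gp σ t k))) (ph (Nat.le_of_succ_le hN)) K = 1 :=
      stR_last (SN n K d (me K) β N (ct d (gp σ t k))) (ph (Nat.le_of_succ_le hN))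
    have h2 := hLb (ct d (stR (SN n K d (me K) β N (ct d (gp σ t k))) (ph (Nat.le_of_succ_le hN))))
      (ct_path (st_path hF)) (by rw [ct_ge hd, hlast]) (fun l hl => ct_lt hl _)
    have h3 := h2.trans h1
    have e1 : gT K σ (X k) = (2 * w + 4) / l + 32 * l * w * X k := by
      unfold gT
      rw [← hl, ← hw, hσ]
      field_simp
      ring
    have hXk : ges n K d (me K) β N (ct d (gp σ t k)) t = X k := by rw [hX]
    rw [hXk, e1] at h3
    have h7 : 1 / ((N + 1 : ℕ) : ℝ) ≤ 1 / N := by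
      apply one_div_le_one_div_of_le hN0
      push_cast
      linarith
    have hb := sq_nonneg β
    have h8 : β ^ 2 / ((N + 1 : ℕ) : ℝ) ≤ β ^ 2 * (1 / N) := by
      rw [← mul_one_div]
      exact mul_le_mul_of_nonneg_left h7 hb
    have hDk : D k = AN n K d (me K) β (N + 1) (ct d (gp σ t k)) -
        AN n K d (me K) β N (ct d (gp σ t k)) := by rw [hD]
    rw [hDk]
    linarith
  have h1 := rAv_mono hstep
  rw [rAv_const, rAv_add, rAv_add, rAv_const, rAv_mul] at h1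
  have hb := sq_nonneg β
  have h2 : β ^ 2 * (32 * l * w) * rAv X ≤
      β ^ 2 * (32 * l * w) * (2 / l ^ 2 + 2 * (3 * β ^ 2 + 1) * l ^ 5 / N) :=
    mul_le_mul_of_nonneg_left hav (by positivity)
  have e2 : β ^ 2 * (32 * l * w) * (2 / l ^ 2 + 2 * (3 * β ^ 2 + 1) * l ^ 5 / N) =
      β ^ 2 * (w * (64 / l + 64 * (3 * β ^ 2 + 1) * l ^ 6 * (1 / N))) := by
    field_simp
    ring
  rw [e2] at h2
  have h3 : β ^ 2 * ((2 * w + 4) / l) + β ^ 2 * (w * (64 / l + 64 * (3 * β ^ 2 + 1) * l ^ 6 * (1 / N)))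
      ≤ β ^ 2 * ((1 + Real.log l) * (70 / l + 64 * (3 * β ^ 2 + 1) * l ^ 6 * (1 / N))) := by
    rw [← mul_add]
    refine mul_le_mul_of_nonneg_left ?_ hb
    obtain ⟨Y, hY⟩ : ∃ Y : ℝ, Y = 64 * (3 * β ^ 2 + 1) * l ^ 6 * (1 / N) := ⟨_, rfl⟩
    have hY0 : 0 ≤ Y := by rw [hY]; positivity
    rw [← hY]
    have hi : 0 < 1 / l := by positivity
    have e3 : (2 * w + 4) / l + w * (64 / l + Y) = (66 * w + 4) * (1 / l) + w * Y := by
      field_simp; ring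
    have e4 : (1 + Real.log l) * (70 / l + Y) =
        (70 * (1 + Real.log l)) * (1 / l) + (1 + Real.log l) * Y := by
      field_simp
    rw [e3, e4]
    refine add_le_add (mul_le_mul_of_nonneg_right (by linarith) hi.le)
      (mul_le_mul_of_nonneg_right hw1 hY0)
  linarith

theorem sum_one_div_le (n : ℕ) :
    ∑ N ∈ Finset.Ico 1 n, (1 / (N : ℝ)) ≤ 1 + Real.log n := by
  have h := harmonic_le_one_add_log n
  have h1 : ∑ N ∈ Finset.Ico 1 n, (1 / (N : ℝ)) ≤ (harmonic n : ℝ) := by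
    rw [harmonic_eq_sum_Icc]
    push_cast
    have : Finset.Ico 1 n ⊆ Finset.Icc 1 n := Finset.Ico_subset_Icc_self
    refine (Finset.sum_le_sum_of_subset_of_nonneg this fun i _ _ => by positivity).trans
      (le_of_eq (Finset.sum_congr rfl fun i _ => one_div _))
  exact h1.trans h

/-- **The rate**, from the step. -/
theorem grate_of {β : ℝ} (hG : ∀ K d : ℕ, 1 ≤ d → d ≤ K → GStep K d β) : ∃ C : ℝ, 0 ≤ C ∧ ∀ (K d : ℕ) (Lb : ℝ),
    1 ≤ d → d ≤ K →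
    (∀ q : ℕ → ℝ, Path K q → q K ≤ 1 → (∀ l < d, q l = 0) → Lb ≤ PSK β K (me K) q) →
    ∀ n : ℕ, 1 ≤ n →
      n * (Real.log 2 + Lb) ≤
        1 / me K d * Real.log (∫ g, Real.exp (me K d * freeEnergy n β g) ∂(disorder n)) +
          C * (1 + Real.log ((K : ℝ) + 1)) *
            (n / ((K : ℝ) + 1) + ((K : ℝ) + 1) ^ 6 * (1 + Real.log n)) := by
  refine ⟨1 / 2 + β ^ 2 / 4 + β ^ 2 + β ^ 2 * (70 + 64 * (3 * β ^ 2 + 1)), by positivity, ?_⟩
  intro K d Lb hd1 hd hLb n hn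
  obtain ⟨E, hE⟩ : ∃ E : ℝ, E = 1 / me K d *
    Real.log (∫ g, Real.exp (me K d * freeEnergy n β g) ∂(disorder n)) := ⟨_, rfl⟩
  rw [← hE]
  have hn0 : 0 < n := hn
  have hnpos : (0 : ℝ) < n := by exact_mod_cast hn0
  have hn1 : (1 : ℝ) ≤ n := by exact_mod_cast hn
  obtain ⟨S, hS⟩ : ∃ S : (Fin (K + 1) → Fin ((K + 1) ^ 2)) → ℕ → ℝ,
      S = fun k => ct d (gp (1 / (2 * ((K : ℝ) + 1))) (1 / (2 * ((K : ℝ) + 1) ^ 3)) k) :=
    ⟨_, rfl⟩
  have hstep := fun N (hN : N ∈ Finset.Ico 1 n) =>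
    grate_step (n := n) (K := K) (N := N) (hG K d hd1 hd) hd hLb (Finset.mem_Ico.1 hN).2
      (Finset.mem_Ico.1 hN).1
  have hSle : ∀ k, ∀ j ≤ K, 0 ≤ S k j ∧ S k j ≤ 1 / ((K : ℝ) + 1) := by
    intro k j hj
    rw [hS]
    simp only
    unfold ct
    split_ifs
    · exact ⟨le_rfl, by positivity⟩
    · have h6 := grate_gp_le k hj
      exact ⟨le_trans (by positivity) h6.1, h6.2⟩
  obtain ⟨l, hl⟩ : ∃ l : ℝ, l = (K : ℝ) + 1 := ⟨_, rfl⟩
  have hl1 : 1 ≤ l := by rw [hl]; linarith [Nat.cast_nonneg (α := ℝ) K]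
  have hl0 : 0 < l := by linarith
  rw [← hl] at hstep hSle ⊢
  rw [← hl] at hS
  have hne : Nonempty (Fin (K + 1) → Fin ((K + 1) ^ 2)) :=
    ⟨fun _ => ⟨0, by positivity⟩⟩
  have hlog0 : 0 ≤ Real.log l := Real.log_nonneg hl1
  have hlogn : 0 ≤ Real.log n := Real.log_nonneg hn1
  -- the sum over the stages
  have hsum : ∑ N ∈ Finset.Ico 1 n, Lb ≤
      ∑ N ∈ Finset.Ico 1 n, ((rAv (fun k => AN n K d (me K) β (N + 1) (S k)) -
        rAv (fun k => AN n K d (me K) β N (S k))) + (β ^ 2 * (1 / N) +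
          β ^ 2 * ((1 + Real.log l) * (70 / l + 64 * (3 * β ^ 2 + 1) * l ^ 6 * (1 / N))))) := by
    refine Finset.sum_le_sum fun N hN => ?_
    have h := hstep N hN
    rw [rAv_sub] at h
    rw [hS]
    linarith
  rw [Finset.sum_add_distrib, Finset.sum_Ico_sub (fun N => rAv (fun k => AN n K d (me K) β N (S k))) hn,
    Finset.sum_const, Nat.card_Ico, nsmul_eq_mul, Nat.cast_sub hn, Nat.cast_one,
    Finset.sum_add_distrib, ← Finset.mul_sum, ← Finset.mul_sum, ← Finset.mul_sum,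
    Finset.sum_add_distrib, ← Finset.mul_sum, Finset.sum_const, Nat.card_Ico, nsmul_eq_mul,
    Nat.cast_sub hn, Nat.cast_one] at hsum
  have hH := sum_one_div_le n
  obtain ⟨H, hHd⟩ : ∃ H : ℝ, H = ∑ N ∈ Finset.Ico 1 n, (1 / (N : ℝ)) := ⟨_, rfl⟩
  rw [← hHd] at hH hsum
  -- the ends
  have h0 : 0 ≤ rAv (fun k => AN n K d (me K) β 1 (S k)) := by
    have := rAv_mono (f := fun _ => (0 : ℝ)) (g := fun k => AN n K d (me K) β 1 (S k))
      fun k => rr_nonneg hd (me_exp K) β 1 (S k)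
    rw [rAv_const] at this
    exact this
  have h1 : rAv (fun k => AN n K d (me K) β n (S k)) ≤
      (E - n * Real.log 2) + n / 2 * (1 / l) := by
    have h2 : ∀ k, AN n K d (me K) β n (S k) ≤
        (E - n * Real.log 2) + n / 2 * (1 / l) := by
      intro k
      have h3 := rr_le (n := n) hd (me_exp K) β (S k)
      rw [AN_zero hd1 hd hn0 (me_exp K) β, ← hE] at h3
      have h4 : ∑ j ∈ Finset.range (K + 1), S k j ^ 2 ≤ 1 / l := by
        have h5 : ∀ j ∈ Finset.range (K + 1), S k j ^ 2 ≤ (1 / l) ^ 2 := by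
          intro j hj
          have h6 := hSle k j (Nat.le_of_lt_succ (Finset.mem_range.1 hj))
          exact pow_le_pow_left₀ h6.1 h6.2 2
        refine (Finset.sum_le_sum h5).trans (le_of_eq ?_)
        rw [Finset.sum_const, Finset.card_range, nsmul_eq_mul]
        push_cast
        rw [← hl]
        field_simp
      have h5 := mul_le_mul_of_nonneg_left h4 (by positivity : (0 : ℝ) ≤ n / 2)
      refine h3.trans ?_
      have e : (n : ℝ) * (∑ j ∈ Finset.range (K + 1), S k j ^ 2) / 2 =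
          n / 2 * ∑ j ∈ Finset.range (K + 1), S k j ^ 2 := by ring
      rw [e]
      linarith
    have h3 := rAv_mono h2
    rw [rAv_const] at h3
    exact h3
  -- conclusion
  have hLbu := rr_Lb hLb
  have hb := sq_nonneg β
  obtain ⟨a, ha⟩ : ∃ a : ℝ, a = 1 + Real.log l := ⟨_, rfl⟩
  obtain ⟨b, hbd⟩ : ∃ b : ℝ, b = 1 + Real.log n := ⟨_, rfl⟩
  have ha1 : 1 ≤ a := by linarith
  have hb1 : 1 ≤ b := by linarith
  rw [← ha] at hsum ⊢
  rw [← hbd] at hH ⊢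
  have hl6 : 1 ≤ l ^ 6 := one_le_pow₀ hl1
  have hH0 : 0 ≤ H := by
    rw [hHd]; exact Finset.sum_nonneg fun i _ => by positivity
  -- bounds of the errors
  have k1 : β ^ 2 * H ≤ β ^ 2 * (a * (n / l + l ^ 6 * b)) := by
    refine mul_le_mul_of_nonneg_left ?_ hb
    have : b ≤ l ^ 6 * b := by nlinarith
    have h3 : 0 ≤ n / l := by positivity
    have h4 : n / l + l ^ 6 * b ≤ a * (n / l + l ^ 6 * b) :=
      le_mul_of_one_le_left (by positivity) ha1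
    linarith
  have k2 : β ^ 2 * (a * (((n : ℝ) - 1) * (70 / l) + 64 * (3 * β ^ 2 + 1) * l ^ 6 * H)) ≤
      β ^ 2 * (70 + 64 * (3 * β ^ 2 + 1)) * (a * (n / l + l ^ 6 * b)) := by
    have h3 : ((n : ℝ) - 1) * (70 / l) ≤ 70 * (n / l) := by
      have : 0 ≤ 70 / l := by positivity
      have e : 70 * ((n : ℝ) / l) = n * (70 / l) := by ring
      rw [e]; nlinarith
    have h4 : 64 * (3 * β ^ 2 + 1) * l ^ 6 * H ≤ 64 * (3 * β ^ 2 + 1) * (l ^ 6 * b) := by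
      have := mul_le_mul_of_nonneg_left hH (by positivity : 0 ≤ 64 * (3 * β ^ 2 + 1) * l ^ 6)
      linarith
    have h5 : 0 ≤ n / l := by positivity
    have h6 : 0 ≤ l ^ 6 * b := by positivity
    have h7 : ((n : ℝ) - 1) * (70 / l) + 64 * (3 * β ^ 2 + 1) * l ^ 6 * H ≤
        (70 + 64 * (3 * β ^ 2 + 1)) * (n / l + l ^ 6 * b) := by
      have h8 : 0 ≤ 64 * (3 * β ^ 2 + 1) * (n / l) := by positivity
      have h9 : (70 + 64 * (3 * β ^ 2 + 1)) * (n / l + l ^ 6 * b) =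
        70 * (n / l) + 64 * (3 * β ^ 2 + 1) * (l ^ 6 * b) + 64 * (3 * β ^ 2 + 1) * (n / l) +
          70 * (l ^ 6 * b) := by ring
      rw [h9]
      linarith
    have h10 := mul_le_mul_of_nonneg_left h7 (by positivity : 0 ≤ β ^ 2 * a)
    have e1 : β ^ 2 * a * (((n : ℝ) - 1) * (70 / l) + 64 * (3 * β ^ 2 + 1) * l ^ 6 * H) =
      β ^ 2 * (a * (((n : ℝ) - 1) * (70 / l) + 64 * (3 * β ^ 2 + 1) * l ^ 6 * H)) := by ring
    have e2 : β ^ 2 * a * ((70 + 64 * (3 * β ^ 2 + 1)) * (n / l + l ^ 6 * b)) =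
      β ^ 2 * (70 + 64 * (3 * β ^ 2 + 1)) * (a * (n / l + l ^ 6 * b)) := by ring
    rw [e1, e2] at h10
    exact h10
  have k3 : (n : ℝ) / 2 * (1 / l) ≤ 1 / 2 * (a * (n / l + l ^ 6 * b)) := by
    have h3 : 0 ≤ n / l := by positivity
    have h4 : 0 ≤ l ^ 6 * b := by positivity
    have h5 : n / l + l ^ 6 * b ≤ a * (n / l + l ^ 6 * b) :=
      le_mul_of_one_le_left (by positivity) ha1
    have e : (n : ℝ) / 2 * (1 / l) = 1 / 2 * (n / l) := by ring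
    rw [e]
    linarith
  have k4 : β ^ 2 / 4 ≤ β ^ 2 / 4 * (a * (n / l + l ^ 6 * b)) := by
    have h3 : 0 ≤ n / l := by positivity
    have h4 : 1 ≤ l ^ 6 * b := one_le_mul_of_one_le_of_one_le hl6 hb1
    have h5 : 1 ≤ a * (n / l + l ^ 6 * b) :=
      one_le_mul_of_one_le_of_one_le ha1 (by linarith)
    exact le_mul_of_one_le_right (by positivity) h5
  have e : (1 / 2 + β ^ 2 / 4 + β ^ 2 + β ^ 2 * (70 + 64 * (3 * β ^ 2 + 1))) * a *
      (n / l + l ^ 6 * b) = 1 / 2 * (a * (n / l + l ^ 6 * b)) + β ^ 2 / 4 * (a * (n / l + l ^ 6 * b)) +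
        β ^ 2 * (a * (n / l + l ^ 6 * b)) +
        β ^ 2 * (70 + 64 * (3 * β ^ 2 + 1)) * (a * (n / l + l ^ 6 * b)) := by ring
  rw [e]
  linarith

end Vale.Agent.P146.Ub.Ld
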