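import Vale.Agent.P146.Sh.ShFin
import Vale.Agent.P146.Sh.ShLdpU0

/-!
# P146, Rt: the sharp constants with the better rate: everything except the rate itself
-/

open MeasureTheory ProbabilityTheory Filter Topology Set

namespace Vale.Agent.P146.Sh

open Vale.Agent.P157.Par
open Vale.Agent.P146.Gap
open Vale.Agent.P146.Pw2
open Vale.Agent.P146.Lb
open Vale.Agent.P367.Cl

/-- a point of the grid just below `x` -/
theorem rtsh_pt {z x : ℝ} (hz : 2 ≤ z) (hx : 1 / z ^ 7 ≤ x) (hx2 : x ≤ 1 / 2) :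
    ∃ K d : ℕ, 1 ≤ d ∧ d ≤ K ∧ ((K : ℝ) + 1) ≤ z ^ 36 ∧ z ^ 36 / 2 ≤ (K : ℝ) + 1 ∧
      x * (1 - 2 / z) ≤ gm K d ∧ gm K d ≤ x := by
  have hz0 : 0 < z := by linarith
  have hz1 : 1 ≤ z := by linarith
  have hx0 : 0 < x := lt_of_lt_of_le (by positivity) hx
  obtain ⟨k, hk⟩ : ∃ k : ℕ, k = ⌊z ^ 36⌋₊ := ⟨_, rfl⟩
  have hZ2 : 2 ≤ z ^ 36 := hz.trans (le_self_pow₀ hz1 (by norm_num))
  have hk1 : (k : ℝ) ≤ z ^ 36 := by rw [hk]; exact Nat.floor_le (by positivity)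
  have hk2 : z ^ 36 / 2 ≤ k := by
    have := Nat.lt_floor_add_one (z ^ 36)
    rw [← hk] at this
    linarith
  have hk0 : 1 ≤ k := by
    have : (0 : ℝ) < k := by linarith
    exact_mod_cast this
  have hxk0 : z / 2 ≤ x * k := by
    have h1 : 1 / z ^ 7 * (z ^ 36 / 2) ≤ x * k :=
      mul_le_mul hx hk2 (by positivity) hx0.le
    have h2 : 1 / z ^ 7 * (z ^ 36 / 2) = z ^ 29 / 2 := by field_simp
    have h3 : z ≤ z ^ 29 := le_self_pow₀ hz1 (by norm_num)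
    rw [h2] at h1
    linarith
  have hxk : 1 ≤ x * k := by linarith
  obtain ⟨d, hd⟩ : ∃ d : ℕ, d = ⌊x * k⌋₊ := ⟨_, rfl⟩
  have hd1 : (d : ℝ) ≤ x * k := by rw [hd]; exact Nat.floor_le (by positivity)
  have hd0 : 1 ≤ d := by rw [hd]; exact Nat.le_floor (by exact_mod_cast hxk)
  have hd2 : x * k - 1 ≤ d := by
    have h1 := Nat.lt_floor_add_one (x * k)
    rw [← hd] at h1
    linarith
  have hk0' : (0 : ℝ) < k := by exact_mod_cast hk0
  have hdk : d < k := by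
    have : (d : ℝ) < k := by nlinarith
    exact_mod_cast this
  have hK : ((k - 1 : ℕ) : ℝ) + 1 = k := by
    rw [Nat.cast_sub hk0]; simp
  refine ⟨k - 1, d, hd0, by omega, by rw [hK]; exact hk1, by rw [hK]; exact hk2, ?_, ?_⟩
  · unfold gm
    rw [hK, le_div_iff₀ hk0']
    have h1 : 1 ≤ 2 / z * (x * k) := by
      have h2 : 2 / z * (z / 2) ≤ 2 / z * (x * k) :=
        mul_le_mul_of_nonneg_left hxk0 (by positivity)
      have h3 : 2 / z * (z / 2) = 1 := by field_simp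
      linarith
    have h2 : x * (1 - 2 / z) * k = x * k - 2 / z * (x * k) := by ring
    rw [h2]
    linarith
  · unfold gm
    rw [hK, div_le_iff₀ hk0']
    exact hd1

/-- the error of the rate is small -/
theorem rtsh_err {C ε w z x n k : ℝ} (hC : 0 ≤ C) (hε : 0 < ε) (hw1 : 1 ≤ w)
    (hwC : 12 * 1009 ^ 2 * C / ε ≤ w) (hz : z = w ^ 4) (hnz : n = z ^ 252)
    (hx : 1 / z ^ 7 ≤ x) (hk1 : k ≤ z ^ 36) (hk2 : z ^ 36 / 2 ≤ k) :
    C * (1 + Real.log k) * (n / k + k ^ 6 * (1 + Real.log n)) ≤ ε / 4 * x ^ 5 * n := by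
  have hw0 : 0 < w := by linarith
  have hz1 : 1 ≤ z := by rw [hz]; exact one_le_pow₀ hw1
  have hz0 : 0 < z := by linarith
  have hk0 : 0 < k := lt_of_lt_of_le (by positivity) hk2
  have hn1 : 1 ≤ n := by rw [hnz]; exact one_le_pow₀ hz1
  have hn0 : 0 < n := by linarith
  have hlog : 1 + Real.log n ≤ 1009 * w := by
    have h1 : Real.log n = 1008 * Real.log w := by
      rw [hnz, hz, Real.log_pow, Real.log_pow]
      push_cast
      ring
    have h2 := Real.log_le_sub_one_of_pos hw0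
    rw [h1]
    linarith
  have hlog0 : 0 ≤ Real.log n := Real.log_nonneg hn1
  have hlk : Real.log k ≤ Real.log n := by
    refine Real.log_le_log hk0 (hk1.trans ?_)
    rw [hnz]
    exact pow_le_pow_right₀ hz1 (show (36 : ℕ) ≤ 252 by norm_num)
  have h1 : n / k ≤ 2 * z ^ 216 := by
    rw [div_le_iff₀ hk0]
    have h2 : 2 * z ^ 216 * (z ^ 36 / 2) ≤ 2 * z ^ 216 * k :=
      mul_le_mul_of_nonneg_left hk2 (by positivity)
    have h3 : 2 * z ^ 216 * (z ^ 36 / 2) = n := by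
      have e : z ^ 252 = z ^ 216 * z ^ 36 := by rw [← pow_add]
      rw [hnz, e]
      ring
    linarith
  have h2 : k ^ 6 ≤ z ^ 216 := by
    have h3 := pow_le_pow_left₀ hk0.le hk1 6
    have h4 : (z ^ 36) ^ 6 = z ^ 216 := by rw [← pow_mul]
    rw [h4] at h3
    exact h3
  have hl1 : 0 ≤ 1 + Real.log n := add_nonneg zero_le_one hlog0
  have h3 : n / k + k ^ 6 * (1 + Real.log n) ≤ 3 * z ^ 216 * (1 + Real.log n) := by
    have h4 : k ^ 6 * (1 + Real.log n) ≤ z ^ 216 * (1 + Real.log n) :=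
      mul_le_mul_of_nonneg_right h2 hl1
    have h5 : 2 * z ^ 216 ≤ 2 * z ^ 216 * (1 + Real.log n) :=
      le_mul_of_one_le_right (by positivity) (le_add_of_nonneg_right hlog0)
    have e : 3 * z ^ 216 * (1 + Real.log n) =
        2 * z ^ 216 * (1 + Real.log n) + z ^ 216 * (1 + Real.log n) := by ring
    rw [e]
    exact add_le_add (h1.trans h5) h4
  have h4 : C * (1 + Real.log k) * (n / k + k ^ 6 * (1 + Real.log n)) ≤
      C * (1 + Real.log n) * (3 * z ^ 216 * (1 + Real.log n)) := by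
    have h5 : C * (1 + Real.log k) ≤ C * (1 + Real.log n) :=
      mul_le_mul_of_nonneg_left (add_le_add_right hlk 1) hC
    have h6 : 0 ≤ n / k + k ^ 6 * (1 + Real.log n) := by positivity
    exact mul_le_mul h5 h3 h6 (by positivity)
  have h5 : C * (1 + Real.log n) * (3 * z ^ 216 * (1 + Real.log n)) ≤
      3 * C * z ^ 216 * (1009 * w) ^ 2 := by
    have h6 : (1 + Real.log n) ^ 2 ≤ (1009 * w) ^ 2 := pow_le_pow_left₀ hl1 hlog 2
    have h7 : 0 ≤ 3 * C * z ^ 216 := by positivity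
    have h8 := mul_le_mul_of_nonneg_left h6 h7
    have e : C * (1 + Real.log n) * (3 * z ^ 216 * (1 + Real.log n)) =
        3 * C * z ^ 216 * (1 + Real.log n) ^ 2 := by ring
    rw [e]
    exact h8
  have h6 : 3 * C * z ^ 216 * (1009 * w) ^ 2 ≤ ε / 4 * z ^ 217 := by
    rw [div_le_iff₀ hε] at hwC
    have h7 : 12 * 1009 ^ 2 * C * w ^ 2 ≤ ε * w ^ 4 := by
      have h8 : 12 * 1009 ^ 2 * C * w ^ 2 ≤ w * ε * w ^ 2 :=
        mul_le_mul_of_nonneg_right hwC (by positivity)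
      have h9 : w * ε * w ^ 2 ≤ ε * w ^ 4 := by
        have h10 : w ^ 3 ≤ w ^ 4 := pow_le_pow_right₀ hw1 (by norm_num)
        have h11 := mul_le_mul_of_nonneg_left h10 hε.le
        have e : w * ε * w ^ 2 = ε * w ^ 3 := by ring
        rw [e]
        exact h11
      linarith
    have e1 : 3 * C * z ^ 216 * (1009 * w) ^ 2 =
        z ^ 216 / 4 * (12 * 1009 ^ 2 * C * w ^ 2) := by ring
    have e2 : ε / 4 * z ^ 217 = z ^ 216 / 4 * (ε * w ^ 4) := by
      rw [← hz, pow_succ z 216]; ring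
    rw [e1, e2]
    exact mul_le_mul_of_nonneg_left h7 (by positivity)
  have h7 : ε / 4 * z ^ 217 ≤ ε / 4 * x ^ 5 * n := by
    have h8 : (1 / z ^ 7) ^ 5 ≤ x ^ 5 := pow_le_pow_left₀ (by positivity) hx 5
    have h9 : ε / 4 * z ^ 217 = ε / 4 * (1 / z ^ 7) ^ 5 * n := by
      rw [hnz]
      field_simp
    rw [h9]
    gcongr
  exact h4.trans (h5.trans (h6.trans h7))

/-- **The sharp constant of the exponential moments, uniformly in `x ≥ n ^ (-1/36)`**, from the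
rate. -/
theorem rtsh_moment_of {β : ℝ} (hβ : 1 < β) {A : ℝ} (hA : 0 < A)
    (hlim : Tendsto (fun x => (Vx β x - P0 β) / x ^ 5) (𝓝[>] 0) (𝓝 A)) {C : ℝ} (hC : 0 ≤ C)
    (hdn : ∀ K d : ℕ, 1 ≤ d → d ≤ K → ∀ n : ℕ, 1 ≤ n → n * (Real.log 2 + Vx β (gm K d)) ≤
      1 / gm K d * Real.log (∫ g, Real.exp (gm K d * freeEnergy n β g) ∂(disorder n)) +
        C * (1 + Real.log ((K : ℝ) + 1)) *
          (n / ((K : ℝ) + 1) + ((K : ℝ) + 1) ^ 6 * (1 + Real.log n)))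
    {ε : ℝ} (hε : 0 < ε) :
    ∃ x₀ : ℝ, 0 < x₀ ∧ ∃ N : ℕ, ∀ n ≥ N, ∀ x : ℝ, (n : ℝ) ^ (-(1 / 36) : ℝ) ≤ x → x ≤ x₀ →
      |Real.log (∫ g, Real.exp (x * freeEnergy n β g) ∂(disorder n)) - x * (n * Sx.pv β) -
        A * n * x ^ 6| ≤ ε * n * x ^ 6 := by
  have h1 : ∀ᶠ x in 𝓝[>] (0 : ℝ), |(Vx β x - P0 β) / x ^ 5 - A| < ε / 4 := by
    have := hlim.eventually (Metric.ball_mem_nhds A (by positivity : 0 < ε / 4))
    simpa [Real.dist_eq] using this
  obtain ⟨u, hu, h2⟩ := mem_nhdsGT_iff_exists_Ioo_subset.1 h1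
  have hu0 : 0 < u := hu
  have hV : ∀ x, 0 < x → x < u → |Vx β x - P0 β - A * x ^ 5| ≤ ε / 4 * x ^ 5 := by
    intro x hx hxu
    have h3 : |(Vx β x - P0 β) / x ^ 5 - A| < ε / 4 := h2 ⟨hx, hxu⟩
    have hx5 : 0 < x ^ 5 := by positivity
    have e : Vx β x - P0 β - A * x ^ 5 = ((Vx β x - P0 β) / x ^ 5 - A) * x ^ 5 := by
      field_simp
    rw [e, abs_mul, abs_of_pos hx5]
    exact mul_le_mul_of_nonneg_right h3.le hx5.le
  have ht : Tendsto (fun n : ℕ => (n : ℝ) ^ (1 / 1008 : ℝ)) atTop atTop :=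
    (tendsto_rpow_atTop (by norm_num)).comp tendsto_natCast_atTop_atTop
  obtain ⟨M, hM⟩ : ∃ M : ℝ, M = 2 + 40 * A / ε + 12 * 1009 ^ 2 * C / ε := ⟨_, rfl⟩
  have hM1 : 0 ≤ 40 * A / ε := by positivity
  have hM2 : 0 ≤ 12 * 1009 ^ 2 * C / ε := by positivity
  obtain ⟨N, hN⟩ := eventually_atTop.1 ((ht.eventually_ge_atTop M).and (eventually_ge_atTop 1))
  refine ⟨min (u / 2) (1 / 2), lt_min (by positivity) (by norm_num), N,
    fun n hn x hx hxx => ?_⟩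
  obtain ⟨hwM, hn1⟩ := hN n hn
  have hn0 : (0 : ℝ) < n := by exact_mod_cast (by omega : 0 < n)
  obtain ⟨w, hw⟩ : ∃ w : ℝ, w = (n : ℝ) ^ (1 / 1008 : ℝ) := ⟨_, rfl⟩
  rw [← hw] at hwM
  have hw2 : 2 ≤ w := by linarith
  have hw1 : 1 ≤ w := by linarith
  have hw0 : 0 < w := by linarith
  obtain ⟨z, hz⟩ : ∃ z : ℝ, z = w ^ 4 := ⟨_, rfl⟩
  have hzn : (n : ℝ) = z ^ 252 := by
    have e : z = (n : ℝ) ^ (1 / 252 : ℝ) := by
      rw [hz, hw, ← Real.rpow_natCast, ← Real.rpow_mul hn0.le]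
      norm_num
    rw [e, ← Real.rpow_natCast, ← Real.rpow_mul hn0.le]
    norm_num
  have hwz : w ≤ z := by rw [hz]; exact le_self_pow₀ hw1 (by norm_num)
  have hz2 : 2 ≤ z := by linarith
  have hz1 : 1 ≤ z := by linarith
  have hz0 : 0 < z := by linarith
  have hzA : 40 * A / ε ≤ z := by linarith
  have hz7 : (n : ℝ) ^ (-(1 / 36) : ℝ) = 1 / z ^ 7 := by
    have e : (1 / 1008 : ℝ) * ((28 : ℕ) : ℝ) = 1 / 36 := by norm_num
    have e2 : z ^ 7 = w ^ 28 := by rw [hz, ← pow_mul]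
    rw [e2, Real.rpow_neg hn0.le, hw, ← Real.rpow_natCast, ← Real.rpow_mul hn0.le, e,
      ← one_div ((n : ℝ) ^ (1 / 36 : ℝ))]
  rw [hz7] at hx
  have hxu : x < u := by
    have := hxx.trans (min_le_left _ _)
    linarith
  have hx2 : x ≤ 1 / 2 := hxx.trans (min_le_right _ _)
  have hx0 : 0 < x := lt_of_lt_of_le (by positivity) hx
  have hx5 : 0 < x ^ 5 := by positivity
  have hup := shfin_up (by linarith : 0 < β) hn1 hx0 (by linarith)
  have hVx := abs_le.1 (hV x hx0 hxu)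
  rw [shfin_pv, abs_le]
  constructor
  · -- the lower bound
    obtain ⟨K, d, hd1, hdK, hK1, hK2, hdx5, hdx⟩ := rtsh_pt hz2 hx hx2
    have hK0 : (0 : ℝ) < (K : ℝ) + 1 := by positivity
    have h3 := hdn K d hd1 hdK n hn1
    have herr := rtsh_err hC hε hw1 (by linarith) hz hzn hx hK1 hK2
    obtain ⟨R, hR⟩ : ∃ R : ℝ, R = C * (1 + Real.log ((K : ℝ) + 1)) *
      (n / ((K : ℝ) + 1) + ((K : ℝ) + 1) ^ 6 * (1 + Real.log n)) := ⟨_, rfl⟩
    rw [← hR] at h3 herr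
    clear hR hzn hz hw hM hM1 hM2 hwM hK1 hK2
    have hd0 : 0 < gm K d := by
      have : (0 : ℝ) < d := by exact_mod_cast hd1
      unfold gm
      positivity
    obtain ⟨y, hy⟩ : ∃ y : ℝ, y = gm K d := ⟨_, rfl⟩
    rw [← hy] at h3 hdx hd0 hdx5
    have hVy := (abs_le.1 (hV y hd0 (lt_of_le_of_lt hdx hxu))).1
    have hmono := Ld.cor_mono (μ := disorder n) (X := freeEnergy n β)
      (fun x => Sx.integrable_exp n β x) hd0 hdx
    have hy5 : y ^ 5 ≤ x ^ 5 := pow_le_pow_left₀ hd0.le hdx 5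
    have hz21 : 2 / z ≤ 1 := by
      rw [div_le_one hz0]
      exact hz2
    have hA5 : A * x ^ 5 - ε / 4 * x ^ 5 ≤ A * y ^ 5 := by
      have h4 : (x * (1 - 2 / z)) ^ 5 ≤ y ^ 5 :=
        pow_le_pow_left₀ (mul_nonneg hx0.le (by linarith)) hdx5 5
      have h5 : 1 + ((5 : ℕ) : ℝ) * (-(2 / z)) ≤ (1 + -(2 / z)) ^ 5 :=
        one_add_mul_le_pow (by linarith) 5
      have h6 : x ^ 5 * (1 - 10 / z) ≤ y ^ 5 := by
        refine le_trans ?_ h4
        rw [mul_pow]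
        refine mul_le_mul_of_nonneg_left ?_ hx5.le
        have e1 : 1 + ((5 : ℕ) : ℝ) * (-(2 / z)) = 1 - 10 / z := by push_cast; ring
        have e2 : (1 + -(2 / z)) ^ 5 = (1 - 2 / z) ^ 5 := by ring
        rw [e1, e2] at h5
        exact h5
      have h7 : A * (10 / z) ≤ ε / 4 := by
        have h8 : 40 * A / ε ≤ z := hzA
        rw [div_le_iff₀ hε] at h8
        rw [mul_div_assoc', div_le_iff₀ hz0]
        linarith
      have h8 := mul_le_mul_of_nonneg_left h6 hA.le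
      have h9 := mul_le_mul_of_nonneg_right h7 hx5.le
      have e : A * (x ^ 5 * (1 - 10 / z)) = A * x ^ 5 - A * (10 / z) * x ^ 5 := by ring
      rw [e] at h8
      linarith
    have hε5 : ε / 4 * y ^ 5 ≤ ε / 4 * x ^ 5 := mul_le_mul_of_nonneg_left hy5 (by positivity)
    have h6 : (n : ℝ) * (Real.log 2 + P0 β) + n * (A * x ^ 5) - n * (3 / 4 * ε * x ^ 5) ≤
        1 / x * Real.log (∫ g, Real.exp (x * freeEnergy n β g) ∂(disorder n)) := by
      have h7 : (n : ℝ) * (P0 β + A * x ^ 5 - ε / 2 * x ^ 5) ≤ n * Vx β y :=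
        mul_le_mul_of_nonneg_left (by linarith) hn0.le
      have h8 : (n : ℝ) * (Real.log 2 + Vx β y) = n * Real.log 2 + n * Vx β y := by ring
      rw [h8] at h3
      nlinarith
    have h9 := mul_le_mul_of_nonneg_left h6 hx0.le
    have e1 : x * (1 / x * Real.log (∫ g, Real.exp (x * freeEnergy n β g) ∂(disorder n))) =
        Real.log (∫ g, Real.exp (x * freeEnergy n β g) ∂(disorder n)) := by
      field_simp
    rw [e1] at h9
    have h10 : 0 ≤ ε * n * x ^ 6 := by positivity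
    have e2 : x * (n * (Real.log 2 + P0 β) + n * (A * x ^ 5) - n * (3 / 4 * ε * x ^ 5)) =
        x * (n * (Real.log 2 + P0 β)) + A * n * x ^ 6 - 3 / 4 * (ε * n * x ^ 6) := by ring
    rw [e2] at h9
    linarith
  · -- the upper bound
    have h3 : x * n * (Real.log 2 + Vx β x) ≤
        x * n * (Real.log 2 + (P0 β + A * x ^ 5 + ε / 4 * x ^ 5)) :=
      mul_le_mul_of_nonneg_left (by linarith) (by positivity)
    have h10 : 0 ≤ ε * n * x ^ 6 := by positivity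
    have e2 : x * n * (Real.log 2 + (P0 β + A * x ^ 5 + ε / 4 * x ^ 5)) =
        x * (n * (Real.log 2 + P0 β)) + A * n * x ^ 6 + 1 / 4 * (ε * n * x ^ 6) := by ring
    rw [e2] at h3
    linarith

/-- **The sharp upper tail, uniformly for `n ^ (-1/8) ≤ s ≤ s₀`.** -/
theorem rt_sharp_ldp {β A : ℝ} (hA : 0 < A)
    (H : ∀ ε : ℝ, 0 < ε → ∃ x₀ : ℝ, 0 < x₀ ∧ ∃ N : ℕ, ∀ n : ℕ, N ≤ n → ∀ x : ℝ,
      (n : ℝ) ^ (-(1 / 36) : ℝ) ≤ x → x ≤ x₀ →
      |Real.log (∫ g, Real.exp (x * freeEnergy n β g) ∂(disorder n)) - x * (n * Sx.pv β) -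
        A * n * x ^ 6| ≤ ε * n * x ^ 6) :
    ∀ ε : ℝ, 0 < ε → ∃ s₀ : ℝ, 0 < s₀ ∧ ∃ N : ℕ, ∀ n : ℕ, N ≤ n → ∀ s : ℝ,
      (n : ℝ) ^ (-(1 / 8) : ℝ) ≤ s → s ≤ s₀ →
      |Real.log ((disorder n).real {g | n * (Sx.pv β + s) ≤ freeEnergy n β g}) +
        5 / 6 * (6 * A) ^ (-(1 / 5) : ℝ) * n * s ^ (6 / 5 : ℝ)| ≤
          ε * n * s ^ (6 / 5 : ℝ) :=
  ldp_abs_u (μ := fun n => disorder n) (X := fun n g => freeEnergy n β g) (a := 1 / 36)
    (b := 1 / 8) (fun _ => Ub.measurable_free β) (fun n x => Sx.integrable_exp n β x) hA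
    (by norm_num) (by norm_num) H

end Vale.Agent.P146.Sh
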