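import Vale.Agent.P146.Rt.RtRate
import Vale.Agent.P146.Rt.RtSh0

/-!
# P146, Rt: the sharp constants with the better rate
-/

open MeasureTheory ProbabilityTheory Filter Topology Set

namespace Vale.Agent.P146.Sh

open Vale.Agent.P157.Par
open Vale.Agent.P146.Gap
open Vale.Agent.P146.Pw2
open Vale.Agent.P146.Lb
open Vale.Agent.P367.Cl

/-- the lower bound at a point of the grid -/
theorem rtsh_dn {β : ℝ} (hβ : 1 < β) : ∃ C : ℝ, 0 ≤ C ∧ ∀ K d : ℕ, 1 ≤ d → d ≤ K →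
    ∀ n : ℕ, 1 ≤ n → n * (Real.log 2 + Vx β (gm K d)) ≤
      1 / gm K d * Real.log (∫ g, Real.exp (gm K d * freeEnergy n β g) ∂(disorder n)) +
        C * (1 + Real.log ((K : ℝ) + 1)) *
          (n / ((K : ℝ) + 1) + ((K : ℝ) + 1) ^ 6 * (1 + Real.log n)) := by
  obtain ⟨C, hC, h⟩ := Ub.Ld.grate (β := β) (by linarith)
  refine ⟨C, hC, fun K d hd1 hd n hn => ?_⟩
  have h1 := h K d (Vx β (gm K d)) hd1 hd (fun q hq hq1 hq0 => by
    rw [Ld.cor_me]
    have hb : 0 < β := by linarith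
    have hr : BPath β K (fun l => β ^ 2 * q l) := by
      refine ⟨?_, ⟨?_, ?_⟩, ?_⟩
      · simp only
        rw [hq0 0 (by omega), mul_zero]
      · simp only
        have := hq.1
        positivity
      · intro l hl
        simp only
        have := hq.2 l hl
        gcongr
      · simp only
        have h2 : 0 ≤ β ^ 2 := by positivity
        nlinarith
    have h2 := vx_le hβ hd1 hd hr (fun l hl => by rw [hq0 l hl, mul_zero])
    rw [← gap2_SKr_eq hb] at h2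
    have e : (fun l => β ^ 2 * q l / β ^ 2) = q := by
      funext l
      field_simp
    simp only [e] at h2
    exact h2) n hn
  rw [Ld.cor_me] at h1
  exact h1

/-- **The sharp constant of the exponential moments, uniformly in `x ≥ n ^ (-1/36)`.** -/
theorem rt_sharp_moment {β : ℝ} (hβ : 1 < β) {A : ℝ} (hA : 0 < A)
    (hlim : Tendsto (fun x => (Vx β x - P0 β) / x ^ 5) (𝓝[>] 0) (𝓝 A)) {ε : ℝ} (hε : 0 < ε) :
    ∃ x₀ : ℝ, 0 < x₀ ∧ ∃ N : ℕ, ∀ n ≥ N, ∀ x : ℝ, (n : ℝ) ^ (-(1 / 36) : ℝ) ≤ x → x ≤ x₀ →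
      |Real.log (∫ g, Real.exp (x * freeEnergy n β g) ∂(disorder n)) - x * (n * Sx.pv β) -
        A * n * x ^ 6| ≤ ε * n * x ^ 6 := by
  obtain ⟨C, hC, hdn⟩ := rtsh_dn hβ
  exact rtsh_moment_of hβ hA hlim hC hdn hε

end Vale.Agent.P146.Sh
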