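import Vale.Agent.P146.Rt.RtDefs
import Vale.Agent.P146.Sh.ShLdpU
import Vale.Agent.P146.Ce.CeSK
import Vale.Agent.P146.Sh.ShFinU

/-!
# P146, Rt: a better rate: skeleton (NEVER import this file)

Every section is one task / one file `Vale/Agent/P146/Rt/Rt<name>.lean`; import `Rt.RtDefs` (or the
smaller file of the block you need), NEVER this file; copy the statements you use from the others
into a local temporary file with `sorry`.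
-/

open MeasureTheory ProbabilityTheory Filter Topology

namespace Vale.Agent.P146.Ub.Ld

set_option linter.unusedSectionVars false

open Vale.Agent.P157 Vale.Agent.P157.Lv Vale.Agent.P157.Lv.Sy Vale.Agent.P157.Lv.Fld
open Vale.Agent.P157.Par (Path Exponents incr spinPart)
open Vale.Agent.P146 (Pair freeEnergy disorder)
open Vale.Agent.P146.Sk (PSK)

section Conc

/-! ### RtConc.lean. Copies of `SN_conc`, `ST_conc` (Ld/LdStep1.lean) with the variance `V = 0`: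
`ls_var` (Ub/Lin.lean) with `V := 0`, since all coefficients of the level `0` vanish
(`1 ≤ d`, `s 0 = 0`, `R 0 = 0`: `incr R 0 = R 0`, `√0 = 0`). `6 B = 3 β²`. -/

variable {n K N d : ℕ} {m s R : ℕ → ℝ} {β θ : ℝ}

theorem ST_conc0 (hd1 : 1 ≤ d) (hd : d ≤ K) (hN : N + 1 ≤ n) (h0 : 0 < N) (hm : Exponents K m)
    (hR : Path K R) (hR1 : R K ≤ 1) (hR0 : R 0 = 0) (hs : ∀ l ≤ K, 0 ≤ s l) (hs0 : s 0 = 0)
    {t : ℝ} (ht : 0 < t) (θ : ℝ) {j : ℕ} (hj1 : 1 ≤ j) (hj : j ≤ K) :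
    (ST n K d m β N s R θ).Ex (fun z x => |hz (ph (Nat.le_of_succ_le hN))
        (zc (Nat.le_of_succ_le hN)) j z x - (SN n K d m β N s).Ex (hz (ph (Nat.le_of_succ_le hN))
        (zc (Nat.le_of_succ_le hN)) j)|) ≤ ger n K d m β N s t j := by sorry

theorem SN_conc0 (hd1 : 1 ≤ d) (hd : d ≤ K) (hN : N ≤ n) (h0 : 0 < N) (hm : Exponents K m)
    (hs : ∀ l ≤ K, 0 ≤ s l) (hs0 : s 0 = 0) {t : ℝ} (ht : 0 < t) {j : ℕ} (hj1 : 1 ≤ j)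
    (hj : j ≤ K) :
    (SN n K d m β N s).Ex (fun z x => |hz (ph hN) (zc hN) j z x -
      (SN n K d m β N s).Ex (hz (ph hN) (zc hN) j)|) ≤ ger n K d m β N s t j := by sorry

theorem ger_nonneg (hd : d ≤ K) (hN : N ≤ n) (hm : Exponents K m) (s : ℕ → ℝ) {t : ℝ}
    (ht : 0 < t) (j : ℕ) : 0 ≤ ger n K d m β N s t j := by sorry

end Conc

section gen

variable {ι X : Type} [Fintype ι] [DecidableEq ι] [Fintype X] [DecidableEq X] [Nonempty X] {N : ℕ}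
  {S : Sy ι X} {D : ι → (ι → ℝ) → X → ℝ} {φ : X → Fin N → ℝ} {zc : ℕ → Fin N → ι} {s : ℕ → ℝ}

/-! ### RtSync.lean. The proof of `Fld.sync` (P157/LvPair.lean) with one error per level. -/

theorem gV_nonneg (F : Fld S D φ zc s) {l : ℕ} (hl : l ≤ S.K) : 0 ≤ gV S φ l := by sorry

/-- `V_l ≤ (R_{l+1} - R_l) + 2 G`, `π |G| ≤ 2 (e_{l+1} + e_{l+2}) / σ` -/
theorem gsync_V (F : Fld S D φ zc s) {d : ℕ} {σ π : ℝ} (hσ : 0 < σ) (hπ : 0 < π)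
    (hs : ∀ l, d ≤ l → l ≤ S.K → σ ≤ s l) (hp : ∀ l ≤ S.K, π ≤ S.p l) {e : ℕ → ℝ}
    (he : ∀ l, 0 ≤ e l)
    (hc : ∀ l, d ≤ l → l ≤ S.K → ∃ c, S.Ex (fun z x => |hz φ zc l z x - c|) ≤ e l)
    {l : ℕ} (hd : d ≤ l) (hl : l < S.K) :
    gV S φ l ≤ (S.Rl φ (l + 1) - S.Rl φ l) + 4 * (e (l + 1) + e (l + 2)) / (σ * π) := by sorry

/-- the last part of the proof of `Fld.sync` -/
theorem gsync_Q (F : Fld S D φ zc s) {d : ℕ} {σ : ℝ} (hσ : 0 < σ)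
    (hs : ∀ l, d ≤ l → l ≤ S.K → σ ≤ s l) {e : ℕ → ℝ} (he : ∀ l, 0 ≤ e l)
    (hc : ∀ l, d ≤ l → l ≤ S.K → ∃ c, S.Ex (fun z x => |hz φ zc l z x - c|) ≤ e l)
    {l : ℕ} (hd : d ≤ l) (hl : l < S.K) :
    S.m (l + 1) * (gQ S φ l - gW S φ l) ≤ S.p l * gV S φ l + 2 * (e l + e (l + 1)) / σ := by sorry

/-! ### RtPath.lean. From `Fld.Ex_hz` (LvPair) for both systems, at the levels `l`, `l + 1`;
pattern: `hD`, `hdl` in `rs_dev` (Ld/LdStep2.lean). -/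

theorem gpath {S' : Sy ι X} {D' : ι → (ι → ℝ) → X → ℝ} (F : Fld S D φ zc s)
    (F' : Fld S' D' φ zc s) (hK : S'.K = S.K) (hm : S'.m = S.m) {d : ℕ} {σ : ℝ} (hσ : 0 < σ)
    (hs : ∀ l, d ≤ l → l ≤ S.K → σ ≤ s l) {e : ℕ → ℝ} (he : ∀ l, 0 ≤ e l)
    (hc : ∀ l, d ≤ l → l ≤ S.K →
      S.Ex (fun z x => |hz φ zc l z x - S'.Ex (hz φ zc l)|) ≤ e l)
    {l : ℕ} (hd : d ≤ l) (hl : l ≤ S.K) :
    S.p l * |S.Rl φ l - S'.Rl φ l| ≤ (e l + e (l + 1)) / σ := by sorry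

/-! ### RtW1.lean. `Fld.Ex_hz_mul` at the levels `j` and `j + 1 ≤ k` for `u = gw S ε k`; the
derivative of `T_k ε` (`RegD.pd_T`, pattern: `Fld.pd_mg`) is `s_j` times something which does not
depend on `j ≤ k`. `|Ex (hz_j u) - Ex hz_j Ex u| ≤ 2 e_j` for `|u| ≤ 1` (pattern: `Fld.dev`). -/

theorem gw_field (F : Fld S D φ zc s) {d : ℕ} {σ : ℝ} (hσ : 0 < σ)
    (hs : ∀ l, d ≤ l → l ≤ S.K → σ ≤ s l) {e : ℕ → ℝ} (he : ∀ l, 0 ≤ e l)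
    (hc : ∀ l, d ≤ l → l ≤ S.K → ∃ c, S.Ex (fun z x => |hz φ zc l z x - c|) ≤ e l)
    {ε : X → ℝ} (hε : ∀ x, |ε x| ≤ 1) {j k : ℕ} (hd : d ≤ j) (hjk : j < k) (hk : k ≤ S.K) :
    S.p j * |S.Ex (fun z x => gw S ε k z x * uu S φ j z x) - S.Ex (gw S ε k) * S.Rl φ j| ≤
      2 * (e j + e (j + 1)) / σ := by sorry

/-! ### RtW2.lean. `T_l` is a projection. `(w_l - w_{l+1})² ≤ (T_l ε - T_{l+1} ε)²`,
`pairEx_l (ε ε') = Ex w_l`; for `gw_pairR`: `pairEx_l (ε ε' R) - Ex (w_l u_l) =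
Ex ∑ pr pr' ε ε' (R - u_l(x))`, Cauchy-Schwarz, `Ex ∑ pr pr' (R - u_l)² = Q_l - W_l` (`uu_eq`). -/

theorem gw_nonneg (F : Fld S D φ zc s) {ε : X → ℝ} (hε : ∀ x, |ε x| ≤ 1) {l : ℕ}
    (hl : l ≤ S.K) : 0 ≤ S.Ex (gw S ε l) ∧ S.Ex (gw S ε l) ≤ 1 := by sorry

theorem gw_diff (F : Fld S D φ zc s) {ε : X → ℝ} (hε : ∀ x, |ε x| ≤ 1) {l : ℕ} (hl : l < S.K) :
    S.Ex (fun z x => (gw S ε l z x - gw S ε (l + 1) z x) ^ 2) ≤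
      S.Ex (gw S ε (l + 1)) - S.Ex (gw S ε l) := by sorry

theorem gw_pair (F : Fld S D φ zc s) (ε : X → ℝ) {l : ℕ} (hl : l ≤ S.K) :
    S.pairEx l (fun x x' => ε x * ε x') = S.Ex (gw S ε l) := by sorry

theorem gQW_nonneg (F : Fld S D φ zc s) {l : ℕ} (hl : l ≤ S.K) :
    0 ≤ gQ S φ l - gW S φ l := by sorry

theorem gw_pairR (F : Fld S D φ zc s) {ε : X → ℝ} (hε : ∀ x, |ε x| ≤ 1) {l : ℕ}
    (hl : l ≤ S.K) :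
    |S.pairEx l (fun x x' => ε x * ε x' * Rov φ x x') -
      S.Ex (fun z x => gw S ε l z x * uu S φ l z x)| ≤ √(gQ S φ l - gW S φ l) := by sorry

/-! ### RtJ.lean. `Ex (w_l u_l) - R_l Ex w_l = Ex ((w_l - w_{l+1}) (u_l - R_l)) +
(Ex (w_{l+1} u_l) - R_l Ex w_{l+1})`. -/

theorem gJ (F : Fld S D φ zc s) {d : ℕ} {σ π : ℝ} (hσ : 0 < σ) (hπ : 0 < π)
    (hs : ∀ l, d ≤ l → l ≤ S.K → σ ≤ s l) (hp : ∀ l ≤ S.K, π ≤ S.p l) {e : ℕ → ℝ}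
    (he : ∀ l, 0 ≤ e l)
    (hc : ∀ l, d ≤ l → l ≤ S.K → ∃ c, S.Ex (fun z x => |hz φ zc l z x - c|) ≤ e l)
    {ε : X → ℝ} (hε : ∀ x, |ε x| ≤ 1) {l : ℕ} (hd : d ≤ l) (hl : l < S.K) (q : ℝ) :
    |S.pairEx l (fun x x' => ε x * ε x' * (Rov φ x x' - q))| ≤
      √(gQ S φ l - gW S φ l) + √(S.Ex (gw S ε (l + 1)) - S.Ex (gw S ε l)) * √(gV S φ l) +
        2 * (e l + e (l + 1)) / (σ * π) + |S.Rl φ l - q| := by sorry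

end gen

section Sum

/-! ### RtSum.lean (real numbers only). With `L = K + 1`, `y = L E / σ`: `∑ V ≤ 1 + 8 y`,
`D_l ≤ (V_l + 2 L (e_l + e_{l+1}) / σ) / (l + 1)`, Cauchy-Schwarz, `∑ 1 / (l + 1) ≤ 1 + log L`,
`√(1 + 12 y) ≤ 1 + 6 y`. -/

theorem gsum {K d : ℕ} (hd : d ≤ K) {σ : ℝ} (hσ : 0 < σ) {V D ω R e : ℕ → ℝ}
    (he : ∀ l, 0 ≤ e l) (heK : e (K + 1) = 0)
    (hV0 : ∀ l, d ≤ l → l < K → 0 ≤ V l)
    (hV : ∀ l, d ≤ l → l < K →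
      V l ≤ (R (l + 1) - R l) + 4 * (e (l + 1) + e (l + 2)) * ((K : ℝ) + 1) / σ)
    (hD0 : ∀ l, d ≤ l → l < K → 0 ≤ D l)
    (hD : ∀ l, d ≤ l → l < K →
      ((l : ℝ) + 1) / ((K : ℝ) + 1) * D l ≤ 1 / ((K : ℝ) + 1) * V l + 2 * (e l + e (l + 1)) / σ)
    (hR0 : 0 ≤ R d) (hR1 : R K ≤ 1) (hω0 : 0 ≤ ω d) (hω1 : ω K ≤ 1)
    (hω : ∀ l, d ≤ l → l < K → ω l ≤ ω (l + 1)) :
    ∑ l ∈ Finset.Ico d K, 1 / ((K : ℝ) + 1) * (√(D l) + √(ω (l + 1) - ω l) * √(V l) +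
      3 * (e l + e (l + 1)) * ((K : ℝ) + 1) / σ) ≤
      √(1 + Real.log ((K : ℝ) + 1)) *
        (2 + 16 * ((K : ℝ) + 1) * (∑ l ∈ Finset.Ico d (K + 1), e l) / σ) / ((K : ℝ) + 1) := by
  sorry

end Sum

section Step

variable {n K N d : ℕ} {m s R : ℕ → ℝ} {β θ : ℝ}

/-! ### RtDev.lean. From `gJ`, `gsync_V`, `gsync_Q`, `gpath`, `gsum`; the level `K` costs
`2 / (K + 1)`. Pattern: `rs_dev` (Ld/LdStep2.lean). -/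

theorem gdev (hd1 : 1 ≤ d) (hd : d ≤ K) (hN : N ≤ n) (h0 : 0 < N) {c : ℝ}
    {a : (Fin n → Bool) → RI n K → ℝ} {D : RI n K → (RI n K → ℝ) → (Fin n → Bool) → ℝ}
    (F : Fld (ls (rlv d) K (me K) c a) D (ph hN) (zc hN) s) {σ : ℝ} (hσ : 0 < σ)
    (hs : ∀ l, d ≤ l → l ≤ K → σ ≤ s l) {e : ℕ → ℝ} (he : ∀ l, 0 ≤ e l) (heK : e (K + 1) = 0)
    (hc : ∀ j, d ≤ j → j ≤ K → (ls (rlv d) K (me K) c a).Ex (fun z x =>
      |hz (ph hN) (zc hN) j z x - (SN n K d (me K) β N s).Ex (hz (ph hN) (zc hN) j)|) ≤ e j)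
    {ε : (Fin n → Bool) → ℝ} (hε : ∀ x, |ε x| ≤ 1) :
    ∑ l ∈ Finset.Ico d (K + 1), (me K (l + 1) - me K l) *
      |(ls (rlv d) K (me K) c a).pairEx l (fun x x' => ε x * ε x' *
        (Rov (ph hN) x x' - stR (SN n K d (me K) β N s) (ph hN) l))| ≤
      (√(1 + Real.log ((K : ℝ) + 1)) *
        (2 + 16 * ((K : ℝ) + 1) * (∑ l ∈ Finset.Ico d (K + 1), e l) / σ) + 2) / ((K : ℝ) + 1) := by
  sorry

/-! ### RtStep.lean. Copy of `AN_step` (Ld/LdStep2.lean) with `gdev` (`ε = sp N`) and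
`ST_conc0`; the square term by Jensen: `(pairEx R)² ≤ pairEx R²`, `pairEx R = Rl` (`Rl_eq_pairEx`),
the level `K` costs `β² / 4 / (K + 1)`. -/

theorem gstep (hd1 : 1 ≤ d) (hd : d ≤ K) (hN : N + 1 ≤ n) (h0 : 0 < N) (hβ : 0 ≤ β)
    {σ : ℝ} (hσ : 0 < σ) (hs : ∀ l, d ≤ l → l ≤ K → σ ≤ s l) (hs0 : ∀ l, l < d → s l = 0)
    {t : ℝ} (ht : 0 < t) :
    PSK β K (me K) (ct d (stR (SN n K d (me K) β N s) (ph (Nat.le_of_succ_le hN)))) ≤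
      AN n K d (me K) β (N + 1) s - AN n K d (me K) β N s + β ^ 2 / (N + 1 : ℕ) +
        β ^ 2 * gT K σ (ges n K d (me K) β N s t) := by sorry

/-! ### RtAvg.lean. Pattern: `rr_avg_dl`, `rr_avg_ee` (Ld/LdRate.lean). `avg_dl` (Ub/RAvg.lean) for
`A s = AN .. (ct d s)`, with the slope `0` for `j < d`; `ct d (update s j x) = update (ct d s) j x`
for `d ≤ j`. `M = (K + 1)²`, `σ = 1 / (2 (K + 1))`, `t = 1 / (2 (K + 1)³)`. -/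

theorem gavg {β : ℝ} (hd : d ≤ K) (hN : N ≤ n) (h0 : 0 < N) :
    rAv (fun k : Fin (K + 1) → Fin ((K + 1) ^ 2) => ges n K d (me K) β N
      (ct d (gp (1 / (2 * ((K : ℝ) + 1))) (1 / (2 * ((K : ℝ) + 1) ^ 3)) k))
      (1 / (2 * ((K : ℝ) + 1) ^ 3))) ≤
      2 / ((K : ℝ) + 1) ^ 2 + 2 * (3 * β ^ 2 + 1) * ((K : ℝ) + 1) ^ 5 / N := by sorry

/-! ### RtRate.lean. Pattern: `rr_step_avg`, `rate_lower_d` (Ld/LdRate.lean); all the stages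
`1 ≤ N < n`, `∑ 1 / N ≤ 1 + log n`. The average of `gT K σ (ges ..)` is at most
`(1 + log (K + 1)) (72 / (K + 1) + 64 (3 β² + 1) (K + 1)⁶ / N)`. -/

theorem grate {β : ℝ} (hβ : 0 < β) : ∃ C : ℝ, 0 ≤ C ∧ ∀ (K d : ℕ) (Lb : ℝ),
    1 ≤ d → d ≤ K →
    (∀ q : ℕ → ℝ, Path K q → q K ≤ 1 → (∀ l < d, q l = 0) → Lb ≤ PSK β K (me K) q) →
    ∀ n : ℕ, 1 ≤ n →
      n * (Real.log 2 + Lb) ≤
        1 / me K d * Real.log (∫ g, Real.exp (me K d * freeEnergy n β g) ∂(disorder n)) +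
          C * (1 + Real.log ((K : ℝ) + 1)) *
            (n / ((K : ℝ) + 1) + ((K : ℝ) + 1) ^ 6 * (1 + Real.log n)) := by sorry

end Step

end Vale.Agent.P146.Ub.Ld

namespace Vale.Agent.P146.Sx

open Vale.Agent.P157.Par (Path Exponents)
open Vale.Agent.P146.Sk (PSK)
open Vale.Agent.P146.Ub

/-! ### RtGap.lean. Gaussian concentration: the bound of an exponential moment by the mean. Look
for it in Ub/Conv0.lean, Lt/LtSK.lean, P146/*.lean (`∑ (gradF)² ≤ n / 2 ..`, Maurey-Pisier), or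
derive it from `Cv`. -/

theorem rt_gauss (n : ℕ) (β : ℝ) {x : ℝ} (hx : 0 ≤ x) :
    Real.log (∫ g, Real.exp (x * freeEnergy n β g) ∂(disorder n)) ≤
      x * (∫ g, freeEnergy n β g ∂(disorder n)) + 2 * β ^ 2 * n * x ^ 2 := by sorry

/-! ### RtLow.lean. `grate` with `d = 1`, `Lb = sInf (vals β)` (`csInf_le`, `bdd`: `Ld.cor_bdd`),
`rt_gauss` with `x = me K 1 = 1 / (K + 1)`, `K + 1 = ⌊n^(1/7)⌋` (`n ≥ 128`; small `n` by the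
constant). -/

theorem rt_low {β : ℝ} (hβ : 1 ≤ β) : ∃ C : ℝ, 1 ≤ C ∧ ∀ n : ℕ, 1 ≤ n →
    n * pv β ≤ ∫ g, freeEnergy n β g ∂(disorder n) +
      C * (n : ℝ) ^ (6 / 7 : ℝ) * (1 + Real.log n) ^ 2 := by sorry

/-! ### RtMom.lean. Pattern: `moment`, `var_upper5` (Sx/Fin5.lean) with `rt_low`; `x = n^(-1/35)`,
`(1 + log n)^3 ≤ C n^(1/315)`. -/

theorem rt_moment {β : ℝ} (hβ : 1 ≤ β) : ∃ C : ℝ, 1 ≤ C ∧
    (∀ n : ℕ, 1 ≤ n → ∀ x : ℝ, 0 < x → x ≤ 1 →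
      Real.log (∫ g, Real.exp (x * freeEnergy n β g) ∂(disorder n)) ≤
        x * (n * pv β) + C * n * x ^ 6) ∧
    (∀ n : ℕ, 1 ≤ n → ∫ g, freeEnergy n β g ∂(disorder n) ≤ n * pv β) ∧
    (∀ n : ℕ, 1 ≤ n → n * pv β ≤ ∫ g, freeEnergy n β g ∂(disorder n) +
      C * (n : ℝ) ^ (7 / 8 : ℝ)) := by sorry

theorem rt_var {β : ℝ} (hβ : 1 ≤ β) : ∃ C : ℝ, 1 ≤ C ∧ ∀ n : ℕ, 1 ≤ n →
    Var[freeEnergy n β; disorder n] ≤ C * (n : ℝ) ^ (8 / 9 : ℝ) := by sorry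

/-! ### RtLt.lean. Pattern: `Lt.low_dev` (Lt/LtFin.lean) with `rt_var`. -/

theorem rt_low_dev {β : ℝ} (hβ : 1 ≤ β) : ∃ a : ℝ, 0 < a ∧ ∀ n : ℕ, 1 ≤ n → ∀ t : ℝ, 0 ≤ t →
    (disorder n).real {g | freeEnergy n β g ≤ ∫ g, freeEnergy n β g ∂(disorder n) - t} ≤
      Real.exp (-(a * t ^ 2 / (n : ℝ) ^ (19 / 20 : ℝ))) := by sorry

/-! ### RtCe.lean. Pattern: `Ce.sk_up`, `Ce.sk_dn`, `Ce.sk_conc` (Ce/CeSK.lean) with `rt_low`,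
`rt_moment`, `rt_var` (`V ~ n^(9/10)`). -/

theorem rt_conc {β : ℝ} (hβ : 1 ≤ β) : ∃ C a : ℝ, 1 ≤ C ∧ 0 < a ∧ ∀ n : ℕ, 1 ≤ n → ∀ t : ℝ,
    0 ≤ t → (disorder n).real {g | t * (n : ℝ) ^ (9 / 20 : ℝ) ≤
      |freeEnergy n β g - ∫ g, freeEnergy n β g ∂(disorder n)|} ≤ C * Real.exp (-(a * t)) := by
  sorry

end Vale.Agent.P146.Sx

namespace Vale.Agent.P146.Sh

open Vale.Agent.P157.Par
open Vale.Agent.P146.Gap
open Vale.Agent.P146.Pw2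
open Vale.Agent.P146.Lb
open Vale.Agent.P367.Cl

/-! ### RtSh.lean. Pattern: `shfin_dn` (Sh/ShFin.lean), `shfu_pt`, `sharp_moment_u_of`
(Sh/ShFinU.lean), `sharp_ldp_u_of` (Sh/ShLdpU.lean) with `grate`; `z = n^(1/252)`,
`K + 1 = ⌊z^36⌋`, `x ≥ z^(-7)`; error `C (1 + log n)^2 n^(6/7) ≤ ε / 4 n x⁵`. -/

theorem rt_sharp_moment {β : ℝ} (hβ : 1 < β) {A : ℝ} (hA : 0 < A)
    (hlim : Tendsto (fun x => (Vx β x - P0 β) / x ^ 5) (𝓝[>] 0) (𝓝 A)) {ε : ℝ} (hε : 0 < ε) :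
    ∃ x₀ : ℝ, 0 < x₀ ∧ ∃ N : ℕ, ∀ n ≥ N, ∀ x : ℝ, (n : ℝ) ^ (-(1 / 36) : ℝ) ≤ x → x ≤ x₀ →
      |Real.log (∫ g, Real.exp (x * freeEnergy n β g) ∂(disorder n)) - x * (n * Sx.pv β) -
        A * n * x ^ 6| ≤ ε * n * x ^ 6 := by sorry

theorem rt_sharp_ldp {β A : ℝ} (hA : 0 < A)
    (H : ∀ ε : ℝ, 0 < ε → ∃ x₀ : ℝ, 0 < x₀ ∧ ∃ N : ℕ, ∀ n : ℕ, N ≤ n → ∀ x : ℝ,
      (n : ℝ) ^ (-(1 / 36) : ℝ) ≤ x → x ≤ x₀ →
      |Real.log (∫ g, Real.exp (x * freeEnergy n β g) ∂(disorder n)) - x * (n * Sx.pv β) -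
        A * n * x ^ 6| ≤ ε * n * x ^ 6) :
    ∀ ε : ℝ, 0 < ε → ∃ s₀ : ℝ, 0 < s₀ ∧ ∃ N : ℕ, ∀ n : ℕ, N ≤ n → ∀ s : ℝ,
      (n : ℝ) ^ (-(1 / 8) : ℝ) ≤ s → s ≤ s₀ →
      |Real.log ((disorder n).real {g | n * (Sx.pv β + s) ≤ freeEnergy n β g}) +
        5 / 6 * (6 * A) ^ (-(1 / 5) : ℝ) * n * s ^ (6 / 5 : ℝ)| ≤
          ε * n * s ^ (6 / 5 : ℝ) := by sorry

end Vale.Agent.P146.Sh
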