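import Mathlib

/-!
# P146, Rt: the sum of the errors (real numbers only)
-/

namespace Vale.Agent.P146.Ub.Ld

namespace RS

theorem e0 {K d : ℕ} {e : ℕ → ℝ} (he : ∀ l, 0 ≤ e l) :
    ∑ l ∈ Finset.Ico d K, e l ≤ ∑ l ∈ Finset.Ico d (K + 1), e l :=
  Finset.sum_le_sum_of_subset_of_nonneg
    (fun x hx => by rw [Finset.mem_Ico] at *; omega) fun i _ _ => he i

theorem e1 {K d : ℕ} {e : ℕ → ℝ} (he : ∀ l, 0 ≤ e l) :
    ∑ l ∈ Finset.Ico d K, e (l + 1) ≤ ∑ l ∈ Finset.Ico d (K + 1), e l := by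
  rw [Finset.sum_Ico_add' e d K 1]
  exact Finset.sum_le_sum_of_subset_of_nonneg
    (fun x hx => by rw [Finset.mem_Ico] at *; omega) fun i _ _ => he i

theorem e2 {K d : ℕ} {e : ℕ → ℝ} (he : ∀ l, 0 ≤ e l) (heK : e (K + 1) = 0) :
    ∑ l ∈ Finset.Ico d K, e (l + 2) ≤ ∑ l ∈ Finset.Ico d (K + 1), e l := by
  rw [Finset.sum_Ico_add' e d K 2]
  have h1 : ∑ l ∈ Finset.Ico (d + 2) (K + 2), e l ≤ ∑ l ∈ Finset.Ico d (K + 2), e l :=
    Finset.sum_le_sum_of_subset_of_nonneg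
      (fun x hx => by rw [Finset.mem_Ico] at *; omega) fun i _ _ => he i
  by_cases h : d ≤ K + 1
  · rw [Finset.sum_Ico_succ_top h, heK, add_zero] at h1
    exact h1
  · have : Finset.Ico d (K + 2) = ∅ := by
      apply Finset.Ico_eq_empty; omega
    rw [this, Finset.sum_empty] at h1
    exact h1.trans (Finset.sum_nonneg fun i _ => he i)

theorem harm (K d : ℕ) : ∑ l ∈ Finset.Ico d K, 1 / ((l : ℝ) + 1) ≤ 1 + Real.log ((K : ℝ) + 1) := by
  have h1 : ∑ l ∈ Finset.Ico d K, 1 / ((l : ℝ) + 1) ≤ ∑ l ∈ Finset.range (K + 1), 1 / ((l : ℝ) + 1) :=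
    Finset.sum_le_sum_of_subset_of_nonneg
      (fun x hx => by rw [Finset.mem_Ico] at hx; rw [Finset.mem_range]; omega)
      fun i _ _ => by positivity
  have h2 := harmonic_le_one_add_log (K + 1)
  have h3 : ((harmonic (K + 1) : ℚ) : ℝ) = ∑ l ∈ Finset.range (K + 1), 1 / ((l : ℝ) + 1) := by
    simp [harmonic]
  rw [h3] at h2
  push_cast at h2
  exact h1.trans h2

theorem cs (s : Finset ℕ) {f g : ℕ → ℝ} (hf : ∀ i ∈ s, 0 ≤ f i) (hg : ∀ i ∈ s, 0 ≤ g i) :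
    ∑ i ∈ s, √(f i) * √(g i) ≤ √(∑ i ∈ s, f i) * √(∑ i ∈ s, g i) := by
  have h := Real.sum_mul_le_sqrt_mul_sqrt s (fun i => √(f i)) (fun i => √(g i))
  have h1 : ∑ i ∈ s, √(f i) ^ 2 = ∑ i ∈ s, f i :=
    Finset.sum_congr rfl fun i hi => Real.sq_sqrt (hf i hi)
  have h2 : ∑ i ∈ s, √(g i) ^ 2 = ∑ i ∈ s, g i :=
    Finset.sum_congr rfl fun i hi => Real.sq_sqrt (hg i hi)
  rwa [h1, h2] at h

theorem sqrt_bd {y : ℝ} (hy : 0 ≤ y) (c : ℝ) (hc : 0 ≤ c) : √(1 + 2 * c * y) ≤ 1 + c * y := by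
  have h : 0 ≤ c * y := mul_nonneg hc hy
  rw [Real.sqrt_le_left (by linarith)]
  nlinarith [sq_nonneg (c * y)]

end RS

theorem gsum495 {K d : ℕ} (hd : d ≤ K) {σ : ℝ} (hσ : 0 < σ) {V D ω R e : ℕ → ℝ}
    (he : ∀ l, 0 ≤ e l) (heK : e (K + 1) = 0)
    (hV0 : ∀ l, d ≤ l → l < K → 0 ≤ V l)
    (hV : ∀ l, d ≤ l → l < K →
      V l ≤ (R (l + 1) - R l) + 4 * (e (l + 1) + e (l + 2)) * ((K : ℝ) + 1) / σ)
    (hD0 : ∀ l, d ≤ l → l < K → 0 ≤ D l)
    (hD : ∀ l, d ≤ l → l < K →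
      ((l : ℝ) + 1) / ((K : ℝ) + 1) * D l ≤ 1 / ((K : ℝ) + 1) * V l + 2 * (e l + e (l + 1)) / σ)
    (hR0 : 0 ≤ R d) (hR1 : R K ≤ 1) (hω0 : 0 ≤ ω d) (hω1 : ω K ≤ 1)
    (hω : ∀ l, d ≤ l → l < K → ω l ≤ ω (l + 1)) :
    ∑ l ∈ Finset.Ico d K, 1 / ((K : ℝ) + 1) * (√(D l) + √(ω (l + 1) - ω l) * √(V l) +
      3 * (e l + e (l + 1)) * ((K : ℝ) + 1) / σ) ≤
      √(1 + Real.log ((K : ℝ) + 1)) *
        (2 + 16 * ((K : ℝ) + 1) * (∑ l ∈ Finset.Ico d (K + 1), e l) / σ) / ((K : ℝ) + 1) := by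
  set L : ℝ := (K : ℝ) + 1 with hL
  have hL1 : 1 ≤ L := by rw [hL]; linarith [Nat.cast_nonneg (α := ℝ) K]
  have hL0 : 0 < L := by linarith
  set E : ℝ := ∑ l ∈ Finset.Ico d (K + 1), e l with hE
  have hE0 : 0 ≤ E := Finset.sum_nonneg fun i _ => he i
  set y : ℝ := L * E / σ with hy
  have hy0 : 0 ≤ y := by positivity
  have a0 : ∑ l ∈ Finset.Ico d K, e l ≤ E := RS.e0 he
  have a1 : ∑ l ∈ Finset.Ico d K, e (l + 1) ≤ E := RS.e1 he
  have a2 : ∑ l ∈ Finset.Ico d K, e (l + 2) ≤ E := RS.e2 he heK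
  have hLs : 0 ≤ L / σ := by positivity
  -- the sum of the variances
  have sV : ∑ l ∈ Finset.Ico d K, V l ≤ 1 + 8 * y := by
    have h1 : ∑ l ∈ Finset.Ico d K, V l ≤ ∑ l ∈ Finset.Ico d K,
        ((R (l + 1) - R l) + (4 * (L / σ)) * (e (l + 1) + e (l + 2))) := by
      refine Finset.sum_le_sum fun l hl => ?_
      rw [Finset.mem_Ico] at hl
      refine (hV l hl.1 hl.2).trans_eq ?_
      ring
    rw [Finset.sum_add_distrib, ← Finset.mul_sum, Finset.sum_add_distrib,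
      Finset.sum_Ico_sub R hd] at h1
    have h2 : (4 * (L / σ)) * (∑ l ∈ Finset.Ico d K, e (l + 1) + ∑ l ∈ Finset.Ico d K, e (l + 2)) ≤
        (4 * (L / σ)) * (E + E) := mul_le_mul_of_nonneg_left (by linarith) (by positivity)
    have h3 : (4 * (L / σ)) * (E + E) = 8 * y := by rw [hy]; ring
    linarith
  have sV0 : ∀ l ∈ Finset.Ico d K, 0 ≤ V l := fun l hl => by
    rw [Finset.mem_Ico] at hl
    exact hV0 l hl.1 hl.2
  -- first term
  have hlog : 0 ≤ Real.log L := Real.log_nonneg hL1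
  have hs1 : 1 ≤ √(1 + Real.log L) := by
    rw [Real.one_le_sqrt]
    linarith
  have t1 : ∑ l ∈ Finset.Ico d K, √(D l) ≤ √(1 + Real.log L) * (1 + 6 * y) := by
    have h1 : ∀ l ∈ Finset.Ico d K, √(D l) ≤
        √(1 / ((l : ℝ) + 1)) * √(V l + (2 * (L / σ)) * (e l + e (l + 1))) := by
      intro l hl
      rw [Finset.mem_Ico] at hl
      rw [← Real.sqrt_mul (by positivity)]
      refine Real.sqrt_le_sqrt ?_
      have h := hD l hl.1 hl.2
      have hl0 : (0 : ℝ) < (l : ℝ) + 1 := by positivity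
      have h2 : L * (((l : ℝ) + 1) / L * D l) ≤ L * (1 / L * V l + 2 * (e l + e (l + 1)) / σ) :=
        mul_le_mul_of_nonneg_left h hL0.le
      have h3 : L * (((l : ℝ) + 1) / L * D l) = ((l : ℝ) + 1) * D l := by field_simp
      have h4 : L * (1 / L * V l + 2 * (e l + e (l + 1)) / σ) =
          V l + (2 * (L / σ)) * (e l + e (l + 1)) := by field_simp
      rw [h3, h4] at h2
      rw [one_div, ← div_eq_inv_mul, le_div_iff₀ hl0]
      linarith
    have h2 : ∀ l ∈ Finset.Ico d K, 0 ≤ V l + (2 * (L / σ)) * (e l + e (l + 1)) := fun l hl => by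
      have := sV0 l hl
      have := he l
      have := he (l + 1)
      positivity
    have h3 := (Finset.sum_le_sum h1).trans (RS.cs (Finset.Ico d K)
      (f := fun l => 1 / ((l : ℝ) + 1)) (fun l _ => by positivity) h2)
    refine h3.trans ?_
    refine mul_le_mul (Real.sqrt_le_sqrt (RS.harm K d)) ?_ (Real.sqrt_nonneg _)
      (Real.sqrt_nonneg _)
    refine le_trans (Real.sqrt_le_sqrt ?_) (RS.sqrt_bd hy0 6 (by norm_num))
    rw [Finset.sum_add_distrib, ← Finset.mul_sum, Finset.sum_add_distrib]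
    have h5 : (2 * (L / σ)) * (∑ l ∈ Finset.Ico d K, e l + ∑ l ∈ Finset.Ico d K, e (l + 1)) ≤
        (2 * (L / σ)) * (E + E) := mul_le_mul_of_nonneg_left (by linarith) (by positivity)
    have h6 : (2 * (L / σ)) * (E + E) = 4 * y := by rw [hy]; ring
    linarith
  -- second term
  have t2 : ∑ l ∈ Finset.Ico d K, √(ω (l + 1) - ω l) * √(V l) ≤ 1 + 4 * y := by
    have h1 := RS.cs (Finset.Ico d K) (f := fun l => ω (l + 1) - ω l) (g := V) (fun l hl => by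
      rw [Finset.mem_Ico] at hl
      exact sub_nonneg.2 (hω l hl.1 hl.2)) sV0
    refine h1.trans ?_
    rw [Finset.sum_Ico_sub ω hd]
    have h2 : √(ω K - ω d) ≤ 1 := by
      rw [Real.sqrt_le_left zero_le_one]
      linarith
    have h3 : √(∑ l ∈ Finset.Ico d K, V l) ≤ 1 + 4 * y :=
      (Real.sqrt_le_sqrt (sV.trans_eq (by ring))).trans (RS.sqrt_bd hy0 4 (by norm_num))
    calc √(ω K - ω d) * √(∑ l ∈ Finset.Ico d K, V l) ≤ 1 * (1 + 4 * y) :=
          mul_le_mul h2 h3 (Real.sqrt_nonneg _) zero_le_one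
      _ = _ := one_mul _
  -- third term
  have t3 : ∑ l ∈ Finset.Ico d K, 3 * (e l + e (l + 1)) * L / σ ≤ 6 * y := by
    have h1 : ∑ l ∈ Finset.Ico d K, 3 * (e l + e (l + 1)) * L / σ =
        (3 * (L / σ)) * (∑ l ∈ Finset.Ico d K, e l + ∑ l ∈ Finset.Ico d K, e (l + 1)) := by
      rw [← Finset.sum_add_distrib, Finset.mul_sum]
      exact Finset.sum_congr rfl fun l _ => by ring
    rw [h1]
    have h5 : (3 * (L / σ)) * (∑ l ∈ Finset.Ico d K, e l + ∑ l ∈ Finset.Ico d K, e (l + 1)) ≤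
        (3 * (L / σ)) * (E + E) := mul_le_mul_of_nonneg_left (by linarith) (by positivity)
    have h6 : (3 * (L / σ)) * (E + E) = 6 * y := by rw [hy]; ring
    linarith
  rw [← Finset.mul_sum, Finset.sum_add_distrib, Finset.sum_add_distrib, one_div,
    ← div_eq_inv_mul]
  refine div_le_div_of_nonneg_right ?_ hL0.le
  have h7 : 16 * L * E / σ = 16 * y := by rw [hy]; ring
  rw [h7]
  have h8 : 1 * (1 + 10 * y) ≤ √(1 + Real.log L) * (1 + 10 * y) :=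
    mul_le_mul_of_nonneg_right hs1 (by positivity)
  linarith

end Vale.Agent.P146.Ub.Ld
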