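import Vale.Agent.P146.Rt.RtDefs

/-!
# P146, Rt: the variance of `u_l`, one error per level (the proof of `Fld.sync`, P157/LvPair.lean)
-/

open MeasureTheory ProbabilityTheory Filter Topology

namespace Vale.Agent.P146.Ub.Ld

set_option linter.unusedSectionVars false

open Vale.Agent.P157 Vale.Agent.P157.Lv Vale.Agent.P157.Lv.Sy Vale.Agent.P157.Lv.Fld
open Vale.Agent.P157.Par (Path Exponents incr spinPart)
open Vale.Agent.P146 (Pair freeEnergy disorder)

section gen

variable {ι X : Type} [Fintype ι] [DecidableEq ι] [Fintype X] [DecidableEq X] [Nonempty X] {N : ℕ}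
  {S : Sy ι X} {D : ι → (ι → ℝ) → X → ℝ} {φ : X → Fin N → ℝ} {zc : ℕ → Fin N → ι} {s : ℕ → ℝ}

theorem gV_nonneg (F : Fld S D φ zc s) {l : ℕ} (hl : l ≤ S.K) : 0 ≤ gV S φ l := by
  have hS := F.hreg
  have nu := nh_uu (φ := φ) hS hl
  have nc : ∀ c : ℝ, Nh (ι := ι) (X := X) (fun _ _ => c) := fun c => Nh.fst (EG.const c)
  rw [gV, ← hS.Ex_const 0]
  exact hS.Ex_mono (nc 0) (Nh.pow (Nh.sub nu (nc _)) 2) fun z x => sq_nonneg _

/-- `V_l ≤ (R_{l+1} - R_l) + 2 G`, `π |G| ≤ 2 (e_{l+1} + e_{l+2}) / σ` -/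
theorem gsync_V (F : Fld S D φ zc s) {d : ℕ} {σ π : ℝ} (hσ : 0 < σ) (hπ : 0 < π)
    (hs : ∀ l, d ≤ l → l ≤ S.K → σ ≤ s l) (hp : ∀ l ≤ S.K, π ≤ S.p l) {e : ℕ → ℝ}
    (he : ∀ l, 0 ≤ e l)
    (hc : ∀ l, d ≤ l → l ≤ S.K → ∃ c, S.Ex (fun z x => |hz φ zc l z x - c|) ≤ e l)
    {l : ℕ} (hd : d ≤ l) (hl : l < S.K) :
    gV S φ l ≤ (S.Rl φ (l + 1) - S.Rl φ l) + 4 * (e (l + 1) + e (l + 2)) / (σ * π) := by
  have hS := F.hreg
  have hN := F.N_pos
  have hlK := hl.le
  set R : ℕ → ℝ := fun k => S.Rl φ k with hR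
  set W : ℕ → ℝ := fun k => S.Ex (fun z x => uu S φ l z x * uu S φ k z x) with hW
  set G : ℕ → ℝ := fun k => W k - R l * R k with hG
  set A : ℕ → ℝ := fun j => ∑ k ∈ Finset.Ico j (S.K + 1), S.p k * G k with hA
  -- consequences of (A)
  have cA : ∀ j, l < j → j ≤ S.K + 1 → |A j| ≤ 2 * e j / σ := by
    intro j hlj hj
    rcases Nat.lt_or_ge j (S.K + 1) with hj' | hj'
    · have hjK : j ≤ S.K := by omega
      obtain ⟨c, hc'⟩ := hc j (by omega) hjK
      have h1 := F.dev (j := j) hlK hc'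
      have h2 := F.ident_A hlj hjK
      have h3 := F.Ex_hz hjK
      have e1 : S.Ex (fun z x => hz φ zc j z x * uu S φ l z x) - S.Ex (hz φ zc j) * S.Rl φ l =
          - (s j * A j) := by
        have e2 : S.Ex (fun z x => hz φ zc j z x * uu S φ l z x) =
            s j * (R l - ∑ i ∈ Finset.Ico j (S.K + 1), S.p i * W i) := h2
        rw [e2, h3]
        have e3 : A j = ∑ i ∈ Finset.Ico j (S.K + 1), S.p i * W i -
            R l * ∑ i ∈ Finset.Ico j (S.K + 1), S.p i * R i := by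
          simp only [hA, hG]
          rw [Finset.mul_sum, ← Finset.sum_sub_distrib]
          refine Finset.sum_congr rfl fun i _ => ?_
          ring
        rw [e3]
        simp only [hR]
        ring
      rw [e1, abs_neg, abs_mul, abs_of_nonneg (F.pos j hjK)] at h1
      rw [le_div_iff₀ hσ]
      have h4 := mul_le_mul_of_nonneg_left (hs j (by omega) hjK) (abs_nonneg (A j))
      rw [mul_comm (|A j|) (s j)] at h4
      exact h4.trans h1
    · have : A j = 0 := by
        simp only [hA]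
        rw [Finset.Ico_eq_empty (by omega), Finset.sum_empty]
      rw [this, abs_zero]
      have := he j
      positivity
  -- the covariance with the next level
  have hG1 : G (l + 1) ≤ 2 * (e (l + 1) + e (l + 2)) / (σ * π) := by
    have e1 : A (l + 1) = S.p (l + 1) * G (l + 1) + A (l + 1 + 1) := by
      simp only [hA]
      rw [Finset.sum_eq_sum_Ico_succ_bot (by omega : l + 1 < S.K + 1)]
    have h1 := abs_le.mp (cA (l + 1) (by omega) (by omega))
    have h2 := abs_le.mp (cA (l + 1 + 1) (by omega) (by omega))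
    have h3 := hp (l + 1) (by omega)
    have h4 : S.p (l + 1) * G (l + 1) ≤ 2 * (e (l + 1) + e (l + 2)) / σ := by
      have : 2 * (e (l + 1) + e (l + 2)) / σ = 2 * e (l + 1) / σ + 2 * e (l + 1 + 1) / σ := by
        ring
      rw [this]
      linarith only [e1, h1.2, h2.1]
    have h6 := he (l + 1)
    have h7 := he (l + 2)
    by_cases hg : G (l + 1) ≤ 0
    · exact hg.trans (by positivity)
    · push Not at hg
      rw [← div_div, le_div_iff₀ hπ]
      have h5 := mul_le_mul_of_nonneg_left h3 hg.le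
      rw [mul_comm (G (l + 1)) (S.p (l + 1))] at h5
      exact h5.trans h4
  -- the variance of `u_l`
  have nu := nh_uu (φ := φ) hS hlK
  have nu' := nh_uu (φ := φ) hS (show l + 1 ≤ S.K from hl)
  have nc : ∀ c : ℝ, Nh (ι := ι) (X := X) (fun _ _ => c) := fun c => Nh.fst (EG.const c)
  set V : ℝ := W l - R l * R l with hV
  have hV1 : S.Ex (fun z x => (uu S φ l z x - R l) ^ 2) = V := by
    have e1 : (fun z x => (uu S φ l z x - R l) ^ 2) =
        fun z x => (uu S φ l z x * uu S φ l z x - 2 * R l * uu S φ l z x) + R l ^ 2 := by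
      funext z x
      ring
    rw [e1, hS.Ex_add (Nh.sub (Nh.mul nu nu) (Nh.const_mul _ nu)) (nc _),
      hS.Ex_sub (Nh.mul nu nu) (Nh.const_mul _ nu), Sy.Ex_const_mul, hS.Ex_const, F.Ex_uu hlK]
    simp only [hV, hR, hW]
    ring
  have hdif : S.Ex (fun z x => (uu S φ l z x - uu S φ (l + 1) z x) ^ 2) ≤ R (l + 1) - R l := by
    rw [← F.Rl_sub hl, ← Sy.Ex_const_mul]
    refine hS.Ex_mono (Nh.pow (Nh.sub nu nu') 2) (Nh.fst (EG.const_mul _ (EG.sum _ fun i _ =>
      ((eg_mg hS (show l + 1 ≤ S.K from hl) i).sub (eg_mg hS hlK i)).pow 2))) fun z x => ?_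
    have e1 : uu S φ l z x - uu S φ (l + 1) z x =
        -(1 / N * ∑ a, (S.mg φ (l + 1) a z - S.mg φ l a z) * φ x a) := by
      simp_rw [uu, sub_mul]
      rw [Finset.sum_sub_distrib]
      ring
    rw [e1, neg_sq, mul_pow]
    have h1 := Finset.sum_mul_sq_le_sq_mul_sq Finset.univ
      (fun a => S.mg φ (l + 1) a z - S.mg φ l a z) (φ x)
    rw [F.norm] at h1
    calc (1 / (N : ℝ)) ^ 2 * (∑ a, (S.mg φ (l + 1) a z - S.mg φ l a z) * φ x a) ^ 2
        ≤ (1 / (N : ℝ)) ^ 2 * ((∑ a, (S.mg φ (l + 1) a z - S.mg φ l a z) ^ 2) * N) :=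
          mul_le_mul_of_nonneg_left h1 (by positivity)
      _ = 1 / N * ∑ i, (S.mg φ (l + 1) i z - S.mg φ l i z) ^ 2 := by
          field_simp
  have hV2 : V ≤ (R (l + 1) - R l) + 2 * G (l + 1) := by
    have e1 : V - G (l + 1) =
        S.Ex (fun z x => (uu S φ l z x - R l) * (uu S φ l z x - uu S φ (l + 1) z x)) := by
      have e2 : (fun z x => (uu S φ l z x - R l) * (uu S φ l z x - uu S φ (l + 1) z x)) =
          fun z x => (uu S φ l z x * uu S φ l z x - uu S φ l z x * uu S φ (l + 1) z x) -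
            (R l * uu S φ l z x - R l * uu S φ (l + 1) z x) := by
        funext z x
        ring
      rw [e2, hS.Ex_sub (Nh.sub (Nh.mul nu nu) (Nh.mul nu nu'))
        (Nh.sub (Nh.const_mul _ nu) (Nh.const_mul _ nu')), hS.Ex_sub (Nh.mul nu nu) (Nh.mul nu nu'),
        hS.Ex_sub (Nh.const_mul _ nu) (Nh.const_mul _ nu'), Sy.Ex_const_mul, Sy.Ex_const_mul,
        F.Ex_uu hlK, F.Ex_uu (show l + 1 ≤ S.K from hl)]
      simp only [hV, hG, hR, hW]
      ring
    have h1 : S.Ex (fun z x => (uu S φ l z x - R l) * (uu S φ l z x - uu S φ (l + 1) z x)) ≤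
        S.Ex (fun z x => 1 / 2 * (uu S φ l z x - R l) ^ 2 +
          1 / 2 * (uu S φ l z x - uu S φ (l + 1) z x) ^ 2) := by
      refine hS.Ex_mono (Nh.mul (Nh.sub nu (nc _)) (Nh.sub nu nu'))
        (Nh.add (Nh.const_mul _ (Nh.pow (Nh.sub nu (nc _)) 2))
          (Nh.const_mul _ (Nh.pow (Nh.sub nu nu') 2))) fun z x => ?_
      have := two_mul_le_add_sq (uu S φ l z x - R l) (uu S φ l z x - uu S φ (l + 1) z x)
      linarith only [this]
    rw [hS.Ex_add (Nh.const_mul _ (Nh.pow (Nh.sub nu (nc _)) 2))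
      (Nh.const_mul _ (Nh.pow (Nh.sub nu nu') 2)), Sy.Ex_const_mul, Sy.Ex_const_mul, hV1] at h1
    linarith
  have e4 : 4 * (e (l + 1) + e (l + 2)) / (σ * π) =
      2 * (2 * (e (l + 1) + e (l + 2)) / (σ * π)) := by ring
  have e5 : gV S φ l = V := hV1
  rw [e5, e4]
  linarith only [hV2, hG1]

end gen

end Vale.Agent.P146.Ub.Ld
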