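import Vale.Agent.P146.Rt.RtDefs

/-! P146, Rt: a concentrated field against the average of an observable of the level `k`. -/

open MeasureTheory ProbabilityTheory Filter Topology

namespace Vale.Agent.P146.Ub.Ld

set_option linter.unusedSectionVars false

open Vale.Agent.P157 Vale.Agent.P157.Lv Vale.Agent.P157.Lv.Sy Vale.Agent.P157.Lv.Fld
open Vale.Agent.P157.Par (Path Exponents incr spinPart)
open Vale.Agent.P146 (Pair freeEnergy disorder)
open Vale.Agent.P146.Sk (PSK)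

section gen

variable {ι X : Type} [Fintype ι] [DecidableEq ι] [Fintype X] [DecidableEq X] [Nonempty X] {N : ℕ}
  {S : Sy ι X} {D : ι → (ι → ℝ) → X → ℝ} {φ : X → Fin N → ℝ} {zc : ℕ → Fin N → ι} {s : ℕ → ℝ}

/-- the integrand of the derivative of `T_k ε`, without the strength -/
noncomputable def gwi (S : Sy ι X) (φ : X → Fin N → ℝ) (ε : X → ℝ) (k : ℕ) (i : Fin N) :
    (ι → ℝ) → X → ℝ :=
  fun z x => ε x * (φ x i - ∑ a ∈ Finset.Ico (k + 1) (S.K + 1), S.p a * S.mg φ a i z -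
    S.m (k + 1) * S.mg φ k i z)

theorem nh_gwi (hS : S.Reg) (ε : X → ℝ) {k : ℕ} (hk : k ≤ S.K) (i : Fin N) :
    Nh (gwi S φ ε k i) := by
  refine Nh.mul (Nh.snd ε) (Nh.sub (Nh.sub (Nh.snd fun x => φ x i) (Nh.sum _ fun a ha => ?_))
    (Nh.const_mul _ (Nh.fst (eg_mg hS hk i))))
  exact Nh.const_mul _ (Nh.fst (eg_mg hS (by have := Finset.mem_Ico.1 ha; omega) i))

theorem gw1_pd (F : Fld S D φ zc s) (ε : X → ℝ) {j k : ℕ} (hjk : j ≤ k) (hk : k ≤ S.K)
    (i : Fin N) :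
    PD (zc j i) (S.T k (fun _ y => ε y)) (fun z => s j * S.T k (gwi S φ ε k i) z) := by
  have hjK : j ≤ S.K := hjk.trans hk
  have h := F.reg.pd_T hk (e := zc j i) (by rw [F.lev j hjK i]; exact hjk)
    (h := fun _ x => ε x) (h' := fun _ _ => 0) (fun x => PD.const _) (Nh.snd ε)
    (Nh.fst (EG.const 0))
  refine h.congr fun z => ?_
  have hD : D (zc j i) = fun z x => s j * φ x i := by
    funext z x
    exact F.D j hjK i z x
  have e : (fun (z : ι → ℝ) (x : X) => (0 : ℝ) + ε x * (D (zc j i) z x -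
      ∑ a ∈ Finset.Ico (k + 1) (S.K + 1), S.p a * S.T a (D (zc j i)) z -
        S.m (k + 1) * S.T k (D (zc j i)) z)) =
      fun z x => s j * gwi S φ ε k i z x := by
    funext z x
    rw [hD]
    simp only [Sy.T_const_mul]
    have e1 : ∀ a, S.T a (fun _ x => φ x i) z = S.mg φ a i z := fun a => rfl
    simp only [e1, gwi]
    have e2 : ∑ a ∈ Finset.Ico (k + 1) (S.K + 1), S.p a * (s j * S.mg φ a i z) =
        s j * ∑ a ∈ Finset.Ico (k + 1) (S.K + 1), S.p a * S.mg φ a i z := by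
      rw [Finset.mul_sum]
      refine Finset.sum_congr rfl fun a _ => ?_
      ring
    rw [e2]
    ring
  rw [e, Sy.T_const_mul]

theorem gw1_T (hS : S.Reg) {ε : X → ℝ} (hε : ∀ x, |ε x| ≤ 1) {k : ℕ} (hk : k ≤ S.K)
    (z : ι → ℝ) : |S.T k (fun _ y => ε y) z| ≤ 1 := by
  rw [hS.T_pr hk]
  refine (Finset.abs_sum_le_sum_abs _ _).trans ?_
  rw [← hS.sum_pr hk z]
  refine Finset.sum_le_sum fun x _ => ?_
  rw [abs_mul, abs_of_nonneg (hS.pr_nonneg hk z x)]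
  exact mul_le_of_le_one_right (hS.pr_nonneg hk z x) (hε x)

theorem nh_gw (hS : S.Reg) (ε : X → ℝ) {k : ℕ} (hk : k ≤ S.K) : Nh (gw S ε k) :=
  Nh.mul (Nh.fst (hS.eg_T hk (Nh.snd ε))) (Nh.snd ε)

theorem gw1_abs (hS : S.Reg) {ε : X → ℝ} (hε : ∀ x, |ε x| ≤ 1) {k : ℕ} (hk : k ≤ S.K)
    (z : ι → ℝ) (x : X) : |gw S ε k z x| ≤ 1 := by
  unfold gw
  rw [abs_mul]
  exact mul_le_one₀ (gw1_T hS hε hk z) (abs_nonneg _) (hε x)

theorem gw1_Ex (hS : S.Reg) {ε : X → ℝ} (hε : ∀ x, |ε x| ≤ 1) {k : ℕ} (hk : k ≤ S.K) :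
    |S.Ex (gw S ε k)| ≤ 1 := by
  have nw := nh_gw hS ε hk
  refine (hS.abs_Ex_le nw).trans ?_
  have h := hS.Ex_mono (Nh.abs nw) (Nh.fst (EG.const (1 : ℝ))) fun z x => gw1_abs hS hε hk z x
  rwa [hS.Ex_const] at h

/-- a concentrated field is almost uncorrelated with a bounded observable -/
theorem gw1_dev (F : Fld S D φ zc s) {j : ℕ} {w : (ι → ℝ) → X → ℝ} (nw : Nh w)
    (hw : ∀ z x, |w z x| ≤ 1) {e c : ℝ}
    (hc : S.Ex (fun z x => |hz φ zc j z x - c|) ≤ e) :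
    |S.Ex (fun z x => hz φ zc j z x * w z x) - S.Ex (hz φ zc j) * S.Ex w| ≤ 2 * e := by
  have hS := F.hreg
  have nh := F.nh_hz j
  have nc : ∀ c : ℝ, Nh (ι := ι) (X := X) (fun _ _ => c) := fun c => Nh.fst (EG.const c)
  have hE : |S.Ex w| ≤ 1 := by
    refine (hS.abs_Ex_le nw).trans ?_
    have h := hS.Ex_mono (Nh.abs nw) (Nh.fst (EG.const (1 : ℝ))) fun z x => hw z x
    rwa [hS.Ex_const] at h
  have n1 : Nh (fun z x => hz φ zc j z x - c) := Nh.sub nh (nc c)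
  have n2 : Nh (fun z x => w z x - S.Ex w) := Nh.sub nw (nc _)
  have e : S.Ex (fun z x => hz φ zc j z x * w z x) - S.Ex (hz φ zc j) * S.Ex w =
      S.Ex (fun z x => (hz φ zc j z x - c) * (w z x - S.Ex w)) := by
    have e1 : (fun z x => (hz φ zc j z x - c) * (w z x - S.Ex w)) =
        fun z x => (hz φ zc j z x * w z x - S.Ex w * hz φ zc j z x) -
          c * (w z x - S.Ex w) := by
      funext z x
      ring
    rw [e1, hS.Ex_sub (Nh.sub (Nh.mul nh nw) (Nh.const_mul _ nh)) (Nh.const_mul _ n2),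
      hS.Ex_sub (Nh.mul nh nw) (Nh.const_mul _ nh), Sy.Ex_const_mul, Sy.Ex_const_mul,
      hS.Ex_sub nw (nc _), hS.Ex_const, sub_self, mul_zero, sub_zero, mul_comm]
  rw [e]
  refine (hS.abs_Ex_le (Nh.mul n1 n2)).trans ?_
  have h2 : S.Ex (fun z x => |(hz φ zc j z x - c) * (w z x - S.Ex w)|) ≤
      S.Ex (fun z x => 2 * |hz φ zc j z x - c|) := by
    refine hS.Ex_mono (Nh.abs (Nh.mul n1 n2)) (Nh.const_mul _ (Nh.abs n1)) fun z x => ?_
    rw [abs_mul, mul_comm]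
    refine mul_le_mul_of_nonneg_right ?_ (abs_nonneg _)
    have h3 := abs_le.mp (hw z x)
    have h4 := abs_le.mp hE
    rw [abs_le]
    constructor <;> linarith [h3.1, h3.2, h4.1, h4.2]
  refine h2.trans ?_
  rw [Sy.Ex_const_mul]
  linarith only [hc]

theorem gw_field (F : Fld S D φ zc s) {d : ℕ} {σ : ℝ} (hσ : 0 < σ)
    (hs : ∀ l, d ≤ l → l ≤ S.K → σ ≤ s l) {e : ℕ → ℝ} (he : ∀ l, 0 ≤ e l)
    (hc : ∀ l, d ≤ l → l ≤ S.K → ∃ c, S.Ex (fun z x => |hz φ zc l z x - c|) ≤ e l)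
    {ε : X → ℝ} (hε : ∀ x, |ε x| ≤ 1) {j k : ℕ} (hd : d ≤ j) (hjk : j < k) (hk : k ≤ S.K) :
    S.p j * |S.Ex (fun z x => gw S ε k z x * uu S φ j z x) - S.Ex (gw S ε k) * S.Rl φ j| ≤
      2 * (e j + e (j + 1)) / σ := by
  have hS := F.hreg
  have nw := nh_gw hS ε hk
  have ng : ∀ i, EG (S.T k (gwi S φ ε k i)) := fun i => hS.eg_T hk (nh_gwi hS ε hk i)
  obtain ⟨G, hG⟩ : ∃ G : ℝ, G = S.Ex (fun z x => 1 / (N : ℝ) * ∑ i, φ x i *
      (S.T k (gwi S φ ε k i) z * ε x)) := ⟨_, rfl⟩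
  obtain ⟨W, hW⟩ : ∃ W : ℝ, W = S.Ex (gw S ε k) := ⟨_, rfl⟩
  -- the two levels
  have key : ∀ i, d ≤ i → i ≤ k → |(G + W - ∑ a ∈ Finset.Ico i (S.K + 1), S.p a *
      S.Ex (fun z x => gw S ε k z x * uu S φ a z x)) -
      (1 - ∑ a ∈ Finset.Ico i (S.K + 1), S.p a * S.Rl φ a) * W| ≤ 2 * e i / σ := by
    intro i hdi hik
    have hiK : i ≤ S.K := hik.trans hk
    obtain ⟨c, hc'⟩ := hc i hdi hiK
    have h1 := gw1_dev F nw (fun z x => gw1_abs hS hε hk z x) hc'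
    have h2 := F.Ex_hz_mul hiK (u := gw S ε k)
      (u' := fun b z x => s i * S.T k (gwi S φ ε k b) z * ε x)
      (fun b x => ((gw1_pd F ε hik hk b).mul (PD.const (ε x))).congr fun y => by
        rw [mul_zero, add_zero]) nw
      (fun b => Nh.mul (Nh.const_mul _ (Nh.fst (ng b))) (Nh.snd ε))
    have h3 : S.Ex (fun z x => 1 / (N : ℝ) * ∑ b, φ x b *
        (s i * S.T k (gwi S φ ε k b) z * ε x)) = s i * G := by
      rw [hG, ← Sy.Ex_const_mul]
      congr 1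
      funext z x
      rw [Finset.mul_sum, Finset.mul_sum, Finset.mul_sum]
      refine Finset.sum_congr rfl fun b _ => ?_
      ring
    rw [h3, ← hW] at h2
    rw [h2, F.Ex_hz hiK, ← hW] at h1
    have hsi := hs i hdi hiK
    have hsi0 : 0 < s i := lt_of_lt_of_le hσ hsi
    have e1 : s i * G + s i * (W - ∑ a ∈ Finset.Ico i (S.K + 1), S.p a *
        S.Ex (fun z x => gw S ε k z x * uu S φ a z x)) -
        s i * (1 - ∑ a ∈ Finset.Ico i (S.K + 1), S.p a * S.Rl φ a) * W =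
        s i * ((G + W - ∑ a ∈ Finset.Ico i (S.K + 1), S.p a *
          S.Ex (fun z x => gw S ε k z x * uu S φ a z x)) -
        (1 - ∑ a ∈ Finset.Ico i (S.K + 1), S.p a * S.Rl φ a) * W) := by ring
    rw [e1, abs_mul, abs_of_pos hsi0] at h1
    rw [le_div_iff₀ hσ, mul_comm]
    exact (mul_le_mul_of_nonneg_right hsi (abs_nonneg _)).trans h1
  have b1 := key j hd hjk.le
  have b2 := key (j + 1) (by omega) (by omega)
  have hj : j < S.K + 1 := by omega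
  rw [Finset.sum_eq_sum_Ico_succ_bot hj, Finset.sum_eq_sum_Ico_succ_bot hj] at b1
  rw [← hW]
  have hp : 0 ≤ S.p j := st_p_nonneg hS (by omega)
  have b5 : S.p j * |S.Ex (fun z x => gw S ε k z x * uu S φ j z x) - W * S.Rl φ j| =
      |S.p j * (S.Ex (fun z x => gw S ε k z x * uu S φ j z x) - W * S.Rl φ j)| := by
    rw [abs_mul, abs_of_nonneg hp]
  have b3 := abs_le.1 b1
  have b4 := abs_le.1 b2
  have e6 : 2 * (e j + e (j + 1)) / σ = 2 * e j / σ + 2 * e (j + 1) / σ := by ring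
  rw [b5, abs_le, e6]
  constructor <;> linarith [b3.1, b3.2, b4.1, b4.2]

end gen

end Vale.Agent.P146.Ub.Ld
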